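import Vale.Agent.P032X.H357.Run

/-!
# P032: the run of the states with monitor bits

An `Md` has no law about `T x q` for `x ≥ NP`: these atoms are free.  `T 4095 (4 i + r)` is the monitor `i` in the reading
`r`, the other free atoms may be used as auxiliary variables.  The monitor `i` is `Kc i` (a constant of the class 0) or a
direction of the closed set `Hs i` has occurred since `u1`.

* `xT` : the model with other values of the free atoms,
* `LegX`, `RlX` : legal models with free atoms, realised patterns,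
* `hbit` : the monitor of a closed set of directions,
* `pdrH` : `Run.pdr` with monitors.
-/

open Set Filter Topology Metric

noncomputable section

namespace Vale.Agent.P032.H357.MK

open Vale.Agent.P032.Six Vale.Agent.P032.H892 Vale.Agent.P032.H913 Vale.Agent.P032.S5.H767 Vale.Agent.P032.H61
  Vale.Agent.P032.H357
open Vale.Agent.P032.H820.K (nbf T3 Md En a0 a1 a2 a3 a4 av lv ps ng Ho av0 av1 av2 av3 av4 av5 av6 av9 av10 av11 av12
  av13 av14 av15)

/-! ### free atoms -/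

theorem fT_eq {K NP NW : ℕ} {nb : ℕ → ℕ → ℕ} {M : Md K NP NW nb} {X : ℕ → ℕ → Prop} {x : ℕ} (hx : x < NP) :
    (fun q => if x < NP then M.T x q else X x q) = M.T x := by
  funext q; rw [if_pos hx]

/-- other values of the free atoms -/
def xT {K NP NW : ℕ} {nb : ℕ → ℕ → ℕ} (M : Md K NP NW nb) (X : ℕ → ℕ → Prop) : Md K NP NW nb :=
  { M with
    T := fun x q => if x < NP then M.T x q else X x q
    vt := fun {k x j q} hk hx hj hq h => by
      show if x < NP then M.T x q else X x q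
      rw [if_pos hx]; exact M.vt hk hx hj hq h
    tv := fun {x q} hx hq h => by
      have h : if x < NP then M.T x q else X x q := h
      rw [if_pos hx] at h; exact M.tv hx hq h
    xx2 := fun {x q} hx hq h h' => by
      have h' : if x < NP then M.T x q else X x q := h'
      rw [if_pos hx] at h'
      obtain ⟨r, h1, h2, h3⟩ := M.xx2 hx hq h h'
      refine ⟨r, h1, h2, ?_⟩
      show if x < NP then M.T x r else X x r
      rw [if_pos hx]; exact h3
    five := fun {x} hx => by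
      obtain ⟨q, h1, h2⟩ := M.five hx
      refine ⟨q, h1, ?_⟩
      show ¬ if x < NP then M.T x q else X x q
      rw [if_pos hx]; exact h2
    hull := fun {x q} hx hq h => by
      have h : if x < NP then M.T x q else X x q := h
      rw [if_pos hx] at h; exact M.hull hx hq h
    tp := fun {x q} hx hq h => by
      have h : if x < NP then M.T x q else X x q := h
      rw [if_pos hx] at h; exact M.tp hx hq h
    xxp := fun {x t q} hx ht hq hn h => by
      have h : if x < NP then M.T x q else X x q := h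
      rw [if_pos hx] at h; exact M.xxp hx ht hq hn h
    nsub := fun {x t} hx ht hn h => by
      have h : T3 (fun q => if x < NP then M.T x q else X x q) := h
      rw [fT_eq hx] at h
      obtain ⟨q, h1, h2, h3⟩ := M.nsub hx ht hn h
      refine ⟨q, h1, ?_, ?_⟩
      · show if nb x t < NP then M.T (nb x t) q else X (nb x t) q
        rw [if_pos hn]; exact h2
      · show ¬ if x < NP then M.T x q else X x q
        rw [if_pos hx]; exact h3
    lmx := fun {x t s q} hx ht hs hq hn hn' h1 h2 h h' => by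
      have h : T3 (fun q => if x < NP then M.T x q else X x q) := h
      rw [fT_eq hx] at h
      have h' : ∀ r < 6, r ≠ q → (if nb x t < NP then M.T (nb x t) r else X (nb x t) r) →
        (if x < NP then M.T x r else X x r) := h'
      simp only [if_pos hx, if_pos hn] at h'
      exact M.lmx hx ht hs hq hn hn' h1 h2 h h'
    lmxw := fun {x t sd q} hx ht hs hq hn h h' => by
      have hx' : x < NP := lt_of_lt_of_le hx M.hNW
      have h : T3 (fun q => if x < NP then M.T x q else X x q) := h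
      rw [fT_eq hx'] at h
      have h' : ∀ r < 6, r ≠ q → (if nb x t < NP then M.T (nb x t) r else X (nb x t) r) →
        (if x < NP then M.T x r else X x r) := h'
      simp only [if_pos hx', if_pos hn] at h'
      exact M.lmxw hx ht hs hq hn h h'
    lmb := fun {x s t i j} hx hs ht hi hj hn hn' h1 h2 h' => by
      have h' : ∀ r < 6, (if x < NP then M.T x r else X x r) → r = i ∨ r = j := h'
      simp only [if_pos hx] at h'
      exact M.lmb hx hs ht hi hj hn hn' h1 h2 h'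
    lmbw := fun {x t sd i j} hx ht hs hi hj hn h' => by
      have h' : ∀ r < 6, (if nb x t < NP then M.T (nb x t) r else X (nb x t) r) → r = i ∨ r = j := h'
      simp only [if_pos hn] at h'
      exact M.lmbw hx ht hs hi hj hn h'
    part := fun {x q} hx hq h => by
      have h : if x < NP then M.T x q else X x q := h
      rw [if_pos hx] at h; exact M.part hx hq h }

section
variable {K NP NW : ℕ} {nb : ℕ → ℕ → ℕ} {M : Md K NP NW nb} {X : ℕ → ℕ → Prop} {n : ℕ}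

theorem xT_T {x q : ℕ} (hx : x < NP) : (xT M X).T x q ↔ M.T x q := by
  show (if x < NP then M.T x q else X x q) ↔ _
  rw [if_pos hx]

theorem xT_X {x q : ℕ} (hx : NP ≤ x) : (xT M X).T x q ↔ X x q := by
  show (if x < NP then M.T x q else X x q) ↔ _
  rw [if_neg (by omega)]

/-- atoms of the points `< NP` -/
theorem xT_av (h : a1 n < NP ∨ (a0 n ≠ 4 ∧ a0 n ≠ 10)) : av (xT M X) n ↔ av M n := by
  have hlt : a0 n < 16 := Nat.mod_lt _ (by norm_num)
  have key : a0 n = 4 ∨ a0 n = 10 ∨ (a0 n ≠ 4 ∧ a0 n ≠ 10) := by omega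
  rcases key with h4 | h10 | ⟨h4, h10⟩
  · have hx : a1 n < NP := by
      rcases h with h | h
      · exact h
      · exact absurd h4 h.1
    unfold av
    rw [h4]
    norm_num
    exact xT_T hx
  · have hx : a1 n < NP := by
      rcases h with h | h
      · exact h
      · exact absurd h10 h.2
    unfold av
    rw [h10]
    norm_num
    unfold Md.L
    exact if_tr (and_congr (xT_T hx) (xT_T hx))
  · unfold av
    rw [if_neg h4, if_neg h4, if_neg h10, if_neg h10]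
    exact Iff.rfl

/-- the free atoms -/
theorem xT_fr {x q : ℕ} (hx : NP ≤ x) (hx' : x < 4096) : av (xT M X) (En 4 x 0 0 q) ↔ X x q :=
  (av4 hx').trans (xT_X hx)

end

/-! ### monitors -/

/-- the monitor of a closed set `D` of directions in the reading `r` -/
def hb (D : Set ℝ) (r : ℕ) (u1 u : ℝ) : Prop :=
  if r = 0 then ∃ m : Fin 6, AccR D (u1 + m.val)
  else if r = 1 then ∃ m : Fin 6, (D ∩ Ioo (u1 + m.val) (u + m.val)).Nonempty
  else if r = 2 then ∃ m : Fin 6, (D ∩ Ioc (u1 + m.val) (u + m.val)).Nonempty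
  else ∃ m : Fin 6, (D ∩ Ioo (u1 + m.val) (u1 + m.val + 1)).Nonempty

theorem hb_mono {D : Set ℝ} {u1 u : ℝ} (h : hb D 1 u1 u) : hb D 2 u1 u := by
  obtain ⟨m, v, h1, h2, h3⟩ := h
  exact ⟨m, v, h1, h2, h3.le⟩

theorem hb_new {D : Set ℝ} {u1 u : ℝ} (h1 : ¬ hb D 1 u1 u) (h2 : hb D 2 u1 u) : ∃ m : Fin 6, u + m.val ∈ D := by
  obtain ⟨m, v, h3, h4, h5⟩ := h2
  rcases h5.eq_or_lt with h6 | h6
  · exact ⟨m, by rw [← h6]; exact h3⟩
  · exact absurd ⟨m, v, h3, h4, h6⟩ h1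

theorem hb_at {D : Set ℝ} {u1 u : ℝ} (hu : u1 < u) {m : Fin 6} (h : u + m.val ∈ D) : hb D 2 u1 u :=
  ⟨m, _, h, by linarith, le_rfl⟩

/-- the monitor before the event gives the end -/
theorem hb_end1 {D : Set ℝ} {u1 u : ℝ} (hu : u < u1 + 1) (h : hb D 1 u1 u) : hb D 3 u1 u := by
  obtain ⟨m, v, h1, h2, h3⟩ := h
  exact ⟨m, v, h1, h2, by linarith⟩

/-- the monitor after the event gives the end -/
theorem hb_end2 {D : Set ℝ} {u1 u : ℝ} (hu : u < u1 + 1) (h : hb D 2 u1 u) : hb D 3 u1 u := by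
  obtain ⟨m, v, h1, h2, h3⟩ := h
  exact ⟨m, v, h1, h2, by linarith⟩

/-- the monitor at the start gives the monitor before the event -/
theorem hb_start {D : Set ℝ} {u1 u : ℝ} (hu : u1 < u) (h : hb D 0 u1 u) : hb D 1 u1 u := by
  obtain ⟨m, h⟩ := h
  obtain ⟨v, h1, h2⟩ := h.ne (show u1 + (m.val : ℝ) < u + m.val by linarith)
  exact ⟨m, v, h1, h2.1, h2.2⟩

variable {U : Fin 6 → Set ℂ} {T : ℂ → Set (Fin 6)} {NP NW TB TC : ℕ}

/-- the values of the free atoms as a function of the time and of the four states -/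
abbrev XV (NW : ℕ) : Type := ℝ → (Fin NW × Fin 6 → Fin 6 × Fin 6) → (Fin NW × Fin 6 → Fin 6 × Fin 6) →
  (Fin NW × Fin 6 → Fin 6 × Fin 6) → (Fin NW × Fin 6 → Fin 6 × Fin 6) → ℕ → ℕ → Prop

/-- the legal models with free atoms -/
def LegX (F : Hy U T) (B : Tb NP NW TB TC) (z : ℂ) (σ : Equiv.Perm (Fin 6)) (X : XV NW) (u1 : ℝ)
    (s0 s1 : Cn NW TC × Fin 6 → Fin 6 × Fin 6) (M : Md 2 NP NW (nbf 2 TB)) : Prop :=
  ∃ (u : ℝ) (hu : u ∈ Ioo u1 (u1 + 1)) (s0' s1' L R : Fin NW × Fin 6 → Fin 6 × Fin 6)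
    (S : St4 U T (Yw u1 u TC z NW) u1 u s0' s1' L R), rs TC s0' = s0 ∧ rs TC s1' = s1 ∧
      M = xT (mS F B z σ hu S) (X u s0' s1' L R)

/-- state literals with `nm` monitors -/
def okH (NW TC nm n : ℕ) : Bool :=
  okA NW TC n || (Nat.beq (Nat.mod n 16) 4 && Nat.beq (Nat.mod (Nat.div n 16) 4096) 4095 &&
    Nat.ble (Nat.succ (Nat.div n 134217728)) nm)

/-- the reading of a state atom or a monitor -/
def rnH (r n : ℕ) : ℕ :=
  bif Nat.beq (Nat.mod n 16) 4 then En 4 4095 0 0 (Nat.add (Nat.mul 4 (Nat.div n 134217728)) r) else rn r n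

/-- the reading of a state literal -/
def rdH (r l : ℕ) : ℕ := Nat.add (Nat.mul 2 (rnH r (Nat.div l 2))) (Nat.mod l 2)

/-- the reading of a clause -/
def rcH (r : ℕ) (c : List ℕ) : List ℕ := c.map (rdH r)

/-- the value of a state atom or a monitor -/
def svH (σ : Equiv.Perm (Fin 6)) (T : ℂ → Set (Fin 6)) (Z : Cn NW TC → ℂ) {nm : ℕ} (Kc : Fin nm → Prop)
    (s : Cn NW TC × Fin 6 → Fin 6 × Fin 6) (A D : GB (Cn NW TC ⊕ Fin nm)) (n : ℕ) : Prop :=
  if a0 n = 4 then ∃ h : a4 n < nm, Kc ⟨a4 n, h⟩ ∨ ∃ m, A (Sum.inr ⟨a4 n, h⟩) m 0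
  else sv σ T Z s (fun c => A (Sum.inl c)) (fun c => D (Sum.inl c)) n

/-- the value of a state literal -/
def slH (σ : Equiv.Perm (Fin 6)) (T : ℂ → Set (Fin 6)) (Z : Cn NW TC → ℂ) {nm : ℕ} (Kc : Fin nm → Prop)
    (s : Cn NW TC × Fin 6 → Fin 6 × Fin 6) (A D : GB (Cn NW TC ⊕ Fin nm)) (l : ℕ) : Prop :=
  if l % 2 = 0 then svH σ T Z Kc s A D (l / 2) else ¬ svH σ T Z Kc s A D (l / 2)

/-- the closed sets of the states -/
def Dh (T : ℂ → Set (Fin 6)) (Z : Cn NW TC → ℂ) {nm : ℕ} (Hs : Fin nm → Set ℝ) :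
    Cn NW TC ⊕ Fin nm → Fin 6 → Set ℝ :=
  Sum.elim (shD T Z) fun i _ => Hs i

/-- the bits `A` in the reading `r` -/
def bAH {B : Type} (D : B → Fin 6 → Set ℝ) (r : ℕ) (u1 u : ℝ) : GB B :=
  if r = 0 then cR D u1 else if r = 1 then cAl D u1 u else if r = 2 then cAr D u1 u else cS D u1

/-- the bits `B` in the reading `r` -/
def bBH {B : Type} (D : B → Fin 6 → Set ℝ) (r : ℕ) (u1 u : ℝ) : GB B :=
  if r = 0 then cS D u1 else if r = 1 then cBl D u1 u else if r = 2 then cBr D u1 u else cL D u1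

theorem bAH_inl {Z : Cn NW TC → ℂ} {nm : ℕ} {Hs : Fin nm → Set ℝ} {r : ℕ} {u1 u : ℝ} :
    (fun c => bAH (Dh T Z Hs) r u1 u (Sum.inl c)) = bA (shD T Z) r u1 u := by
  unfold bAH bA
  split_ifs <;> rfl

theorem bBH_inl {Z : Cn NW TC → ℂ} {nm : ℕ} {Hs : Fin nm → Set ℝ} {r : ℕ} {u1 u : ℝ} :
    (fun c => bBH (Dh T Z Hs) r u1 u (Sum.inl c)) = bB (shD T Z) r u1 u := by
  unfold bBH bB
  split_ifs <;> rfl

theorem bAH_inr {Z : Cn NW TC → ℂ} {nm : ℕ} {Hs : Fin nm → Set ℝ} {r : ℕ} (hr : r < 4) {u1 u : ℝ} {i : Fin nm} :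
    (∃ m, bAH (Dh T Z Hs) r u1 u (Sum.inr i) m 0) ↔ hb (Hs i) r u1 u := by
  interval_cases r <;> exact Iff.rfl

/-- the conditions on the free atoms: the monitors -/
def Xok {nm : ℕ} (X : XV NW) (Kc : Fin nm → Prop) (Hs : Fin nm → Set ℝ) (u1 : ℝ) : Prop :=
  ∀ u s0 s1 L R, ∀ i : Fin nm, ∀ r < 4, (X u s0 s1 L R 4095 (4 * i.val + r) ↔ Kc i ∨ hb (Hs i) r u1 u)

section
variable {F : Hy U T} {B : Tb NP NW TB TC} {z : ℂ} {σ : Equiv.Perm (Fin 6)} {u1 u : ℝ}
  {hu : u ∈ Ioo u1 (u1 + 1)} {X : XV NW} {nm : ℕ} {Kc : Fin nm → Prop} {Hs : Fin nm → Set ℝ}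
  {s0 s1 L R : Fin NW × Fin 6 → Fin 6 × Fin 6} {S : St4 U T (Yw u1 u TC z NW) u1 u s0 s1 L R} {n : ℕ}

theorem okH_spec (h : okH NW TC nm n = true) : okA NW TC n = true ∨ (a0 n = 4 ∧ a1 n = 4095 ∧ a4 n < nm) := by
  unfold okH at h
  rw [Bool.or_eq_true, Bool.and_eq_true, Bool.and_eq_true, nbeq, nbeq, Nat.ble_eq] at h
  rcases h with h | ⟨⟨h1, h2⟩, h3⟩
  · exact Or.inl h
  · exact Or.inr ⟨h1, h2, h3⟩

theorem okA_kind (h : okA NW TC n = true) : a0 n ≠ 4 := by
  have := (okA_spec h).2.2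
  omega

/-- the atoms of readings have the point of the state atom -/
theorem rn_pt {r : ℕ} (hr : r < 4) (h : okA NW TC n = true) (hNW : NW ≤ NP) : a1 (rn r n) < NP := by
  obtain ⟨⟨hc, -⟩, hm, hk⟩ := okA_spec h
  have hc4 : a1 n < 4096 := Nat.mod_lt _ (by norm_num)
  have e : rn r n = rA r (a0 n) (a1 n) (a2 n) (a3 n) (a4 n) := rfl
  have h16 : a0 n < 16 := Nat.mod_lt _ (by norm_num)
  have h8 : a3 n < 8 := Nat.mod_lt _ (by norm_num)
  have key : ∀ {kd j k q : ℕ}, kd < 16 → j < 256 → k < 8 → a1 (En kd (a1 n) j k q) < NP := fun h1 h2 h3 => by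
    rw [(Vale.Agent.P032.H820.K.dec h1 hc4 h2 h3).2.1]; omega
  rw [e]
  rcases hk with hk | hk | ⟨hk, hk1⟩
  · rw [hk]
    interval_cases r
    · exact key (kd := 14) (by norm_num) (by omega) (by norm_num)
    · exact key (kd := 0) (j := 2 * a2 n) (by norm_num) (by omega) (by norm_num)
    · exact key (kd := 12) (by norm_num) (by omega) (by norm_num)
    · exact key (kd := 11) (by norm_num) (by omega) (by norm_num)
  · rw [hk]
    interval_cases r
    · exact key (kd := 11) (by norm_num) (by omega) (by norm_num)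
    · exact key (kd := 13) (by norm_num) (by omega) (by norm_num)
    · exact key (kd := 0) (j := 2 * a2 n + 1) (by norm_num) (by omega) (by norm_num)
    · exact key (kd := 15) (by norm_num) (by omega) (by norm_num)
  · have htk : tk r (a2 n) < 256 := by
      interval_cases r
      · show 2 * a2 n < 256; omega
      · show 2 * a2 n + 1 < 256; omega
      · show 2 * a2 n + 1 < 256; omega
      · show (2 * a2 n + 2) % 12 < 256; omega
    have hsr : sr r + a3 n < 8 := by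
      interval_cases r
      · show 2 + a3 n < 8; omega
      · show 0 + a3 n < 8; omega
      · show 2 + a3 n < 8; omega
      · show 0 + a3 n < 8; omega
    have e2 : rA r (a0 n) (a1 n) (a2 n) (a3 n) (a4 n) = En (a0 n) (a1 n) (tk r (a2 n)) (sr r + a3 n) (a4 n) := by
      rcases hk with hk | hk <;> (rw [hk]; rfl)
    rw [e2]
    exact key h16 htk hsr

/-- **the readings of state atoms with monitors** -/
theorem av_rnH (hX : Xok X Kc Hs u1) (hNP : NP ≤ 4095) {r : ℕ} (hr : r < 4) (hn : okH NW TC nm n = true) :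
    av (xT (mS F B z σ hu S) (X u s0 s1 L R)) (rnH r n) ↔
    svH σ T (Zf u1 TC z NW) Kc (stv r (rs TC s0) (rs TC L) (rs TC R) (rs TC s1))
      (bAH (Dh T (Zf u1 TC z NW) Hs) r u1 u) (bBH (Dh T (Zf u1 TC z NW) Hs) r u1 u) n := by
  rcases okH_spec hn with h | ⟨h1, h2, h3⟩
  · have h4 := okA_kind h
    have e : rnH r n = rn r n := by
      unfold rnH
      have : Nat.beq (Nat.mod n 16) 4 = false := by
        rw [← Bool.not_eq_true, nbeq]; exact h4
      rw [this, cond_false]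
    rw [e, xT_av (Or.inl (rn_pt hr h B.hNW)), av_rn hr h]
    unfold svH
    rw [if_neg h4, bAH_inl, bBH_inl]
  · have e : rnH r n = En 4 4095 0 0 (4 * a4 n + r) := by
      unfold rnH
      have : Nat.beq (Nat.mod n 16) 4 = true := nbeq.2 h1
      rw [this, cond_true]
      rfl
    rw [e, xT_fr hNP (by norm_num)]
    unfold svH
    rw [if_pos h1]
    have h5 := hX u s0 s1 L R ⟨a4 n, h3⟩ r hr
    refine h5.trans ?_
    constructor
    · intro h6
      exact ⟨h3, h6.imp id (bAH_inr hr).2⟩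
    · rintro ⟨_, h6⟩
      exact h6.imp id (bAH_inr hr).1

theorem lv_rdH (hX : Xok X Kc Hs u1) (hNP : NP ≤ 4095) {r l : ℕ} (hr : r < 4)
    (hl : okH NW TC nm (Nat.div l 2) = true) : lv (xT (mS F B z σ hu S) (X u s0 s1 L R)) (rdH r l) ↔
    slH σ T (Zf u1 TC z NW) Kc (stv r (rs TC s0) (rs TC L) (rs TC R) (rs TC s1))
      (bAH (Dh T (Zf u1 TC z NW) Hs) r u1 u) (bBH (Dh T (Zf u1 TC z NW) Hs) r u1 u) l := by
  refine lv_two.trans ?_
  unfold slH
  rw [show Nat.div l 2 = l / 2 from rfl] at hl ⊢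
  rw [av_rnH hX hNP hr hl]

theorem ho_rcH (hX : Xok X Kc Hs u1) (hNP : NP ≤ 4095) {r : ℕ} {C : List ℕ} (hr : r < 4)
    (hC : ∀ l ∈ C, okH NW TC nm (Nat.div l 2) = true) :
    Ho (xT (mS F B z σ hu S) (X u s0 s1 L R)) (rcH r C) ↔ ∃ l ∈ C,
      slH σ T (Zf u1 TC z NW) Kc (stv r (rs TC s0) (rs TC L) (rs TC R) (rs TC s1))
      (bAH (Dh T (Zf u1 TC z NW) Hs) r u1 u) (bBH (Dh T (Zf u1 TC z NW) Hs) r u1 u) l := by
  constructor
  · rintro ⟨l', h1, h2⟩
    obtain ⟨l, h3, rfl⟩ := List.mem_map.1 h1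
    exact ⟨l, h3, (lv_rdH hX hNP hr (hC l h3)).1 h2⟩
  · rintro ⟨l, h1, h2⟩
    exact ⟨rdH r l, List.mem_map.2 ⟨l, h1, rfl⟩, (lv_rdH hX hNP hr (hC l h1)).2 h2⟩

end

/-- the readings start, before and after are equal -/
def Q0H (TC nm : ℕ) (M : Md 2 NP NW (nbf 2 TB)) : Prop :=
  ∀ n, okH NW TC nm n = true → ∀ r < 3, (av M (rnH r n) ↔ av M (rnH 0 n))

/-- the readings before, after and end are equal -/
def Q1H (TC nm : ℕ) (M : Md 2 NP NW (nbf 2 TB)) : Prop :=
  ∀ n, okH NW TC nm n = true → ∀ r < 4, 0 < r → (av M (rnH r n) ↔ av M (rnH 3 n))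

/-- the monitor `i` in the reading `r` as an atom -/
def hA (i r : ℕ) : ℕ := En 4 4095 0 0 (Nat.add (Nat.mul 4 i) r)

/-- atoms of class 0 at the points `< NP`, and the monitors in the reading `0` -/
def okP (NP NW TC nm n : ℕ) : Bool :=
  (ok0 NW TC n && Nat.ble (Nat.succ (Nat.mod (Nat.div n 16) 4096)) NP) ||
    (Nat.beq n (hA (Nat.div (Nat.div n 134217728) 4) 0) && Nat.ble (Nat.succ (Nat.div (Nat.div n 134217728) 4)) nm)

/-- **A certified pattern with `nm` monitors** -/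
structure PatH (NP NW TB TC nm : ℕ) (E : List (List ℕ)) (P : List ℕ) (Inv : List (List ℕ)) : Prop where
  p0 : ∀ l ∈ P, okP NP NW TC nm (Nat.div l 2) = true
  i0 : ∀ C ∈ Inv, ∀ l ∈ C, okH NW TC nm (Nat.div l 2) = true
  init : ∀ M : Md 2 NP NW (nbf 2 TB), (∀ c ∈ E, Ho M c) → (∀ l ∈ P, lv M l) → Q0H TC nm M →
    ∀ C ∈ Inv, Ho M (rcH 0 C)
  step : ∀ M : Md 2 NP NW (nbf 2 TB), (∀ c ∈ E, Ho M c) → (∀ l ∈ P, lv M l) → (∀ C ∈ Inv, Ho M (rcH 1 C)) →
    ∀ C ∈ Inv, Ho M (rcH 2 C)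
  fin : ∀ M : Md 2 NP NW (nbf 2 TB), (∀ c ∈ E, Ho M c) → (∀ l ∈ P, lv M l) → Q1H TC nm M →
    (∀ C ∈ Inv, Ho M (rcH 3 C)) → False

section
variable {F : Hy U T} {B : Tb NP NW TB TC} {z : ℂ} {σ : Equiv.Perm (Fin 6)} {u1 : ℝ} {X : XV NW} {nm : ℕ}
  {Kc : Fin nm → Prop} {Hs : Fin nm → Set ℝ} {s0 s1 : Cn NW TC × Fin 6 → Fin 6 × Fin 6}

/-- the literals of class 0 have the same value in all legal models -/
theorem lv_transferX (hX : Xok X Kc Hs u1) (hNP : NP ≤ 4095) {M M' : Md 2 NP NW (nbf 2 TB)}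
    (h : LegX F B z σ X u1 s0 s1 M) (h' : LegX F B z σ X u1 s0 s1 M') {l : ℕ}
    (hl : okP NP NW TC nm (Nat.div l 2) = true) : lv M l ↔ lv M' l := by
  unfold okP at hl
  rw [Bool.or_eq_true, Bool.and_eq_true, Bool.and_eq_true, Nat.ble_eq, Nat.ble_eq, nbeq] at hl
  obtain ⟨u, hu, t0, t1, L, R, S, e0, e1, rfl⟩ := h
  obtain ⟨v, hv, t0', t1', L', R', S', e0', e1', rfl⟩ := h'
  have key : av (xT (mS F B z σ hu S) (X u t0 t1 L R)) (l / 2) ↔
      av (xT (mS F B z σ hv S') (X v t0' t1' L' R')) (l / 2) := by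
    rcases hl with hl | hl
    · have h1 : av (mS F B z σ hu S) (l / 2) ↔ av (mS F B z σ hv S') (l / 2) :=
        av_transfer (e0.trans e0'.symm) (e1.trans e1'.symm) hl.1
      have h2 : a1 (l / 2) < NP := hl.2
      rw [xT_av (Or.inl h2), xT_av (Or.inl h2), h1]
    · have e : l / 2 = hA (Nat.div (Nat.div (l / 2) 134217728) 4) 0 := hl.1
      rw [e]
      unfold hA
      rw [xT_fr hNP (by norm_num), xT_fr hNP (by norm_num)]
      have k1 := hX u t0 t1 L R ⟨_, hl.2⟩ 0 (by norm_num)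
      have k2 := hX v t0' t1' L' R' ⟨_, hl.2⟩ 0 (by norm_num)
      exact k1.trans k2.symm
  unfold lv
  rw [key]

/-- the literals `P` are realised -/
def RlX (F : Hy U T) (B : Tb NP NW TB TC) (z : ℂ) (σ : Equiv.Perm (Fin 6)) (X : XV NW) (u1 : ℝ)
    (s0 s1 : Cn NW TC × Fin 6 → Fin 6 × Fin 6) (P : List ℕ) : Prop :=
  ∃ M, LegX F B z σ X u1 s0 s1 M ∧ ∀ l ∈ P, lv M l

/-- **A certified pattern is not realised (with monitors).** -/
theorem pdrH (hHs : ∀ i, IsClosed (Hs i)) (hX : Xok X Kc Hs u1) (hNP : NP ≤ 4095) {E : List (List ℕ)} {P : List ℕ}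
    {Inv : List (List ℕ)} (hE : ∀ M, LegX F B z σ X u1 s0 s1 M → ∀ c ∈ E, Ho M c)
    (H : PatH NP NW TB TC nm E P Inv) : ¬ RlX F B z σ X u1 s0 s1 P := by
  rintro ⟨M0, hM0, hP0⟩
  have hP : ∀ M, LegX F B z σ X u1 s0 s1 M → ∀ l ∈ P, lv M l := fun M hM l hl =>
    (lv_transferX hX hNP hM0 hM (H.p0 l hl)).1 (hP0 l hl)
  obtain ⟨u0, hu0, t0, t1, L0, R0, S0, e0, e1, -⟩ := hM0
  have S1 := st4_rs S0
  rw [e0, e1] at S1
  have hcl : ∀ (j : Cn NW TC ⊕ Fin nm) (q : Fin 6), IsClosed (Dh T (Zf u1 TC z NW) Hs j q) := by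
    rintro (c | i) q
    · exact shD_closed T _ c q
    · exact hHs i
  obtain ⟨⟨ua, hua, ka1, ka2, ka3, ka4, ka5, ka6⟩, ⟨ub, hub, kb1, kb2, kb3, kb4, kb5, kb6⟩, hV⟩ :=
    gen_states_all F.h F.l3 (D := Dh T (Zf u1 TC z NW) Hs) hcl S1.h0 S1.h1
  refine absurd (hV (fun s A D => ∀ C ∈ Inv, ∃ l ∈ C, slH σ T (Zf u1 TC z NW) Kc s A D l) ?_ ?_) ?_
  · -- start
    obtain ⟨a0', a1', La, Ra, Sa, f0, f1, f2, f3⟩ := exists_st4 F (z := z) (u1 := u1) (u := ua)
      (s0 := s0) (s1 := s1) (L := s0) (R := s0) ⟨S1.h0, S1.h1, ka1, ka2⟩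
    have hM : LegX F B z σ X u1 s0 s1 (xT (mS F B z σ hua Sa) (X ua a0' a1' La Ra)) :=
      ⟨ua, hua, a0', a1', La, Ra, Sa, f0, f1, rfl⟩
    have h1 := H.init _ (hE _ hM) (hP _ hM) (fun n hn r hr => ?_)
    · intro C hC
      have h2 := (ho_rcH hX hNP (by norm_num) (H.i0 C hC)).1 (h1 C hC)
      rw [f0] at h2
      exact h2
    · rw [av_rnH hX hNP (by omega) hn, av_rnH hX hNP (by norm_num) hn, f0, f1, f2, f3]
      interval_cases r
      · exact Iff.rfl
      · unfold stv bAH bBH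
        simp only [one_ne_zero, if_false, if_true]
        rw [ka3, ka4]
      · unfold stv bAH bBH
        norm_num
        rw [ka5, ka6]
  · -- step
    intro u hu L hL R hR hV1 C hC
    obtain ⟨a0', a1', La, Ra, Sa, f0, f1, f2, f3⟩ := exists_st4 F (z := z) (u1 := u1) (u := u)
      (s0 := s0) (s1 := s1) (L := L) (R := R) ⟨S1.h0, S1.h1, hL, hR⟩
    have hM : LegX F B z σ X u1 s0 s1 (xT (mS F B z σ hu Sa) (X u a0' a1' La Ra)) :=
      ⟨u, hu, a0', a1', La, Ra, Sa, f0, f1, rfl⟩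
    have h1 := H.step _ (hE _ hM) (hP _ hM) (fun C hC => ?_) C hC
    · have h2 := (ho_rcH hX hNP (by norm_num) (H.i0 C hC)).1 h1
      rw [f3] at h2
      exact h2
    · refine (ho_rcH hX hNP (by norm_num) (H.i0 C hC)).2 ?_
      rw [f2]
      exact hV1 C hC
  · -- end
    intro hV1
    obtain ⟨a0', a1', La, Ra, Sa, f0, f1, f2, f3⟩ := exists_st4 F (z := z) (u1 := u1) (u := ub)
      (s0 := s0) (s1 := s1) (L := s1) (R := s1) ⟨S1.h0, S1.h1, kb1, kb2⟩
    have hM : LegX F B z σ X u1 s0 s1 (xT (mS F B z σ hub Sa) (X ub a0' a1' La Ra)) :=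
      ⟨ub, hub, a0', a1', La, Ra, Sa, f0, f1, rfl⟩
    refine H.fin _ (hE _ hM) (hP _ hM) (fun n hn r hr hr0 => ?_) (fun C hC => ?_)
    · rw [av_rnH hX hNP hr hn, av_rnH hX hNP (by norm_num) hn, f0, f1, f2, f3]
      interval_cases r
      · unfold stv bAH bBH
        norm_num
        rw [kb3, kb4]
      · unfold stv bAH bBH
        norm_num
        rw [kb5, kb6]
      · exact Iff.rfl
    · refine (ho_rcH hX hNP (by norm_num) (H.i0 C hC)).2 ?_
      rw [f1]
      exact hV1 C hC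

/-! ### the laws of the monitors as clauses -/

theorem hA_av (hX : Xok X Kc Hs u1) (hNP : NP ≤ 4095) {u : ℝ} {hu : u ∈ Ioo u1 (u1 + 1)}
    {t0 t1 L R : Fin NW × Fin 6 → Fin 6 × Fin 6} {S : St4 U T (Yw u1 u TC z NW) u1 u t0 t1 L R} {i r : ℕ}
    (hi : i < nm) (hr : r < 4) :
    av (xT (mS F B z σ hu S) (X u t0 t1 L R)) (hA i r) ↔ Kc ⟨i, hi⟩ ∨ hb (Hs ⟨i, hi⟩) r u1 u :=
  (xT_fr hNP (by norm_num)).trans (hX u t0 t1 L R ⟨i, hi⟩ r hr)

/-- start implies before, before implies after, after implies end -/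
theorem mon_mono (hX : Xok X Kc Hs u1) (hNP : NP ≤ 4095) {M : Md 2 NP NW (nbf 2 TB)}
    (hM : LegX F B z σ X u1 s0 s1 M) {i r r' : ℕ} (hi : i < nm) (hr : r ≤ r') (hr' : r' < 4) :
    Ho M [ng (hA i r), ps (hA i r')] := by
  obtain ⟨u, hu, t0, t1, L, R, S, -, -, rfl⟩ := hM
  refine ho_stc fun h => ?_
  rw [hA_av hX hNP hi (by omega)] at h
  rw [hA_av hX hNP hi hr']
  refine h.imp id fun h => ?_
  have h01 : ∀ {D : Set ℝ}, hb D 0 u1 u → hb D 1 u1 u := fun h => hb_start hu.1 h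
  have h23 : ∀ {D : Set ℝ}, hb D 2 u1 u → hb D 3 u1 u := fun h => hb_end2 hu.2 h
  interval_cases r' <;> interval_cases r
  · exact h
  · exact h01 h
  · exact h
  · exact hb_mono (h01 h)
  · exact hb_mono h
  · exact h
  · exact h23 (hb_mono (h01 h))
  · exact h23 (hb_mono h)
  · exact h23 h
  · exact h

end

/-! ### queries -/

/-- an equality of two readings, code `r + 4 s + 16 n` -/
def stcH (v : ℕ) : List ℕ :=
  [ng (rnH (Nat.mod v 4) (Nat.div v 16)), ps (rnH (Nat.mod (Nat.div v 4) 4) (Nat.div v 16))]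

/-- admissible equalities at the start -/
def ok_sH (NW TC nm v : ℕ) : Bool :=
  okH NW TC nm (Nat.div v 16) && Nat.ble (Nat.mod v 4) 2 && Nat.ble (Nat.mod (Nat.div v 4) 4) 2

/-- admissible equalities at the end -/
def ok_eH (NW TC nm v : ℕ) : Bool :=
  okH NW TC nm (Nat.div v 16) && Nat.ble 1 (Nat.mod v 4) && Nat.ble 1 (Nat.mod (Nat.div v 4) 4)

theorem ho_sH {nm : ℕ} {M : Md 2 NP NW (nbf 2 TB)} {v : ℕ} (h : Q0H TC nm M) (hv : ok_sH NW TC nm v = true) :
    Ho M (stcH v) := by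
  unfold ok_sH at hv
  rw [Bool.and_eq_true, Bool.and_eq_true, Nat.ble_eq, Nat.ble_eq] at hv
  obtain ⟨⟨h1, h2⟩, h3⟩ := hv
  exact ho_stc fun h4 => (h _ h1 _ (Nat.lt_succ_of_le h3)).2 ((h _ h1 _ (Nat.lt_succ_of_le h2)).1 h4)

theorem ho_eH {nm : ℕ} {M : Md 2 NP NW (nbf 2 TB)} {v : ℕ} (h : Q1H TC nm M) (hv : ok_eH NW TC nm v = true) :
    Ho M (stcH v) := by
  unfold ok_eH at hv
  rw [Bool.and_eq_true, Bool.and_eq_true, Nat.ble_eq, Nat.ble_eq] at hv
  obtain ⟨⟨h1, h2⟩, h3⟩ := hv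
  exact ho_stc fun h4 => (h _ h1 _ (Nat.mod_lt _ (by norm_num)) h3).2
    ((h _ h1 _ (Nat.mod_lt _ (by norm_num)) h2).1 h4)

/-- **A certified pattern with monitors from queries.** -/
theorem patH_of_q {nm : ℕ} {E : List (List ℕ)} {P : List ℕ} {Inv : List (List ℕ)} {vs ve : List ℕ}
    (hP : alL (fun l => okP NP NW TC nm (Nat.div l 2)) P = true)
    (hI : alLL (fun C => alL (fun l => okH NW TC nm (Nat.div l 2)) C) Inv = true)
    (hs : alL (ok_sH NW TC nm) vs = true) (he : alL (ok_eH NW TC nm) ve = true)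
    (q0 : ∀ C ∈ Inv, Qy NP NW TB (E ++ un P ++ vs.map stcH ++ ngs (rcH 0 C)))
    (q1 : ∀ C ∈ Inv, Qy NP NW TB (E ++ un P ++ Inv.map (rcH 1) ++ ngs (rcH 2 C)))
    (q2 : Qy NP NW TB (E ++ un P ++ ve.map stcH ++ Inv.map (rcH 3))) : PatH NP NW TB TC nm E P Inv where
  p0 := alL_spec hP
  i0 := fun C hC => alL_spec (alLL_spec hI C hC)
  init := fun M hE hl h0 C hC => ho_of_q (q0 C hC) fun c hc => by
    rcases List.mem_append.1 hc with hc | hc
    · rcases List.mem_append.1 hc with hc | hc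
      · exact hE c hc
      · exact ho_un hl c hc
    · obtain ⟨v, hv, rfl⟩ := List.mem_map.1 hc
      exact ho_sH h0 (alL_spec hs v hv)
  step := fun M hE hl hi C hC => ho_of_q (q1 C hC) fun c hc => by
    rcases List.mem_append.1 hc with hc | hc
    · rcases List.mem_append.1 hc with hc | hc
      · exact hE c hc
      · exact ho_un hl c hc
    · obtain ⟨C', hC', rfl⟩ := List.mem_map.1 hc
      exact hi C' hC'
  fin := fun M hE hl h1 hi => q2 M fun c hc => by
    rcases List.mem_append.1 hc with hc | hc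
    · rcases List.mem_append.1 hc with hc | hc
      · rcases List.mem_append.1 hc with hc | hc
        · exact hE c hc
        · exact ho_un hl c hc
      · obtain ⟨v, hv, rfl⟩ := List.mem_map.1 hc
        exact ho_eH h1 (alL_spec he v hv)
    · obtain ⟨C', hC', rfl⟩ := List.mem_map.1 hc
      exact hi C' hC'

end Vale.Agent.P032.H357.MK
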