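import Vale.Agent.P032X.H357.CellI

/-!
# P032: cells for `K` direction classes

The rules of `H357/Cell2`, `H357/CellI` for ticks `Tick K a` of any number of classes; the number of ticks is `6 K`.
`HI S p a s` : points of `S` accumulate at `p` inside `S(p + dir (a s))`.
-/

open Set Filter Topology Metric

noncomputable section

namespace Vale.Agent.P032.H357.CK

open Vale.Agent.P032.Six Vale.Agent.P032.H892 Vale.Agent.P032.H913 Vale.Agent.P032.S5.H767 Vale.Agent.P032.H357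

variable {U : Fin 6 → Set ℂ} {T : ℂ → Set (Fin 6)}

section
variable {K : ℕ} {a : ℕ → ℝ} (A : Tick K a) {S : Set ℂ} {p x : ℂ}
include A

theorem a_half (t : ℕ) : a (t + 3 * K) = a t + 3 := by
  have := A.per_mul t 3
  simpa using this

theorem a_full (t : ℕ) : a (t + 6 * K) = a t + 6 := by
  have := A.per_mul t 6
  simpa using this

theorem ra_half (t : ℕ) : ra a (t + 3 * K) = ra a t + 3 := by unfold ra; rw [a_half A]; ring

theorem ra_full (t : ℕ) : ra a (t + 6 * K) = ra a t + 6 := by unfold ra; rw [a_full A]; ring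

theorem ra_lt {s t : ℕ} (h : s < t) : ra a s < ra a t := by
  unfold ra
  have := A.mono h
  linarith

theorem ra_le {s t : ℕ} (h : s ≤ t) : ra a s ≤ ra a t := by
  rcases h.eq_or_lt with rfl | h0
  · exact le_rfl
  · exact (ra_lt A h0).le

theorem dir_half (t : ℕ) : dir (a (t + 3 * K)) = -dir (a t) := A.dir_opp t

theorem dir_full (t : ℕ) : dir (a (t + 6 * K)) = dir (a t) := A.dir_full t

theorem dir_mod (t : ℕ) : dir (a (t % (6 * K))) = dir (a t) := A.dir_mod t

theorem cl_full {k j : ℕ} : Cl S x a k (j + 6 * K) ↔ Cl S x a k j := by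
  by_cases hk : k = 0
  · subst hk
    rw [cl_zero, cl_zero, ra_full A, show j + 6 * K + 1 = j + 1 + 6 * K by ring, ra_full A]
    constructor
    · rintro ⟨θ, h1, h2⟩
      refine ⟨θ - 6, ⟨by linarith [h1.1], by linarith [h1.2]⟩, ?_⟩
      rw [← ds_six, sub_add_cancel]; exact h2
    · rintro ⟨θ, h1, h2⟩
      exact ⟨θ + 6, ⟨by linarith [h1.1], by linarith [h1.2]⟩, ds_six.2 h2⟩
  · rw [cl_pos hk, cl_pos hk, ra_full A, dir_full A]
    exact freq_six (P := fun r w => (0 < r ∧ w ∈ S) ∧ Zn x (dir (a j)) k w)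

theorem cl_mod {k j : ℕ} : Cl S x a k (j % (6 * K)) ↔ Cl S x a k j := by
  have h : ∀ q, Cl S x a k (j % (6 * K) + 6 * K * q) ↔ Cl S x a k (j % (6 * K)) := by
    intro q
    induction q with
    | zero => simp
    | succ q ih =>
      rw [← ih, show j % (6 * K) + 6 * K * (q + 1) = j % (6 * K) + 6 * K * q + 6 * K by ring, cl_full A]
  have := h (j / (6 * K))
  rw [Nat.mod_add_div] at this
  exact this.symm

/-- the opposite zones of the opposite ray are not the same cells; this is only the change of the circle -/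
theorem hi_mod {s : ℕ} : HI S p a (s % (6 * K)) ↔ HI S p a s := by unfold HI; rw [dir_mod A]

theorem hi_half {s : ℕ} : HI S p a (s + 3 * K) ↔ In S p (p - dir (a s)) := by
  unfold HI; rw [dir_half A, ← sub_eq_add_neg]

/-! ### every cell has a colour -/

theorem cell (h : Irr U T) (x : ℂ) (k j : ℕ) (hk : k ≤ 3) : ∃ q, Cl (Sq T q) x a k j := by
  by_cases hk0 : k = 0
  · subst hk0
    have hlt : ra a j < ra a (j + 1) := ra_lt A (Nat.lt_succ_self j)
    set θ := (ra a j + ra a (j + 1)) / 2 with hθ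
    obtain ⟨q, hq⟩ := exists_pure h (x := x) (θ := θ) (Z := univ) isOpen_univ
      (freq_curve (γ := fun r => (r, θ)) (((by fun_prop : Continuous fun r : ℝ => (r, θ)).tendsto 0).mono_left
        nhdsWithin_le_nhds) (by
          filter_upwards [self_mem_nhdsWithin] with r hr
          exact ⟨trivial, hr⟩))
    exact ⟨q, cl_zero.2 ⟨θ, ⟨by linarith, by linarith⟩, hq.mono fun p hp => hp.1⟩⟩
  · -- zones depend on one angle only
    let b : ℕ → ℝ := fun n => a j + n / 2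
    have B : Tick 2 b := ⟨by norm_num, fun m n hmn => by
        have : (m : ℝ) < n := by exact_mod_cast hmn
        show a j + (m : ℝ) / 2 < a j + (n : ℝ) / 2
        linarith, fun t => by
        show a j + ((t + 2 : ℕ) : ℝ) / 2 = a j + (t : ℝ) / 2 + 1
        push_cast; ring⟩
    obtain ⟨q, hq⟩ := H357.cell h x B k 0 hk
    have e : b 0 = a j := by show a j + ((0 : ℕ) : ℝ) / 2 = a j; simp
    refine ⟨q, ?_⟩
    rw [cl_pos hk0] at hq ⊢
    have e2 : ra b 0 = ra a j := by unfold ra; rw [e]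
    rw [e2, e] at hq
    exact hq

/-! ### accumulation gives a cell -/

theorem exists_tick {s : ℕ} {θ : ℝ} (h : θ ∈ Ico (ra a s) (ra a s + 6)) :
    ∃ j, s ≤ j ∧ j < s + 6 * K ∧ (θ = ra a j ∨ θ ∈ Ioo (ra a j) (ra a (j + 1))) := by
  have key : ∀ n : ℕ, ra a s ≤ θ → θ < ra a (s + n) →
      ∃ j, s ≤ j ∧ j < s + n ∧ (θ = ra a j ∨ θ ∈ Ioo (ra a j) (ra a (j + 1))) := by
    intro n
    induction n with
    | zero => intro h1 h2; exact absurd h2 (not_lt.2 h1)
    | succ n ih =>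
      intro h1 h2
      rcases lt_or_ge θ (ra a (s + n)) with h3 | h3
      · obtain ⟨j, h4, h5, h6⟩ := ih h1 h3
        exact ⟨j, h4, by omega, h6⟩
      · refine ⟨s + n, by omega, by omega, ?_⟩
        rcases h3.eq_or_lt with h4 | h4
        · exact Or.inl h4.symm
        · exact Or.inr ⟨h4, h2⟩
  exact key (6 * K) h.1 (by rw [ra_full A]; exact h.2)

/-- **a set which accumulates at `x` has a cell** -/
theorem exists_cell (h : ∃ᶠ w in 𝓝 x, w ∈ S ∧ w ≠ x) (s : ℕ) :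
    ∃ k j, k ≤ 3 ∧ s ≤ j ∧ j < s + 6 * K ∧ Cl S x a k j := by
  obtain ⟨θ, hθ, hd⟩ := exists_dir h (ra a s)
  obtain ⟨j, h1, h2, h3 | h3⟩ := exists_tick A hθ
  · rw [h3] at hd
    obtain ⟨k, h4, h5, h6⟩ := exists_zone hd
    exact ⟨k, j, h5, h1, h2, h6⟩
  · exact ⟨0, j, by norm_num, h1, h2, cl_zero.2 ⟨θ, h3, hd⟩⟩

/-- [TV] -/
theorem tv (h : Irr U T) {q : Fin 6} (hq : q ∈ T x) : ∃ k ≤ 3, ∃ j < 6 * K, Cl (Sq T q) x a k j := by
  obtain ⟨k, j, h1, -, h2, h3⟩ := exists_cell A (freq_pure h hq) 0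
  exact ⟨k, h1, j, by omega, h3⟩

/-- [P -> PV] -/
theorem ppv (h : Irr U T) {q : Fin 6} (hq : q ∈ Pal U x) : ∃ k ≤ 3, ∃ j < 6 * K, Cl (U q) x a k j := by
  obtain ⟨k, j, h1, -, h2, h3⟩ := exists_cell A (freq_open h hq) 0
  exact ⟨k, h1, j, by omega, h3⟩

/-! ### inside -/

omit A in
theorem cos_pos_six {b r : ℝ} (h1 : b + 9 / 2 < r) (h2 : r < b + 15 / 2) :
    0 < Real.cos ((r - b) * (Real.pi / 3)) := by
  have hpi := Real.pi_pos
  have e : (r - b) * (Real.pi / 3) = (r - b - 6) * (Real.pi / 3) + 2 * Real.pi := by ring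
  rw [e, Real.cos_add_two_pi]
  exact Real.cos_pos_of_mem_Ioo ⟨by nlinarith, by nlinarith⟩

/-- angles of the sectors inside `S(x + dir (a s))` -/
theorem sector_angle {s d : ℕ} (hd : d + 1 ≤ 3 * K) {θ : ℝ} (hθ : θ ∈ Ioo (ra a (s + 3 * K + d))
    (ra a (s + 3 * K + d + 1))) : 0 < Real.cos ((θ - a s) * (Real.pi / 3)) := by
  have h3 : ra a (s + 3 * K) ≤ ra a (s + 3 * K + d) := ra_le A (by omega)
  have h4 : ra a (s + 3 * K + d + 1) ≤ ra a (s + 6 * K) := ra_le A (by omega)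
  rw [ra_half A] at h3
  rw [ra_full A] at h4
  have h5 : ra a s = a s + 3 / 2 := rfl
  exact cos_pos_six (by linarith [hθ.1]) (by linarith [hθ.2])

theorem ray_angle {s d : ℕ} (hd1 : 1 ≤ d) (hd : d + 1 ≤ 3 * K) :
    0 < Real.cos ((ra a (s + 3 * K + d) - a s) * (Real.pi / 3)) := by
  have h3 := ra_lt A (show s + 3 * K < s + 3 * K + d by omega)
  have h4 := ra_lt A (show s + 3 * K + d < s + 6 * K by omega)
  rw [ra_half A] at h3
  rw [ra_full A] at h4
  have h5 : ra a s = a s + 3 / 2 := rfl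
  exact cos_pos_six (by linarith) (by linarith)

theorem hi_sector {s d : ℕ} (hd : d + 1 ≤ 3 * K) (h : Cl S p a 0 (s + 3 * K + d)) : HI S p a s := by
  obtain ⟨θ, hθ, h2⟩ := cl_zero.1 h
  exact in_of_ds h2 (sector_angle A hd hθ)

theorem hi_ray {s d k : ℕ} (hd1 : 1 ≤ d) (hd : d + 1 ≤ 3 * K) (hk : k ≠ 0)
    (h : Cl S p a k (s + 3 * K + d)) : HI S p a s := in_of_ds (cl_ray hk h) (ray_angle A hd1 hd)

theorem hi_three {s : ℕ} (h : Cl S p a 3 (s + 3 * K)) : HI S p a s := by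
  refine freq_po (P := fun w => w ∈ S ∧ dist w (p + dir (a s)) < 1)
    (((cl_pos (by norm_num)).1 h).mono fun q hq => ⟨hq.1.2, ?_⟩)
  have := zn_three.1 hq.2
  rwa [dir_half A, sub_neg_eq_add] at this

theorem ou_two_half {s : ℕ} (h : Cl S x a 2 (s + 3 * K)) :
    Ou S x (x + dir (a s)) ∧ Ou S x (x - dir (a s)) := by
  have h1 := ou_two h
  rw [dir_half A, sub_neg_eq_add, ← sub_eq_add_neg] at h1
  exact ⟨h1.2, h1.1⟩

/-- [hull] -/
theorem hull (h : Irr U T) (hx : x ∈ XX U) (hct : Ctn U T x) {q : Fin 6} (hq : q ∈ T x) : ∃ s < 6 * K,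
      ((∀ d, d + 1 ≤ 3 * K → ¬ Cl (Sq T q) x a 0 (s + d)) ∧
        ∀ d, 1 ≤ d → d + 1 ≤ 3 * K → ∀ k, k ≠ 0 → ¬ Cl (Sq T q) x a k (s + d)) ∨
      ((∀ d, 1 ≤ d → d + 1 ≤ 3 * K → ¬ Cl (Sq T q) x a 0 (s + d)) ∧
        ∀ d, 1 ≤ d → d ≤ 3 * K → ∀ k, k ≠ 0 → ¬ Cl (Sq T q) x a k (s + d)) := by
  obtain ⟨φ, hφ⟩ := exists_half h hx hct hq
  set n := ⌊(φ + 3 / 2 - ra a 0) / 6⌋ with hn
  have h1 := Int.floor_le ((φ + 3 / 2 - ra a 0) / 6)
  have h2 := Int.lt_floor_add_one ((φ + 3 / 2 - ra a 0) / 6)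
  rw [← hn] at h1 h2
  set ψ := φ + 3 / 2 - 6 * n with hψ
  have hψm : ψ ∈ Ico (ra a 0) (ra a 0 + 6) := ⟨by linarith, by linarith⟩
  have key : ∀ θ ∈ Ioo ψ (ψ + 3), θ ∉ DS (Sq T q) x := by
    intro θ hθ hd
    have h3 := (ds_six_int (S := Sq T q) (x := x) (θ := θ) n).2 hd
    have h4 := hφ _ h3
    have h5 : Real.cos ((θ + 6 * n - φ) * (Real.pi / 3)) < 0 := by
      refine cos_neg_of ?_ ?_
      · have := hθ.1; linarith
      · have := hθ.2; linarith
    linarith
  obtain ⟨s, -, hs, h3⟩ := exists_tick A hψm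
  refine ⟨s, by omega, ?_⟩
  rcases h3 with h3 | h3
  · left
    refine ⟨fun d hd hc => ?_, fun d hd1 hd k hk0 hc => ?_⟩
    · obtain ⟨θ, hθ, hd2⟩ := cl_zero.1 hc
      refine key θ ⟨?_, ?_⟩ hd2
      · have := ra_le A (show s ≤ s + d by omega); have := hθ.1; linarith
      · have := ra_le A (show s + d + 1 ≤ s + 3 * K by omega); rw [ra_half A] at this; have := hθ.2; linarith
    · refine key _ ⟨?_, ?_⟩ (cl_ray hk0 hc)
      · have := ra_lt A (show s < s + d by omega); linarith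
      · have := ra_lt A (show s + d < s + 3 * K by omega); rw [ra_half A] at this; linarith
  · right
    refine ⟨fun d hd1 hd hc => ?_, fun d hd1 hd k hk0 hc => ?_⟩
    · obtain ⟨θ, hθ, hd2⟩ := cl_zero.1 hc
      refine key θ ⟨?_, ?_⟩ hd2
      · have := ra_le A (show s + 1 ≤ s + d by omega); have := hθ.1; linarith [h3.2]
      · have := ra_le A (show s + d + 1 ≤ s + 3 * K by omega); rw [ra_half A] at this
        have := hθ.2; linarith [h3.1]
    · refine key _ ⟨?_, ?_⟩ (cl_ray hk0 hc)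
      · have := ra_le A (show s + 1 ≤ s + d by omega); linarith [h3.2]
      · have := ra_le A (show s + d ≤ s + 3 * K by omega); rw [ra_half A] at this; linarith [h3.1]

end

end Vale.Agent.P032.H357.CK
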