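import Vale.Agent.P032X.H357.RunH
import Vale.Agent.P032X.H491.Hist

/-!
# P032: the history bits of a two-pair centre as monitors

`z` = point number 0, colours `0, 1 | 2, 3` of the two-pair centre.  Monitor `i` (`i < 2`): an exact letter with the
colours `2 i`, `2 i + 1` has occurred at the class 0 or since `u1`.

* `XH` : the values of the free atoms, `EH` : the list of the laws, `ho_EH` : they hold in all legal models.
-/

open Set Filter Topology Metric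

noncomputable section

namespace Vale.Agent.P032.H357.MK

open Vale.Agent.P032.Six Vale.Agent.P032.H892 Vale.Agent.P032.H913 Vale.Agent.P032.S5.H767 Vale.Agent.P032.H61
  Vale.Agent.P032.H357 Vale.Agent.P032.H491
open Vale.Agent.P032.H820.K (nbf Md En a0 a1 a2 a3 a4 av lv ps ng Ho hn hp ht lv_ps lv_ng av9)

/-! ### the clauses -/

/-- auxiliary atom: the letter of `z` just after `u + k` has the colours of the pair `i` -/
def wR (i k : ℕ) : ℕ := En 4 4094 0 0 (6 * i + k)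

/-- auxiliary atom: the letter of `z` at the class 0, direction `k`, side `sd` has the colours of the pair `i` -/
def wC (i k sd : ℕ) : ℕ := En 4 4094 0 0 (12 + 2 * (6 * i + k) + sd)

/-- letter atom of `z` -/
def lz (t sd io q : ℕ) : ℕ := En 9 0 t (2 * sd + io) q

/-- the laws of the monitor `i` -/
def EHi (i : ℕ) : List (List ℕ) :=
  [[ng (hA i 2), ps (hA i 1), ps (wR i 0), ps (wR i 1), ps (wR i 2), ps (wR i 3), ps (wR i 4), ps (wR i 5)],
   [ng (hA i 0), ps (wC i 0 0), ps (wC i 0 1), ps (wC i 1 0), ps (wC i 1 1), ps (wC i 2 0), ps (wC i 2 1),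
    ps (wC i 3 0), ps (wC i 3 1), ps (wC i 4 0), ps (wC i 4 1), ps (wC i 5 0), ps (wC i 5 1)],
   [ng (hA i 0), ps (hA i 1)], [ng (hA i 1), ps (hA i 2)], [ng (hA i 2), ps (hA i 3)], [ps (hA i 3)]] ++
  (List.range 6).flatMap fun k =>
    [[ng (wR i k), ps (lz (2 * k + 1) 1 0 (2 * i)), ps (lz (2 * k + 1) 1 0 (2 * i + 1))],
     [ng (wR i k), ps (lz (2 * k + 1) 1 1 (2 * i)), ps (lz (2 * k + 1) 1 1 (2 * i + 1))],
     [ng (lz (2 * k + 1) 1 0 (2 * i)), ng (lz (2 * k + 1) 1 1 (2 * i + 1)), ps (hA i 2)],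
     [ng (lz (2 * k + 1) 1 0 (2 * i + 1)), ng (lz (2 * k + 1) 1 1 (2 * i)), ps (hA i 2)],
     [ng (lz (2 * k + 1) 0 0 (2 * i)), ng (lz (2 * k + 1) 0 1 (2 * i + 1)), ps (hA i 1)],
     [ng (lz (2 * k + 1) 0 0 (2 * i + 1)), ng (lz (2 * k + 1) 0 1 (2 * i)), ps (hA i 1)]] ++
    (List.range 2).flatMap fun sd =>
      [[ng (wC i k sd), ps (lz (2 * k) sd 0 (2 * i)), ps (lz (2 * k) sd 0 (2 * i + 1))],
       [ng (wC i k sd), ps (lz (2 * k) sd 1 (2 * i)), ps (lz (2 * k) sd 1 (2 * i + 1))],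
       [ng (lz (2 * k) sd 0 (2 * i)), ng (lz (2 * k) sd 1 (2 * i + 1)), ps (hA i 0)],
       [ng (lz (2 * k) sd 0 (2 * i + 1)), ng (lz (2 * k) sd 1 (2 * i)), ps (hA i 0)]]

/-- **the laws of the history bits** -/
def EH : List (List ℕ) := EHi 0 ++ EHi 1

/-! ### the values -/

variable {U : Fin 6 → Set ℂ} {T : ℂ → Set (Fin 6)} {NP NW TB TC : ℕ}

/-- the two colours of the pair `i` -/
def prs (σ : Equiv.Perm (Fin 6)) (i : ℕ) (w : Fin 6) : Prop := w = co σ (2 * i) ∨ w = co σ (2 * i + 1)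

/-- both components of a letter are in the pair `i` -/
def lpr (σ : Equiv.Perm (Fin 6)) (i : ℕ) (w : Fin 6 × Fin 6) : Prop := prs σ i w.1 ∧ prs σ i w.2

/-- the directions of the exact letters with the colours of the pair `i` -/
def Hp (U : Fin 6 → Set ℂ) (T : ℂ → Set (Fin 6)) (z : ℂ) (σ : Equiv.Perm (Fin 6)) (i : ℕ) : Set ℝ :=
  closure (OC U T z (co σ (2 * i), co σ (2 * i + 1))) ∪ closure (OC U T z (co σ (2 * i + 1), co σ (2 * i)))

/-- an exact letter at the class 0 -/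
def Kp (σ : Equiv.Perm (Fin 6)) (c : Cn NW TC) (s0 s1 : Cn NW TC × Fin 6 → Fin 6 × Fin 6) (i : ℕ) : Prop :=
  ∃ m : Fin 6, lpr σ i (s0 (c, m)) ∨ lpr σ i (s1 (c, m))

/-- the values of the free atoms (`t0`, `t1` = the letters of the class 0) -/
def XH (U : Fin 6 → Set ℂ) (T : ℂ → Set (Fin 6)) (z : ℂ) (σ : Equiv.Perm (Fin 6)) (u1 : ℝ) (c : Cn NW TC)
    (t0 t1 : Cn NW TC × Fin 6 → Fin 6 × Fin 6) : XV NW :=
  fun u _ _ _ R x q =>
    if x = 4095 then Kp σ c t0 t1 (q / 4) ∨ hb (Hp U T z σ (q / 4)) (q % 4) u1 u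
    else if q < 12 then lpr σ (q / 6) (rs TC R (c, f6 (q % 6)))
    else if q % 2 = 0 then lpr σ ((q - 12) / 2 / 6) (t1 (c, f6 ((q - 12) / 2 % 6 + 5)))
    else lpr σ ((q - 12) / 2 / 6) (t0 (c, f6 ((q - 12) / 2 % 6)))

theorem hp_closed (σ : Equiv.Perm (Fin 6)) (z : ℂ) (i : ℕ) : IsClosed (Hp U T z σ i) :=
  isClosed_closure.union isClosed_closure

theorem xh_ok (z : ℂ) (σ : Equiv.Perm (Fin 6)) (u1 : ℝ) (c : Cn NW TC)
    (t0 t1 : Cn NW TC × Fin 6 → Fin 6 × Fin 6) (nm : ℕ) :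
    Xok (XH U T z σ u1 c t0 t1) (fun i : Fin nm => Kp σ c t0 t1 i.val) (fun i : Fin nm => Hp U T z σ i.val) u1 := by
  intro u s0 s1 L R i r hr
  show (if (4095 : ℕ) = 4095 then _ else _) ↔ _
  rw [if_pos rfl, show (4 * i.val + r) / 4 = i.val by omega, show (4 * i.val + r) % 4 = r by omega]

/-! ### letters -/

section
variable {J : Type*} {X : J → ℂ} {W : J → ℕ → ℕ → ℕ → Fin 6} {K : ℕ} {a : ℕ → ℝ}

theorem lw_R (D : Wd U T K a X W) (h : Irr U T) (hct : ∀ y, Ctn U T y) {j : J} {t : ℕ}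
    (C : Vale.Agent.P032.H892.Cn U T (X j)) {p q : Fin 6} (hp : p ∈ T (X j)) (hq : q ∈ T (X j))
    (h0 : W j t 1 0 = p ∨ W j t 1 0 = q) (h1 : W j t 1 1 = p ∨ W j t 1 1 = q) :
    CR U T (X j) (a t) = some (p, q) ∨ CR U T (X j) (a t) = some (q, p) := by
  have m0 : W j t 1 0 ∈ T (X j) := by rcases h0 with h0 | h0 <;> rw [h0] <;> assumption
  have m1 : W j t 1 1 ∈ T (X j) := by rcases h1 with h1 | h1 <;> rw [h1] <;> assumption
  have hne := D.wa h hct (h.sub _ m0)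
  rw [D.cr_some h hct C m0 m1]
  rcases h0 with h0 | h0 <;> rcases h1 with h1 | h1
  · exact absurd (h0.trans h1.symm) hne
  · left; rw [h0, h1]
  · right; rw [h0, h1]
  · exact absurd (h0.trans h1.symm) hne

theorem lw_L (D : Wd U T K a X W) (h : Irr U T) (hct : ∀ y, Ctn U T y) {j : J} {t : ℕ}
    (C : Vale.Agent.P032.H892.Cn U T (X j)) {p q : Fin 6} (hp : p ∈ T (X j)) (hq : q ∈ T (X j))
    (h0 : W j t 0 0 = p ∨ W j t 0 0 = q) (h1 : W j t 0 1 = p ∨ W j t 0 1 = q) :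
    CL U T (X j) (a t) = some (p, q) ∨ CL U T (X j) (a t) = some (q, p) := by
  have m0 : W j t 0 0 ∈ T (X j) := by rcases h0 with h0 | h0 <;> rw [h0] <;> assumption
  have m1 : W j t 0 1 ∈ T (X j) := by rcases h1 with h1 | h1 <;> rw [h1] <;> assumption
  have hne := D.wa h hct (h.sub _ m0)
  rw [D.cl_some h hct C m0 m1]
  rcases h0 with h0 | h0 <;> rcases h1 with h1 | h1
  · exact absurd (h0.trans h1.symm) hne
  · left; rw [h0, h1]
  · right; rw [h0, h1]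
  · exact absurd (h0.trans h1.symm) hne

theorem lw_R' (D : Wd U T K a X W) (h : Irr U T) (hct : ∀ y, Ctn U T y) {j : J} {t : ℕ}
    (C : Vale.Agent.P032.H892.Cn U T (X j)) {p q : Fin 6} (hc : CR U T (X j) (a t) = some (p, q)) :
    W j t 1 0 = p ∧ W j t 1 1 = q := by
  by_cases hm : W j t 1 0 ∈ T (X j) ∧ W j t 1 1 ∈ T (X j)
  · rw [D.cr_some h hct C hm.1 hm.2, Option.some.injEq, Prod.mk.injEq] at hc
    exact hc
  · rw [D.cr_none h hm] at hc
    exact absurd hc (by simp)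

end

/-! ### the laws of the directions -/

section
variable {z : ℂ} {σ : Equiv.Perm (Fin 6)} {u1 u : ℝ} {i : ℕ}

/-- the letter after `x` has the colours of the pair `i` -/
def crp (U : Fin 6 → Set ℂ) (T : ℂ → Set (Fin 6)) (z : ℂ) (σ : Equiv.Perm (Fin 6)) (i : ℕ) (x : ℝ) : Prop :=
  CR U T z x = some (co σ (2 * i), co σ (2 * i + 1)) ∨ CR U T z x = some (co σ (2 * i + 1), co σ (2 * i))

/-- the letter before `x` has the colours of the pair `i` -/
def clp (U : Fin 6 → Set ℂ) (T : ℂ → Set (Fin 6)) (z : ℂ) (σ : Equiv.Perm (Fin 6)) (i : ℕ) (x : ℝ) : Prop :=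
  CL U T z x = some (co σ (2 * i), co σ (2 * i + 1)) ∨ CL U T z x = some (co σ (2 * i + 1), co σ (2 * i))

theorem hb_zero (C : Vale.Agent.P032.H892.Cn U T z) (hb0 : hb (Hp U T z σ i) 0 u1 u) :
    ∃ m : Fin 6, crp U T z σ i (u1 + m.val) := by
  obtain ⟨m, h1⟩ := hb0
  refine ⟨m, ?_⟩
  have h1 : ∃ᶠ v in 𝓝[>] (u1 + m.val), v ∈ Hp U T z σ i := h1
  have h2 : (∃ᶠ v in 𝓝[>] (u1 + m.val), v ∈ closure (OC U T z (co σ (2 * i), co σ (2 * i + 1)))) ∨
      ∃ᶠ v in 𝓝[>] (u1 + m.val), v ∈ closure (OC U T z (co σ (2 * i + 1), co σ (2 * i))) :=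
    frequently_or_distrib.1 (h1.mono fun v hv => hv)
  rcases h2 with h2 | h2
  · exact Or.inl ((hist_start (D := fun (_ : Unit) (_ : Fin 6) => closure (OC U T z _)) (b := ()) (q := 0) rfl C).1 h2)
  · exact Or.inr ((hist_start (D := fun (_ : Unit) (_ : Fin 6) => closure (OC U T z _)) (b := ()) (q := 0) rfl C).1 h2)

theorem hb_jump (h : Irr U T) (C : Vale.Agent.P032.H892.Cn U T z) (hu : u1 < u)
    (h1 : ¬ hb (Hp U T z σ i) 1 u1 u) (h2 : hb (Hp U T z σ i) 2 u1 u) :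
    ∃ m : Fin 6, crp U T z σ i (u + m.val) := by
  obtain ⟨m, h3⟩ := hb_new h1 h2
  refine ⟨m, ?_⟩
  have h4 : ∀ v, u1 + m.val < v → v < u + m.val → v ∉ Hp U T z σ i := fun v k1 k2 k3 => h1 ⟨m, v, k3, k1, k2⟩
  rcases h3 with h3 | h3
  · refine Or.inl (hist_jump h (D := fun (_ : Unit) (_ : Fin 6) => closure (OC U T z _)) (b := ()) (q := 0) rfl C hu ?_ ?_)
    · rintro ⟨v, k1, k2, k3⟩
      exact h4 v k2 k3 (Or.inl k1)
    · exact ⟨_, h3, by linarith, le_rfl⟩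
  · refine Or.inr (hist_jump h (D := fun (_ : Unit) (_ : Fin 6) => closure (OC U T z _)) (b := ()) (q := 0) rfl C hu ?_ ?_)
    · rintro ⟨v, k1, k2, k3⟩
      exact h4 v k2 k3 (Or.inr k1)
    · exact ⟨_, h3, by linarith, le_rfl⟩

theorem hb_left (hu : u1 < u) {m : Fin 6} (hc : clp U T z σ i (u + m.val)) : hb (Hp U T z σ i) 1 u1 u := by
  rcases hc with hc | hc
  · obtain ⟨v, h1, h2⟩ := hist_left (D := fun (_ : Unit) (_ : Fin 6) => closure (OC U T z _)) (b := ()) (q := 0) rfl hu hc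
    exact ⟨m, v, Or.inl h1, h2⟩
  · obtain ⟨v, h1, h2⟩ := hist_left (D := fun (_ : Unit) (_ : Fin 6) => closure (OC U T z _)) (b := ()) (q := 0) rfl hu hc
    exact ⟨m, v, Or.inr h1, h2⟩

theorem hb_right (hu : u1 < u) {m : Fin 6} (hc : crp U T z σ i (u + m.val)) : hb (Hp U T z σ i) 2 u1 u := by
  rcases hc with hc | hc
  · obtain ⟨v, h1, h2⟩ := hist_right (D := fun (_ : Unit) (_ : Fin 6) => closure (OC U T z _)) (b := ()) (q := 0) rfl hu hc
    exact ⟨m, v, Or.inl h1, h2⟩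
  · obtain ⟨v, h1, h2⟩ := hist_right (D := fun (_ : Unit) (_ : Fin 6) => closure (OC U T z _)) (b := ()) (q := 0) rfl hu hc
    exact ⟨m, v, Or.inr h1, h2⟩

theorem hb_three (h : Irr U T) (C : Vale.Agent.P032.H892.Cn U T z)
    (hz : DPt T z (co σ 0) (co σ 1) (co σ 2) (co σ 3)) (hi : i < 2) : hb (Hp U T z σ i) 3 u1 u := by
  have key : ∀ {l : L6} {v : ℝ}, v ∈ OC U T z l → ∃ m : Fin 6,
      (closure (OC U T z l) ∩ Ioo (u1 + m.val) (u1 + m.val + 1)).Nonempty := fun {l v} hv =>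
    hist_sector h (D := fun (_ : Unit) (_ : Fin 6) => closure (OC U T z l)) (b := ()) (q := 0) rfl hv
  obtain ⟨⟨v, hv⟩, ⟨w, hw⟩⟩ := dp_oc C hz
  interval_cases i
  · rcases hv with hv | hv
    · obtain ⟨m, x, h1, h2⟩ := key hv
      exact ⟨m, x, Or.inl h1, h2⟩
    · obtain ⟨m, x, h1, h2⟩ := key hv
      exact ⟨m, x, Or.inr h1, h2⟩
  · rcases hw with hv | hv
    · obtain ⟨m, x, h1, h2⟩ := key hv
      exact ⟨m, x, Or.inl h1, h2⟩
    · obtain ⟨m, x, h1, h2⟩ := key hv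
      exact ⟨m, x, Or.inr h1, h2⟩

end

/-! ### the clauses hold -/

/-- inner or outer component -/
def cio (io : ℕ) (p : Fin 6 × Fin 6) : Fin 6 := if io = 0 then p.1 else p.2

theorem nio_iff (σ : Equiv.Perm (Fin 6)) {p : Fin 6 × Fin 6} {io q : ℕ} (hq : q < 6) :
    nio σ p io = q ↔ cio io p = co σ q := by
  unfold nio cio
  constructor
  · intro e; rw [← e, co_no]
  · intro e; rw [e, no_co σ hq]

section
variable {F : Hy U T} {B : Tb NP NW TB TC} {z : ℂ} {σ : Equiv.Perm (Fin 6)} {u1 u : ℝ} {hu : u ∈ Ioo u1 (u1 + 1)}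
  {c : Cn NW TC} {t0 t1 : Cn NW TC × Fin 6 → Fin 6 × Fin 6} {s0 s1 L R : Fin NW × Fin 6 → Fin 6 × Fin 6}
  {S : St4 U T (Yw u1 u TC z NW) u1 u s0 s1 L R} {X : ℕ → ℕ → Prop} {i k io q : ℕ}

theorem lz_av {t sd : ℕ} (ht : t < 256) (hsd : sd < 2) (hio : io < 2) (hc : c.1 = 0) :
    av (xT (mS F B z σ hu S) X) (lz t sd io q) ↔ (mS F B z σ hu S).W c.1 t sd io = q := by
  unfold lz
  rw [av9 (by norm_num) ht (by omega), show (2 * sd + io) / 2 = sd by omega, show (2 * sd + io) % 2 = io by omega, hc]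
  exact Iff.rfl

theorem lz_oddR (hk : k < 6) (hio : io < 2) (hq : q < 6) (hc : c.1 = 0) :
    av (xT (mS F B z σ hu S) X) (lz (2 * k + 1) 1 io q) ↔ cio io (rs TC R (c, f6 k)) = co σ q := by
  rw [lz_av (by omega) (by norm_num) hio hc, w_odd c.2.1 c.2.2 (by omega), if_pos rfl,
    show (2 * k + 1) / 2 = k by omega]
  exact nio_iff σ hq

theorem lz_oddL (hk : k < 6) (hio : io < 2) (hq : q < 6) (hc : c.1 = 0) :
    av (xT (mS F B z σ hu S) X) (lz (2 * k + 1) 0 io q) ↔ cio io (rs TC L (c, f6 k)) = co σ q := by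
  rw [lz_av (by omega) (by norm_num) hio hc, w_odd c.2.1 c.2.2 (by omega), if_neg (by norm_num),
    show (2 * k + 1) / 2 = k by omega]
  exact nio_iff σ hq

theorem lz_evenR (hk : k < 6) (hio : io < 2) (hq : q < 6) (hc : c.1 = 0) :
    av (xT (mS F B z σ hu S) X) (lz (2 * k) 1 io q) ↔ cio io (rs TC s0 (c, f6 k)) = co σ q := by
  rw [lz_av (by omega) (by norm_num) hio hc, w_even c.2.1 c.2.2 (by omega), if_pos rfl,
    show 2 * k / 2 = k by omega]
  exact nio_iff σ hq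

theorem lz_evenL (hk : k < 6) (hio : io < 2) (hq : q < 6) (hc : c.1 = 0) :
    av (xT (mS F B z σ hu S) X) (lz (2 * k) 0 io q) ↔ cio io (rs TC s1 (c, f6 (k + 5))) = co σ q := by
  rw [lz_av (by omega) (by norm_num) hio hc, w_even c.2.1 c.2.2 (by omega), if_neg (by norm_num),
    show 2 * k / 2 = k by omega]
  exact nio_iff σ hq

/-- the colours of the pair are in `T z` -/
theorem pr_mem (hz : DPt T z (co σ 0) (co σ 1) (co σ 2) (co σ 3)) (hi : i < 2) :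
    co σ (2 * i) ∈ T z ∧ co σ (2 * i + 1) ∈ T z := by
  interval_cases i <;> rw [hz.pal] <;> simp

theorem r_R (F : Hy U T) (S : St4 U T (Yw u1 u TC z NW) u1 u s0 s1 L R)
    (C : Vale.Agent.P032.H892.Cn U T z) (hz : DPt T z (co σ 0) (co σ 1) (co σ 2) (co σ 3)) (hi : i < 2)
    (hcz : Zf u1 TC z NW c = z) : lpr σ i (rs TC R (c, f6 k)) ↔ crp U T z σ i (u + k) := by
  have D := wd_wds S.h0 S.h1 S.hL S.hR
  have eY : Yw u1 u TC z NW (fc c) = z := (yw_fc c).trans hcz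
  have C' : Vale.Agent.P032.H892.Cn U T (Yw u1 u TC z NW (fc c)) := by rw [eY]; exact C
  obtain ⟨m0, m1⟩ := pr_mem hz hi
  have e := wds_odd_one (s0 := s0) (s1 := s1) (L := L) (R := R) (j := fc c) (m := k)
  constructor
  · rintro ⟨h0, h1⟩
    have h2 := lw_R D F.h F.ct (j := fc c) (t := 2 * k + 1) C' (by rw [eY]; exact m0) (by rw [eY]; exact m1)
      (by rw [e.1]; exact h0) (by rw [e.2]; exact h1)
    rw [eY, t2_odd] at h2
    exact h2
  · rintro (h2 | h2)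
    · rw [← eY, ← t2_odd u1 u k] at h2
      obtain ⟨k0, k1⟩ := lw_R' D F.h F.ct C' h2
      rw [e.1] at k0
      rw [e.2] at k1
      exact ⟨Or.inl k0, Or.inr k1⟩
    · rw [← eY, ← t2_odd u1 u k] at h2
      obtain ⟨k0, k1⟩ := lw_R' D F.h F.ct C' h2
      rw [e.1] at k0
      rw [e.2] at k1
      exact ⟨Or.inr k0, Or.inl k1⟩

theorem r_L (F : Hy U T) (S : St4 U T (Yw u1 u TC z NW) u1 u s0 s1 L R)
    (C : Vale.Agent.P032.H892.Cn U T z) (hz : DPt T z (co σ 0) (co σ 1) (co σ 2) (co σ 3)) (hi : i < 2)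
    (hcz : Zf u1 TC z NW c = z) (h3 : lpr σ i (rs TC L (c, f6 k))) : clp U T z σ i (u + k) := by
  have D := wd_wds S.h0 S.h1 S.hL S.hR
  have eY : Yw u1 u TC z NW (fc c) = z := (yw_fc c).trans hcz
  have C' : Vale.Agent.P032.H892.Cn U T (Yw u1 u TC z NW (fc c)) := by rw [eY]; exact C
  obtain ⟨m0, m1⟩ := pr_mem hz hi
  have e := wds_odd_zero (s0 := s0) (s1 := s1) (L := L) (R := R) (j := fc c) (m := k)
  obtain ⟨h0, h1⟩ := h3
  have h2 := lw_L D F.h F.ct (j := fc c) (t := 2 * k + 1) C' (by rw [eY]; exact m0) (by rw [eY]; exact m1)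
    (by rw [e.1]; exact h0) (by rw [e.2]; exact h1)
  rw [eY, t2_odd] at h2
  exact h2

theorem r_0 (F : Hy U T) (S : St4 U T (Yw u1 u TC z NW) u1 u s0 s1 L R)
    (C : Vale.Agent.P032.H892.Cn U T z) (hcz : Zf u1 TC z NW c = z) (h2 : crp U T z σ i (u1 + k)) :
    lpr σ i (rs TC s0 (c, f6 k)) := by
  have D := wd_wds S.h0 S.h1 S.hL S.hR
  have eY : Yw u1 u TC z NW (fc c) = z := (yw_fc c).trans hcz
  have C' : Vale.Agent.P032.H892.Cn U T (Yw u1 u TC z NW (fc c)) := by rw [eY]; exact C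
  have e := wds_even_one (s0 := s0) (s1 := s1) (L := L) (R := R) (j := fc c) (m := k)
  rcases h2 with h2 | h2
  · rw [← eY, ← t2_even u1 u k] at h2
    obtain ⟨k0, k1⟩ := lw_R' D F.h F.ct C' h2
    rw [e.1] at k0
    rw [e.2] at k1
    exact ⟨Or.inl k0, Or.inr k1⟩
  · rw [← eY, ← t2_even u1 u k] at h2
    obtain ⟨k0, k1⟩ := lw_R' D F.h F.ct C' h2
    rw [e.1] at k0
    rw [e.2] at k1
    exact ⟨Or.inr k0, Or.inl k1⟩

/-- **The laws of the history bits hold in all legal models.** -/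
theorem ho_EHi (C : Vale.Agent.P032.H892.Cn U T z) (hz : DPt T z (co σ 0) (co σ 1) (co σ 2) (co σ 3)) (hi : i < 2)
    (hcz : Zf u1 TC z NW c = z) (hc : c.1 = 0) (hNP : NP ≤ 4094) {M : Md 2 NP NW (nbf 2 TB)}
    (hM : LegX F B z σ (XH U T z σ u1 c t0 t1) u1 t0 t1 M) : ∀ e ∈ EHi i, Ho M e := by
  have hX := xh_ok (U := U) (T := T) z σ u1 c t0 t1 2
  have hmono : ∀ r r', r ≤ r' → r' < 4 → Ho M [ng (hA i r), ps (hA i r')] := fun r r' h1 h2 =>
    mon_mono hX (by omega) hM hi h1 h2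
  obtain ⟨u, hu, s0, s1, L, R, S, e0, e1, rfl⟩ := hM
  have hav : ∀ r < 4, (av (xT (mS F B z σ hu S) (XH U T z σ u1 c t0 t1 u s0 s1 L R)) (hA i r) ↔
      Kp σ c t0 t1 i ∨ hb (Hp U T z σ i) r u1 u) := fun r hr => hA_av hX (by omega) hi hr
  have hwR : ∀ k < 6, (av (xT (mS F B z σ hu S) (XH U T z σ u1 c t0 t1 u s0 s1 L R)) (wR i k) ↔
      lpr σ i (rs TC R (c, f6 k))) := fun k hk => by
    refine (xT_fr (x := 4094) (by omega) (by norm_num)).trans ?_
    show (if (4094 : ℕ) = 4095 then _ else if 6 * i + k < 12 then _ else _) ↔ _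
    rw [if_neg (by norm_num), if_pos (by omega), show (6 * i + k) / 6 = i by omega,
      show (6 * i + k) % 6 = k by omega]
  have hwC1 : ∀ k < 6, (av (xT (mS F B z σ hu S) (XH U T z σ u1 c t0 t1 u s0 s1 L R)) (wC i k 1) ↔
      lpr σ i (t0 (c, f6 k))) := fun k hk => by
    refine (xT_fr (x := 4094) (by omega) (by norm_num)).trans ?_
    show (if (4094 : ℕ) = 4095 then _ else if 12 + 2 * (6 * i + k) + 1 < 12 then _ else
      if (12 + 2 * (6 * i + k) + 1) % 2 = 0 then _ else _) ↔ _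
    rw [if_neg (by norm_num), if_neg (by omega), if_neg (by omega),
      show (12 + 2 * (6 * i + k) + 1 - 12) / 2 / 6 = i by omega,
      show (12 + 2 * (6 * i + k) + 1 - 12) / 2 % 6 = k by omega]
  have hwC0 : ∀ k < 6, (av (xT (mS F B z σ hu S) (XH U T z σ u1 c t0 t1 u s0 s1 L R)) (wC i k 0) ↔
      lpr σ i (t1 (c, f6 (k + 5)))) := fun k hk => by
    refine (xT_fr (x := 4094) (by omega) (by norm_num)).trans ?_
    show (if (4094 : ℕ) = 4095 then _ else if 12 + 2 * (6 * i + k) + 0 < 12 then _ else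
      if (12 + 2 * (6 * i + k) + 0) % 2 = 0 then _ else _) ↔ _
    rw [if_neg (by norm_num), if_neg (by omega), if_pos (by omega),
      show (12 + 2 * (6 * i + k) + 0 - 12) / 2 / 6 = i by omega,
      show (12 + 2 * (6 * i + k) + 0 - 12) / 2 % 6 = k by omega]
  have h2i : 2 * i < 6 := by omega
  have h2i1 : 2 * i + 1 < 6 := by omega
  have hR : ∀ k < 6, ∀ io < 2, ∀ q < 6, (av (xT (mS F B z σ hu S) (XH U T z σ u1 c t0 t1 u s0 s1 L R))
      (lz (2 * k + 1) 1 io q) ↔ cio io (rs TC R (c, f6 k)) = co σ q) := fun k hk io hio q hq =>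
    lz_oddR hk hio hq hc
  have hL : ∀ k < 6, ∀ io < 2, ∀ q < 6, (av (xT (mS F B z σ hu S) (XH U T z σ u1 c t0 t1 u s0 s1 L R))
      (lz (2 * k + 1) 0 io q) ↔ cio io (rs TC L (c, f6 k)) = co σ q) := fun k hk io hio q hq =>
    lz_oddL hk hio hq hc
  have h0 : ∀ k < 6, ∀ io < 2, ∀ q < 6, (av (xT (mS F B z σ hu S) (XH U T z σ u1 c t0 t1 u s0 s1 L R))
      (lz (2 * k) 1 io q) ↔ cio io (t0 (c, f6 k)) = co σ q) := fun k hk io hio q hq => by
    rw [← e0]; exact lz_evenR hk hio hq hc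
  have h1 : ∀ k < 6, ∀ io < 2, ∀ q < 6, (av (xT (mS F B z σ hu S) (XH U T z σ u1 c t0 t1 u s0 s1 L R))
      (lz (2 * k) 0 io q) ↔ cio io (t1 (c, f6 (k + 5))) = co σ q) := fun k hk io hio q hq => by
    rw [← e1]; exact lz_evenL hk hio hq hc
  have hf6 : ∀ m : Fin 6, f6 m.val = m := fun m => f6_lt m.isLt
  have hf65 : ∀ m : Fin 6, f6 ((m.val + 1) % 6 + 5) = m := fun m => by
    apply Fin.ext
    show ((m.val + 1) % 6 + 5) % 6 = m.val
    have := m.isLt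
    omega
  have hf5 : ∀ k < 6, ∃ m : Fin 6, f6 (k + 5) = m := fun k _ => ⟨_, rfl⟩
  intro e he
  simp only [EHi, List.mem_append, List.mem_cons, List.mem_flatMap, List.mem_range, List.not_mem_nil,
    or_false] at he
  rcases he with (rfl | rfl | rfl | rfl | rfl | rfl) | ⟨k, hk, (rfl | rfl | rfl | rfl | rfl | rfl) |
    ⟨sd, hsd, rfl | rfl | rfl | rfl⟩⟩
  · -- new only with a letter
    refine hn fun h2 => ?_
    by_cases h3 : av (xT (mS F B z σ hu S) (XH U T z σ u1 c t0 t1 u s0 s1 L R)) (hA i 1)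
    · exact hp h3
    · rw [hav 2 (by norm_num)] at h2
      rw [hav 1 (by norm_num), not_or] at h3
      obtain ⟨m, hm⟩ := hb_jump F.h C hu.1 h3.2 (h2.resolve_left h3.1)
      have h4 : lpr σ i (rs TC R (c, f6 m.val)) := (r_R F S C hz hi hcz).2 hm
      have h5 := (hwR m.val m.isLt).2 h4
      refine ⟨ps (wR i m.val), ?_, lv_ps.2 h5⟩
      fin_cases m <;> simp
  · -- the start
    refine hn fun h2 => ?_
    rw [hav 0 (by norm_num)] at h2
    have h3 : ∃ m : Fin 6, lpr σ i (t0 (c, m)) ∨ lpr σ i (t1 (c, m)) := by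
      rcases h2 with h2 | h2
      · exact h2
      · obtain ⟨m, hm⟩ := hb_zero C h2
        have := r_0 F S C hcz hm
        rw [e0, hf6] at this
        exact ⟨m, Or.inl this⟩
    obtain ⟨m, hm | hm⟩ := h3
    · have h5 := (hwC1 m.val m.isLt).2 (by rw [hf6]; exact hm)
      refine ⟨ps (wC i m.val 1), ?_, lv_ps.2 h5⟩
      fin_cases m <;> simp
    · have h5 := (hwC0 ((m.val + 1) % 6) (Nat.mod_lt _ (by norm_num))).2 (by rw [hf65]; exact hm)
      refine ⟨ps (wC i ((m.val + 1) % 6) 0), ?_, lv_ps.2 h5⟩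
      fin_cases m <;> simp
  · exact hmono 0 1 (by norm_num) (by norm_num)
  · exact hmono 1 2 (by norm_num) (by norm_num)
  · exact hmono 2 3 (by norm_num) (by norm_num)
  · exact hp ((hav 3 (by norm_num)).2 (Or.inr (hb_three F.h C hz hi)))
  · refine hn fun h2 => ?_
    rcases ((hwR k hk).1 h2).1 with h3 | h3
    · exact hp ((hR k hk 0 (by norm_num) _ h2i).2 h3)
    · exact ht (hp ((hR k hk 0 (by norm_num) _ h2i1).2 h3))
  · refine hn fun h2 => ?_
    rcases ((hwR k hk).1 h2).2 with h3 | h3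
    · exact hp ((hR k hk 1 (by norm_num) _ h2i).2 h3)
    · exact ht (hp ((hR k hk 1 (by norm_num) _ h2i1).2 h3))
  · refine hn fun h2 => hn fun h3 => hp ((hav 2 (by norm_num)).2 (Or.inr ?_))
    rw [hR k hk 0 (by norm_num) _ h2i] at h2
    rw [hR k hk 1 (by norm_num) _ h2i1] at h3
    exact hb_right (m := ⟨k, hk⟩) hu.1 ((r_R F S C hz hi hcz).1 ⟨Or.inl h2, Or.inr h3⟩)
  · refine hn fun h2 => hn fun h3 => hp ((hav 2 (by norm_num)).2 (Or.inr ?_))
    rw [hR k hk 0 (by norm_num) _ h2i1] at h2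
    rw [hR k hk 1 (by norm_num) _ h2i] at h3
    exact hb_right (m := ⟨k, hk⟩) hu.1 ((r_R F S C hz hi hcz).1 ⟨Or.inr h2, Or.inl h3⟩)
  · refine hn fun h2 => hn fun h3 => hp ((hav 1 (by norm_num)).2 (Or.inr ?_))
    rw [hL k hk 0 (by norm_num) _ h2i] at h2
    rw [hL k hk 1 (by norm_num) _ h2i1] at h3
    exact hb_left (m := ⟨k, hk⟩) hu.1 (r_L F S C hz hi hcz ⟨Or.inl h2, Or.inr h3⟩)
  · refine hn fun h2 => hn fun h3 => hp ((hav 1 (by norm_num)).2 (Or.inr ?_))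
    rw [hL k hk 0 (by norm_num) _ h2i1] at h2
    rw [hL k hk 1 (by norm_num) _ h2i] at h3
    exact hb_left (m := ⟨k, hk⟩) hu.1 (r_L F S C hz hi hcz ⟨Or.inr h2, Or.inl h3⟩)
  · interval_cases sd
    · refine hn fun h2 => ?_
      rcases ((hwC0 k hk).1 h2).1 with h3 | h3
      · exact hp ((h1 k hk 0 (by norm_num) _ h2i).2 h3)
      · exact ht (hp ((h1 k hk 0 (by norm_num) _ h2i1).2 h3))
    · refine hn fun h2 => ?_
      rcases ((hwC1 k hk).1 h2).1 with h3 | h3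
      · exact hp ((h0 k hk 0 (by norm_num) _ h2i).2 h3)
      · exact ht (hp ((h0 k hk 0 (by norm_num) _ h2i1).2 h3))
  · interval_cases sd
    · refine hn fun h2 => ?_
      rcases ((hwC0 k hk).1 h2).2 with h3 | h3
      · exact hp ((h1 k hk 1 (by norm_num) _ h2i).2 h3)
      · exact ht (hp ((h1 k hk 1 (by norm_num) _ h2i1).2 h3))
    · refine hn fun h2 => ?_
      rcases ((hwC1 k hk).1 h2).2 with h3 | h3
      · exact hp ((h0 k hk 1 (by norm_num) _ h2i).2 h3)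
      · exact ht (hp ((h0 k hk 1 (by norm_num) _ h2i1).2 h3))
  · refine hn fun h2 => hn fun h3 => hp ((hav 0 (by norm_num)).2 (Or.inl ?_))
    interval_cases sd
    · rw [h1 k hk 0 (by norm_num) _ h2i] at h2
      rw [h1 k hk 1 (by norm_num) _ h2i1] at h3
      exact ⟨f6 (k + 5), Or.inr ⟨Or.inl h2, Or.inr h3⟩⟩
    · rw [h0 k hk 0 (by norm_num) _ h2i] at h2
      rw [h0 k hk 1 (by norm_num) _ h2i1] at h3
      exact ⟨f6 k, Or.inl ⟨Or.inl h2, Or.inr h3⟩⟩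
  · refine hn fun h2 => hn fun h3 => hp ((hav 0 (by norm_num)).2 (Or.inl ?_))
    interval_cases sd
    · rw [h1 k hk 0 (by norm_num) _ h2i1] at h2
      rw [h1 k hk 1 (by norm_num) _ h2i] at h3
      exact ⟨f6 (k + 5), Or.inr ⟨Or.inr h2, Or.inl h3⟩⟩
    · rw [h0 k hk 0 (by norm_num) _ h2i1] at h2
      rw [h0 k hk 1 (by norm_num) _ h2i] at h3
      exact ⟨f6 k, Or.inl ⟨Or.inr h2, Or.inl h3⟩⟩

theorem ho_EH (C : Vale.Agent.P032.H892.Cn U T z) (hz : DPt T z (co σ 0) (co σ 1) (co σ 2) (co σ 3))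
    (hcz : Zf u1 TC z NW c = z) (hc : c.1 = 0) (hNP : NP ≤ 4094) {M : Md 2 NP NW (nbf 2 TB)}
    (hM : LegX F B z σ (XH U T z σ u1 c t0 t1) u1 t0 t1 M) : ∀ e ∈ EH, Ho M e := by
  intro e he
  rcases List.mem_append.1 he with he | he
  · exact ho_EHi C hz (by norm_num) hcz hc hNP hM e he
  · exact ho_EHi C hz (by norm_num) hcz hc hNP hM e he

end

end Vale.Agent.P032.H357.MK
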