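import Vale.Agent.P032X.H357.MdK

/-!
# P032: the bits of `H892.GermC` in the cells of the germ model

`K = 2`, `b = a 0` (class 0 = the directions `b + m`), `u = a 1` (class 1 = the directions `u + m`), centre `Z c = x`.
-/

open Set Filter Topology Metric

noncomputable section

namespace Vale.Agent.P032.H357.MK

open Vale.Agent.P032.Six Vale.Agent.P032.H892 Vale.Agent.P032.H913 Vale.Agent.P032.S5.H767
  Vale.Agent.P032.H357

variable {U : Fin 6 → Set ℂ} {T : ℂ → Set (Fin 6)} {B : Type} {Z : B → ℂ} {c : B} {q : Fin 6}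
variable {K : ℕ} {a : ℕ → ℝ} {j : ℕ}

theorem cl0_sh (h : Irr U T) : Cl (Sq T q) (Z c) a 0 j ↔ (shD T Z c q ∩ Ioo (a j) (a (j + 1))).Nonempty := by
  rw [cl_zero_dr h]
  constructor
  · rintro ⟨θ, h1, h2⟩
    refine ⟨θ - 3 / 2, ?_, ?_, ?_⟩
    · show θ - 3 / 2 + 3 / 2 ∈ Dr T (Z c) q
      rw [sub_add_cancel]; exact h2
    · have := h1.1; unfold ra at this; linarith
    · have := h1.2; unfold ra at this; linarith
  · rintro ⟨v, h1, h2, h3⟩
    have h1 : v + 3 / 2 ∈ Dr T (Z c) q := h1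
    refine ⟨v + 3 / 2, ⟨?_, ?_⟩, h1⟩
    · unfold ra; linarith
    · unfold ra; linarith

theorem clz_sh (h : Irr U T) : (∃ k < 3, Cl (Sq T q) (Z c) a (k + 1) j) ↔ a j ∈ shD T Z c q := by
  have e : a j ∈ shD T Z c q ↔ ra a j ∈ DS (Sq T q) (Z c) := by
    rw [ds_eq_dr h]; exact Iff.rfl
  rw [e, ds_iff_cl]
  constructor
  · rintro ⟨k, hk, h1⟩
    exact ⟨k + 1, by omega, by omega, h1⟩
  · rintro ⟨k, h1, h2, h3⟩
    exact ⟨k - 1, by omega, by rwa [show k - 1 + 1 = k by omega]⟩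

section
variable (A : Tick 2 a) {m : Fin 6}
include A

theorem a_ev (m : ℕ) : a (2 * m) = a 0 + m := a_even A m

theorem a_od (m : ℕ) : a (2 * m + 1) = a 1 + m := by
  have := A.per_mul 1 m
  rw [show 2 * m + 1 = 1 + m * 2 by ring]; exact this

theorem a_ev' (m : ℕ) : a (2 * m + 1 + 1) = a 0 + m + 1 := by
  have := a_ev A (m + 1)
  rw [show 2 * (m + 1) = 2 * m + 1 + 1 by ring] at this
  rw [this]; push_cast; ring

/-- bit `A` before the event -/
theorem al_iff (h : Irr U T) : cAl (shD T Z) (a 0) (a 1) c m q ↔ Cl (Sq T q) (Z c) a 0 (2 * m.val) := by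
  rw [cl0_sh h, a_ev A, a_od A]; exact Iff.rfl

/-- bit `A` after the event -/
theorem ar_iff (h : Irr U T) : cAr (shD T Z) (a 0) (a 1) c m q ↔
    (Cl (Sq T q) (Z c) a 0 (2 * m.val) ∨ ∃ k < 3, Cl (Sq T q) (Z c) a (k + 1) (2 * m.val + 1)) := by
  rw [cl0_sh h, clz_sh h, a_ev A, a_od A]
  constructor
  · rintro ⟨v, h1, h2, h3⟩
    rcases h3.eq_or_lt with h4 | h4
    · right; rw [← h4]; exact h1
    · exact Or.inl ⟨v, h1, h2, h4⟩
  · rintro (⟨v, h1, h2, h3⟩ | h1)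
    · exact ⟨v, h1, h2, h3.le⟩
    · refine ⟨_, h1, ?_, le_rfl⟩
      have := A.mono (show 0 < 1 by norm_num)
      linarith

/-- bit `B` after the event -/
theorem br_iff (h : Irr U T) : cBr (shD T Z) (a 0) (a 1) c m q ↔ Cl (Sq T q) (Z c) a 0 (2 * m.val + 1) := by
  rw [cl0_sh h, a_od A, a_ev' A]; exact Iff.rfl

/-- bit `B` before the event -/
theorem bl_iff (h : Irr U T) : cBl (shD T Z) (a 0) (a 1) c m q ↔
    (Cl (Sq T q) (Z c) a 0 (2 * m.val + 1) ∨ ∃ k < 3, Cl (Sq T q) (Z c) a (k + 1) (2 * m.val + 1)) := by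
  rw [cl0_sh h, clz_sh h, a_od A, a_ev' A]
  constructor
  · rintro ⟨v, h1, h2, h3⟩
    rcases h2.eq_or_lt with h4 | h4
    · right; rw [h4]; exact h1
    · exact Or.inl ⟨v, h1, h4, h3⟩
  · rintro (⟨v, h1, h2, h3⟩ | h1)
    · exact ⟨v, h1, h2.le, h3⟩
    · refine ⟨_, h1, le_rfl, ?_⟩
      have := A.mono (show 1 < 2 by norm_num)
      have e := a_ev A 1
      norm_num at e
      linarith

/-- the whole sector -/
theorem cs_iff (h : Irr U T) : cS (shD T Z) (a 0) c m q ↔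
    (Cl (Sq T q) (Z c) a 0 (2 * m.val) ∨ Cl (Sq T q) (Z c) a 0 (2 * m.val + 1) ∨
      ∃ k < 3, Cl (Sq T q) (Z c) a (k + 1) (2 * m.val + 1)) := by
  rw [cl0_sh h, cl0_sh h, clz_sh h, a_ev A, a_od A, a_ev' A]
  have h1 := A.mono (show 0 < 1 by norm_num)
  have h2 := A.mono (show 1 < 2 by norm_num)
  have e := a_ev A 1
  norm_num at e
  constructor
  · rintro ⟨v, h3, h4, h5⟩
    rcases lt_trichotomy v (a 1 + m.val) with h6 | h6 | h6
    · exact Or.inl ⟨v, h3, h4, h6⟩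
    · right; right; rw [← h6]; exact h3
    · exact Or.inr (Or.inl ⟨v, h3, h6, h5⟩)
  · rintro (⟨v, h3, h4, h5⟩ | ⟨v, h3, h4, h5⟩ | h3)
    · exact ⟨v, h3, h4, by linarith⟩
    · exact ⟨v, h3, by linarith, h5⟩
    · exact ⟨_, h3, by linarith, by linarith⟩

end

end Vale.Agent.P032.H357.MK
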