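import Vale.Agent.P032X.H849.NoOv
import Vale.Agent.P032X.H892.GermC
import Vale.Agent.P032X.H357.CellK
import Vale.Agent.P032X.H820.K.Md

/-!
# P032: further rules for the germ model

* `Ino.pal_sub` : the palette of the arc is contained in the pair of the letters,
* `Wd.arcl` : a colour of the whole arc is one of the two letters,
* `dir_tick` : different ticks have different directions,
* `exists_accR`, `exists_accL` : every ray has a colour which accumulates from the right, from the left,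
* `accR_zone`, `accR_sector`, `accL_zone`, `accL_sector` : the cells of such a colour.
-/

open Set Filter Topology Metric

noncomputable section

namespace Vale.Agent.P032.H61

open Vale.Agent.P032.Six Vale.Agent.P032.Words Vale.Agent.P032.S5.H767 Vale.Agent.P032.H892
  Vale.Agent.P032.H913 Vale.Agent.P032.H357

variable {U : Fin 6 → Set ℂ} {T : ℂ → Set (Fin 6)} {x : ℂ} {s : ℝ} {p q : Fin 6}

/-- on an arc in `XX U` the outer colour is a colour of `Pal x` -/
theorem Ino.noov2 (I : Ino U T x s p q) (h : Irr U T) (hXX : ∀ᶠ v in 𝓝 s, pt x v ∈ XX U) : q ∈ Pal U x := by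
  by_contra hq
  have hX : ∀ᶠ v in 𝓝 s, q ∈ Pal U (2 * pt x v - x) := by
    filter_upwards [I.loc, I.loc.eventually_nhds, hXX] with v hv hv2 h1
    have hqv : q ∈ T (pt x v) := by rw [hv]; exact I.q_mem h
    obtain ⟨V, hzV, hV⟩ : ∃ V, dist (pt x v) V = 1 ∧ q ∈ Pal U V := h.partner_XX h1 hqv
    have harc : ∀ᶠ y in 𝓝[sphere x 1] (pt x v), q ∈ Pal U y := by
      have h3 : ∀ᶠ v' in 𝓝 v, q ∈ Pal U (pt x v') := by
        filter_upwards [hv2] with v' hv'
        exact h.sub _ (by rw [hv']; exact I.q_mem h)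
      exact ev_circle x h3
    rcases h.mx.partner_line (dist_pt x v) harc hzV hV with h3 | h3
    · rw [h3] at hV; exact absurd hV hq
    · have : V = 2 * pt x v - x := by rw [← h3]; ring
      rwa [this] at hV
  obtain ⟨η, hη, hball⟩ := Metric.mem_nhds_iff.1 hX
  set η' := min η 1 with hη'
  have hη0 : 0 < η' := lt_min hη one_pos
  have hball' : ∀ v ∈ ball s η', q ∈ Pal U (2 * pt x v - x) := fun v hv =>
    hball (ball_subset_ball (min_le_left _ _) hv)
  have hQ : IsPreconnected ((fun v => 2 * pt x v - x) '' ball s η') :=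
    (convex_ball s η').isPreconnected.image _
      ((continuous_const.mul (continuous_pt x)).sub continuous_const).continuousOn
  have hQF : (fun v => 2 * pt x v - x) '' ball s η' ⊆ closure (U q) := by
    rintro _ ⟨v, hv, rfl⟩
    exact hball' v hv
  -- the far point
  set v1 := s + η' / 2 with hv1
  have hm1 : v1 ∈ ball s η' := by
    rw [mem_ball, Real.dist_eq, hv1, add_sub_cancel_left, abs_of_pos (by linarith)]; linarith
  have hfar : 1 < dist (2 * pt x v1 - x) (pt x s) := by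
    have e0 : dist (2 * pt x v1 - x) (pt x s) ^ 2 =
        5 - 4 * Real.cos (v1 * (Real.pi / 3) - s * (Real.pi / 3)) := by
      rw [sq_dist]
      unfold pt
      have k1 : (2 * (x + cis (v1 * (Real.pi / 3))) - x : ℂ) = x + 2 * cis (v1 * (Real.pi / 3)) := by
        ring
      rw [k1]
      simp only [Complex.add_re, Complex.add_im, Complex.mul_re, Complex.mul_im, Complex.re_ofNat,
        Complex.im_ofNat, cis_re, cis_im]
      rw [Real.cos_sub]
      have h1 := Real.sin_sq_add_cos_sq (v1 * (Real.pi / 3))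
      have h2 := Real.sin_sq_add_cos_sq (s * (Real.pi / 3))
      linear_combination 4 * h1 + h2
    have hle : η' ≤ 1 := min_le_right _ _
    have hpi := Real.pi_pos
    have e1 : v1 * (Real.pi / 3) - s * (Real.pi / 3) = η' / 2 * (Real.pi / 3) := by rw [hv1]; ring
    have h3 : Real.cos (v1 * (Real.pi / 3) - s * (Real.pi / 3)) < 1 := by
      rw [e1, ← Real.cos_zero]
      exact Real.cos_lt_cos_of_nonneg_of_le_pi le_rfl (by nlinarith) (by positivity)
    have h4 : 1 < dist (2 * pt x v1 - x) (pt x s) ^ 2 := by rw [e0]; linarith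
    by_contra hcon
    push Not at hcon
    have := dist_nonneg (x := 2 * pt x v1 - x) (y := pt x s)
    nlinarith
  have hfar' : ∀ᶠ y in 𝓝 (pt x s), 1 < dist (2 * pt x v1 - x) y :=
    (continuous_const.dist continuous_id).continuousAt.eventually_const_lt hfar
  -- the near point
  have hc1 : ∀ᶠ w in 𝓝[sphere x 1] (pt x s), ∃ v ∈ ball s η', w = pt x v :=
    ev_circle x (by
      filter_upwards [ball_mem_nhds s hη0] with v hv
      exact ⟨v, hv, rfl⟩)
  have hne0 : (dist (pt x s) x : ℂ) ≠ 0 := by rw [dist_pt]; simp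
  have hc2 : ContinuousAt (fun y : ℂ => x + (y - x) / (dist y x : ℂ)) (pt x s) := by
    have k1 : ContinuousAt (fun y : ℂ => (y - x)) (pt x s) := by fun_prop
    have k2 : ContinuousAt (fun y : ℂ => ((dist y x : ℝ) : ℂ)) (pt x s) := by
      have : Continuous fun y : ℂ => ((dist y x : ℝ) : ℂ) :=
        Complex.continuous_ofReal.comp (continuous_id.dist continuous_const)
      exact this.continuousAt
    exact continuousAt_const.add (k1.div k2 hne0)
  have hval : x + (pt x s - x) / (dist (pt x s) x : ℂ) = pt x s := by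
    rw [dist_pt]; simp
  have hc3 : Tendsto (fun y : ℂ => x + (y - x) / (dist y x : ℂ)) (𝓝 (pt x s))
      (𝓝[sphere x 1] (pt x s)) := by
    refine tendsto_nhdsWithin_of_tendsto_nhds_of_eventually_within _ ?_ ?_
    · have := hc2.tendsto
      rwa [hval] at this
    · have h5 : ∀ᶠ y in 𝓝 (pt x s), y ≠ x := by
        refine isOpen_ne.mem_nhds ?_
        intro h6
        have := dist_pt x s
        rw [h6, dist_self] at this
        exact zero_ne_one this
      filter_upwards [h5] with y hy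
      have hpos : 0 < dist y x := dist_pos.2 hy
      show dist (x + (y - x) / (dist y x : ℂ)) x = 1
      rw [dist_eq_norm, add_sub_cancel_left, norm_div, Complex.norm_real, ← dist_eq_norm,
        Real.norm_of_nonneg hpos.le, div_self hpos.ne']
  have hlt : ∀ᶠ y in 𝓝 (pt x s), dist y x < 3 :=
    (continuous_id.dist continuous_const).continuousAt.eventually_lt_const
      (by simp only [id_eq, dist_pt]; norm_num)
  obtain ⟨y, ⟨hy1, hy2⟩, hy3, ⟨v, hv, hv'⟩, hy5⟩ :=
    (I.out.and_eventually (hfar'.and ((hc3.eventually hc1).and hlt))).exists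
  have hyq : q ∈ Pal U y := h.sub y (by rw [hy1]; rfl)
  refine h.mx.wlemma hQ hQF (z := y) ⟨v, hv, rfl⟩ ⟨v1, hm1, rfl⟩ ?_ hy3 hyq
  show dist (2 * pt x v - x) y < 1
  rw [← hv']
  have hpos : 0 < dist y x := by linarith
  have hne : ((dist y x : ℝ) : ℂ) ≠ 0 := by exact_mod_cast hpos.ne'
  have e1 : 2 * (x + (y - x) / (dist y x : ℂ)) - x - y =
      (((2 - dist y x) / dist y x : ℝ) : ℂ) * (y - x) := by
    push_cast
    field_simp
    ring
  rw [dist_eq_norm, e1, norm_mul, Complex.norm_real, ← dist_eq_norm, Real.norm_eq_abs, abs_div,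
    abs_of_pos hpos, div_mul_cancel₀ _ hpos.ne', abs_lt]
  constructor <;> linarith

/-- an arc with two colours is in `XX U` -/
theorem Ino.arc_XX (I : Ino U T x s p q) (h : Irr U T) (hl : Ln U T) (h2 : 2 ≤ (T (pt x s)).ncard) :
    ∀ᶠ v in 𝓝 s, pt x v ∈ XX U := by
  have hc : Tendsto (fun θ : ℝ => θ / (Real.pi / 3)) (𝓝 (s * (Real.pi / 3))) (𝓝 s) := by
    have h1 : Continuous fun θ : ℝ => θ / (Real.pi / 3) := by fun_prop
    have h2 := h1.tendsto (s * (Real.pi / 3))
    rwa [mul_div_cancel_right₀ _ (by positivity)] at h2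
  have hpi : Real.pi / 3 ≠ 0 := by positivity
  have h1 : ∀ᶠ θ in 𝓝 (s * (Real.pi / 3)), T (x + cis θ) = T (x + cis (s * (Real.pi / 3))) := by
    filter_upwards [hc.eventually I.loc] with θ hθ
    unfold pt at hθ
    rwa [div_mul_cancel₀ _ hpi] at hθ
  have h3 := hl.arc_XX h h1 h2
  have hc2 : Tendsto (fun v : ℝ => v * (Real.pi / 3)) (𝓝 s) (𝓝 (s * (Real.pi / 3))) := by
    have h1 : Continuous fun v : ℝ => v * (Real.pi / 3) := by fun_prop
    exact h1.tendsto s
  exact hc2.eventually h3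

/-- **the palette of the arc is contained in the pair of the letters** -/
theorem Ino.pal_sub (I : Ino U T x s p q) (h : Irr U T) (hl : Ln U T) (hct : Ctn U T (pt x s)) :
    T (pt x s) ⊆ {p, q} := by
  by_cases h2 : 2 ≤ (T (pt x s)).ncard
  · have hX := I.arc_XX h hl h2
    have hq := I.noov2 h hX
    have hpq : p ≠ q := fun e => I.ne h hct (e ▸ hq) e
    rw [I.two h hpq hX.self_of_nhds]
  · intro m hm
    left
    exact (Set.ncard_le_one (Set.toFinite _)).1 (by omega) m hm p (I.p_mem h)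

variable {J : Type*} {K : ℕ} {a : ℕ → ℝ} {X : J → ℂ} {W : J → ℕ → ℕ → ℕ → Fin 6}

/-- **a colour of the whole arc is one of the two letters** -/
theorem Wd.arcl (D : Wd U T K a X W) (h : Irr U T) (hl : Ln U T) (hct : ∀ y, Ctn U T y) {j : J} {t sd : ℕ} {c : Fin 6}
    (hc : ∀ᶠ y in 𝓝[sphere (X j) 1] (X j + dir (a t)), c ∈ T y) : c = W j t sd 0 ∨ c = W j t sd 1 := by
  have h1 : Tendsto (fun τ : ℝ => pt (X j) (a t + τ)) (sdf sd) (𝓝[sphere (X j) 1] (pt (X j) (a t))) :=
    tendsto_nhdsWithin_of_tendsto_nhds_of_eventually_within _ (tendsto_pt_shift (sdf_side sd) (X j) (a t))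
      (Eventually.of_forall fun τ => dist_pt (X j) (a t + τ))
  rw [add_dir] at hc
  obtain ⟨τ, hτ, h2⟩ := ((D.fam1 sd t).and_eventually (h1.eventually hc)).exists
  exact (hτ j).pal_sub h hl (hct _) h2

end Vale.Agent.P032.H61

namespace Vale.Agent.P032.H357

open Vale.Agent.P032.Six Vale.Agent.P032.Words Vale.Agent.P032.S5.H767 Vale.Agent.P032.H892
  Vale.Agent.P032.H913 Vale.Agent.P032.H61

variable {U : Fin 6 → Set ℂ} {T : ℂ → Set (Fin 6)}

/-! ### accumulation of colours at a ray -/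

theorem exists_accR (h : Irr U T) (x : ℂ) (b : ℝ) : ∃ q, AccR (DS (Sq T q) x) b := by
  have h1 : ∃ᶠ v in 𝓝[>] b, ∃ q, v ∈ DS (Sq T q) x := (Eventually.of_forall fun v => by
    obtain ⟨c, hc⟩ := dr_cover h x v
    exact ⟨c, by rwa [ds_eq_dr h]⟩).frequently
  exact H61.freq_exists h1

theorem exists_accL (h : Irr U T) (x : ℂ) (b : ℝ) : ∃ q, AccL (DS (Sq T q) x) b := by
  have h1 : ∃ᶠ v in 𝓝[<] b, ∃ q, v ∈ DS (Sq T q) x := (Eventually.of_forall fun v => by
    obtain ⟨c, hc⟩ := dr_cover h x v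
    exact ⟨c, by rwa [ds_eq_dr h]⟩).frequently
  exact H61.freq_exists h1

theorem tendsto_sub_gt (b c : ℝ) : Tendsto (fun v : ℝ => v - c) (𝓝[>] (b + c)) (𝓝[>] b) := by
  refine tendsto_nhdsWithin_of_tendsto_nhds_of_eventually_within _ ?_ ?_
  · have h5 : Continuous fun v : ℝ => v - c := by fun_prop
    have h6 := h5.tendsto (b + c)
    rw [add_sub_cancel_right] at h6
    exact h6.mono_left nhdsWithin_le_nhds
  · filter_upwards [self_mem_nhdsWithin] with v hv
    have hv : b + c < v := hv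
    show b < v - c
    linarith

theorem tendsto_sub_lt (b c : ℝ) : Tendsto (fun v : ℝ => v - c) (𝓝[<] (b + c)) (𝓝[<] b) := by
  refine tendsto_nhdsWithin_of_tendsto_nhds_of_eventually_within _ ?_ ?_
  · have h5 : Continuous fun v : ℝ => v - c := by fun_prop
    have h6 := h5.tendsto (b + c)
    rw [add_sub_cancel_right] at h6
    exact h6.mono_left nhdsWithin_le_nhds
  · filter_upwards [self_mem_nhdsWithin] with v hv
    have hv : v < b + c := hv
    show v - c < b
    linarith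

section
variable {J : Type} {Z : J → ℂ} {j : J} {q : Fin 6} {b : ℝ}

theorem accR_sh (h : Irr U T) (hi : AccR (DS (Sq T q) (Z j)) (b + 3 / 2)) : AccR (shD T Z j q) b := by
  refine (tendsto_sub_gt b (3 / 2)).frequently (hi.mono fun v hv => ?_)
  show v - 3 / 2 + 3 / 2 ∈ Dr T (Z j) q
  rw [sub_add_cancel, ← ds_eq_dr h]; exact hv

theorem accL_sh (h : Irr U T) (hi : AccL (DS (Sq T q) (Z j)) (b + 3 / 2)) : AccL (shD T Z j q) b := by
  refine (tendsto_sub_lt b (3 / 2)).frequently (hi.mono fun v hv => ?_)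
  show v - 3 / 2 + 3 / 2 ∈ Dr T (Z j) q
  rw [sub_add_cancel, ← ds_eq_dr h]; exact hv

theorem accR_of_sh (h : Irr U T) (hi : AccR (shD T Z j q) b) : AccR (DS (Sq T q) (Z j)) (b + 3 / 2) := by
  have h1 := tendsto_sub_gt (b + 3 / 2) (-(3 / 2))
  rw [show b + 3 / 2 + -(3 / 2) = b by ring] at h1
  refine h1.frequently (hi.mono fun v hv => ?_)
  have hv : v + 3 / 2 ∈ Dr T (Z j) q := hv
  rw [sub_neg_eq_add, ds_eq_dr h]; exact hv

theorem accL_of_sh (h : Irr U T) (hi : AccL (shD T Z j q) b) : AccL (DS (Sq T q) (Z j)) (b + 3 / 2) := by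
  have h1 := tendsto_sub_lt (b + 3 / 2) (-(3 / 2))
  rw [show b + 3 / 2 + -(3 / 2) = b by ring] at h1
  refine h1.frequently (hi.mono fun v hv => ?_)
  have hv : v + 3 / 2 ∈ Dr T (Z j) q := hv
  rw [sub_neg_eq_add, ds_eq_dr h]; exact hv

end

/-- directions in the half plane: near points are inside the circle -/
theorem freq_in_of_ds {S : Set ℂ} {x : ℂ} {θ u : ℝ} (h : θ ∈ DS S x) (hc : 0 < Real.cos ((θ - u) * (Real.pi / 3))) :
    ∃ᶠ p in 𝓝 ((0 : ℝ), θ), p ∈ PS S x ∧ dist (po x p) (x + dir u) < 1 := by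
  set C := Real.cos ((θ - u) * (Real.pi / 3)) with hC
  have h2 : ∀ᶠ p : ℝ × ℝ in 𝓝 ((0 : ℝ), θ), C / 2 < Real.cos ((p.2 - u) * (Real.pi / 3)) :=
    (cosc u).continuousAt.eventually_const_lt (by show C / 2 < C; linarith)
  have h3 : ∀ᶠ p : ℝ × ℝ in 𝓝 ((0 : ℝ), θ), p.1 < C :=
    continuous_fst.continuousAt.eventually_lt_const hc
  refine ((show ∃ᶠ p in 𝓝 ((0 : ℝ), θ), p ∈ PS S x from h).and_eventually (h2.and h3)).mono fun p hp => ?_
  obtain ⟨hp, hp2, hp3⟩ := hp
  refine ⟨hp, ?_⟩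
  rw [add_dir]
  refine lt_one_of_sq dist_nonneg ?_
  have h4 := sq_dist_po x p.1 p.2 u
  rw [show (p.1, p.2) = p from rfl] at h4
  have h6 := hp.1
  rw [h4]; nlinarith

/-- a limit of directions -/
theorem freq_dirs {l : Filter ℝ} {b : ℝ} (hl : l ≤ 𝓝 b) {P : ℝ × ℝ → Prop}
    (h : ∃ᶠ θ in l, ∃ᶠ p in 𝓝 ((0 : ℝ), θ), P p) : ∃ᶠ p in 𝓝 ((0 : ℝ), b), P p := by
  rw [frequently_iff]
  intro N hN
  obtain ⟨N', hN', hNo, hbN⟩ := _root_.mem_nhds_iff.1 hN
  have h1 : ∀ᶠ θ in l, ((0 : ℝ), θ) ∈ N' :=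
    ((Continuous.prodMk_right (0 : ℝ)).tendsto b).eventually (hNo.mem_nhds hbN) |>.filter_mono hl
  obtain ⟨θ, h2, h3⟩ := (h.and_eventually h1).exists
  obtain ⟨p, h4, h5⟩ := (h2.and_eventually (hNo.mem_nhds h3)).exists
  exact ⟨p, hN' h5, h4⟩

section
variable {S : Set ℂ} {x : ℂ} {a : ℕ → ℝ} {j : ℕ}

/-- accumulation from the right: the zone 3 -/
theorem accR_zone (h : AccR (DS S x) (ra a j)) : Cl S x a 3 j := by
  rw [cl_pos (by norm_num)]
  refine freq_dirs (l := 𝓝[>] (ra a j)) nhdsWithin_le_nhds ?_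
  have h1 : ∀ᶠ θ in 𝓝[>] (ra a j), θ ∈ Ioo (ra a j) (ra a j + 3) := Ioo_mem_nhdsGT (by linarith)
  refine (Frequently.and_eventually h h1).mono fun θ hθ => ?_
  have hpi := Real.pi_pos
  have hc : 0 < Real.cos ((θ - (a j + 3)) * (Real.pi / 3)) := by
    have h2 : ra a j = a j + 3 / 2 := rfl
    have h3 := hθ.2.1
    have h4 := hθ.2.2
    exact Real.cos_pos_of_mem_Ioo ⟨by nlinarith, by nlinarith⟩
  refine (freq_in_of_ds hθ.1 hc).mono fun p hp => ⟨hp.1, ?_⟩
  rw [zn_three]
  have h5 : dir (a j + 3) = -dir (a j) := dir_add_three (a j)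
  rw [h5, ← sub_eq_add_neg] at hp
  exact hp.2

/-- accumulation from the left: the zone 1 -/
theorem accL_zone (h : AccL (DS S x) (ra a j)) : Cl S x a 1 j := by
  rw [cl_pos (by norm_num)]
  refine freq_dirs (l := 𝓝[<] (ra a j)) nhdsWithin_le_nhds ?_
  have h1 : ∀ᶠ θ in 𝓝[<] (ra a j), θ ∈ Ioo (ra a j - 3) (ra a j) := Ioo_mem_nhdsLT (by linarith)
  refine (Frequently.and_eventually h h1).mono fun θ hθ => ?_
  have hpi := Real.pi_pos
  have hc : 0 < Real.cos ((θ - a j) * (Real.pi / 3)) := by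
    have h2 : ra a j = a j + 3 / 2 := rfl
    have h3 := hθ.2.1
    have h4 := hθ.2.2
    exact Real.cos_pos_of_mem_Ioo ⟨by nlinarith, by nlinarith⟩
  refine (freq_in_of_ds hθ.1 hc).mono fun p hp => ⟨hp.1, ?_⟩
  rw [zn_one]
  exact hp.2

theorem accR_cell (h : AccR (DS S x) (ra a j)) (hlt : ra a j < ra a (j + 1)) : Cl S x a 0 j := by
  obtain ⟨θ, h1, h2⟩ := h.ne hlt
  exact cl_zero.2 ⟨θ, h2, h1⟩

theorem accL_cell (h : AccL (DS S x) (ra a (j + 1))) (hlt : ra a j < ra a (j + 1)) : Cl S x a 0 j := by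
  obtain ⟨θ, h1, h2⟩ := h.ne hlt
  exact cl_zero.2 ⟨θ, h2, h1⟩

end

/-! ### different ticks -/

theorem dir_inj' {s t : ℝ} (h1 : s < t) (h2 : t < s + 6) : dir s ≠ dir t := by
  intro e
  have hpi := Real.pi_pos
  have h3 := ip_dir s t
  rw [← e, ip_dir, sub_self, zero_mul, Real.cos_zero] at h3
  have h4 := (Real.cos_eq_one_iff_of_lt_of_lt (x := (s - t) * (Real.pi / 3)) (by nlinarith) (by nlinarith)).1 h3.symm
  rcases mul_eq_zero.1 h4 with h5 | h5
  · linarith
  · linarith

section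
variable {K : ℕ} {a : ℕ → ℝ} (A : Tick K a)
include A

theorem dir_tick {s t : ℕ} (hs : s < 6 * K) (ht : t < 6 * K) (e : dir (a s) = dir (a t)) : s = t := by
  have key : ∀ {s t : ℕ}, t < 6 * K → dir (a s) = dir (a t) → ¬ s < t := by
    intro s t ht e hlt
    have h1 := A.mono hlt
    have h2 := A.mono (show t < s + 6 * K by omega)
    rw [CK.a_full A] at h2
    exact dir_inj' h1 h2 e
  exact le_antisymm (not_lt.1 (key hs e.symm)) (not_lt.1 (key ht e))

end

end Vale.Agent.P032.H357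

/-! ### the rules of small palettes, with ticks -/

namespace Vale.Agent.P032.H357.MK

open Vale.Agent.P032.Six Vale.Agent.P032.Words Vale.Agent.P032.S5.H767 Vale.Agent.P032.H892
  Vale.Agent.P032.H913 Vale.Agent.P032.H61 Vale.Agent.P032.H357
open Vale.Agent.P032.H820.K (ad)

variable {U : Fin 6 → Set ℂ} {T : ℂ → Set (Fin 6)} {K : ℕ} {a : ℕ → ℝ} (A : Tick K a)
include A

omit A in
theorem ad_lt' {s t : ℕ} (hs : s < 6 * K) : ad K s t < 6 * K := Nat.mod_lt _ (show 0 < 6 * K by omega)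

theorem dir_ad_half {t : ℕ} : dir (a (ad K t (3 * K))) = -dir (a t) := by
  have e : ad K t (3 * K) = (t + 3 * K) % (6 * K) := rfl
  rw [e, CK.dir_mod A, CK.dir_half A]

theorem lx1 (h : Irr U T) {x y v : ℂ} {s t : ℕ} {c : Fin 6} (hs : s < 6 * K) (ht : t < 6 * K)
    (ey : y = x + dir (a t)) (ev : v = y + dir (a s)) (h1 : s ≠ t) (h2 : s ≠ ad K t (3 * K))
    (h3 : (T x).ncard ≤ 3) (hsub : T y ⊆ insert c (T x)) : c ∉ Pal U v := by
  intro hv
  have d1 : dist y x = 1 := by rw [ey, dist_eq_norm, add_sub_cancel_left, norm_dir]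
  have d2 : dist y v = 1 := by rw [ev, dist_eq_norm, sub_add_cancel_left, norm_neg, norm_dir]
  rcases h.lemmaX d1 h3 hsub d2 hv with e | e
  · refine h2 (dir_tick A hs (ad_lt' ht) ?_)
    rw [dir_ad_half A]
    rw [ev, ey] at e
    linear_combination e
  · refine h1 (dir_tick A hs ht ?_)
    rw [ev, ey] at e
    linear_combination e

theorem lb1 (h : Irr U T) {x y y' : ℂ} {s t : ℕ} {i j : Fin 6} (hs : s < 6 * K) (ht : t < 6 * K)
    (ey : y = x + dir (a s)) (ey' : y' = x + dir (a t)) (h1 : t ≠ s) (h2 : t ≠ ad K s (3 * K))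
    (hx : T x ⊆ {i, j}) (hi : i ∈ Pal U y) : j ∉ Pal U y' := by
  intro hj
  have d1 : dist x y = 1 := by rw [ey, dist_eq_norm, sub_add_cancel_left, norm_neg, norm_dir]
  have d2 : dist x y' = 1 := by rw [ey', dist_eq_norm, sub_add_cancel_left, norm_neg, norm_dir]
  rcases h.lemmaB hx d1 d2 hi hj with e | e
  · refine h1 (dir_tick A ht hs ?_)
    rw [ey, ey'] at e
    linear_combination e
  · refine h2 (dir_tick A ht (ad_lt' hs) ?_)
    rw [dir_ad_half A]
    rw [ey, ey'] at e
    linear_combination e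

omit A in
theorem exists_half' (h : Irr U T) {x : ℂ} (hx : x ∈ XX U) (hct : Ctn U T x) {q : Fin 6} (hqT : q ∈ T x) :
    ∃ φ : ℝ, q ∈ Pal U (x + dir φ) ∧ ∃ e : Bool, ∀ θ ∈ DS (Sq T q) x,
      0 ≤ Real.cos ((θ - (φ + bif e then 3 else 0)) * (Real.pi / 3)) := by
  have hpi := Real.pi_pos
  obtain ⟨V, hxV, hV⟩ : ∃ V, dist x V = 1 ∧ q ∈ Pal U V := h.partner_XX hx hqT
  have hn : ‖V - x‖ = 1 := by rw [← dist_eq_norm, dist_comm]; exact hxV
  obtain ⟨α, hα⟩ := exists_cis hn
  set φ := α * (3 / Real.pi) with hφ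
  have e1 : V = x + dir φ := by
    unfold dir
    have : φ * (Real.pi / 3) = α := by rw [hφ]; field_simp
    rw [this, ← hα]; ring
  have e2 : x + dir (φ + 3) = x - dir φ := by rw [dir_add_three]; ring
  refine ⟨φ, e1 ▸ hV, ?_⟩
  rcases h.one_side hct hV with h1 | h1
  · refine ⟨false, fun θ hθ => ?_⟩
    rw [cond_false, add_zero]
    by_contra hcon
    push Not at hcon
    have h2 : 0 < Real.cos ((θ - (φ + 3)) * (Real.pi / 3)) := by
      have : (θ - (φ + 3)) * (Real.pi / 3) = (θ - φ) * (Real.pi / 3) - Real.pi := by ring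
      rw [this, Real.cos_sub_pi]; linarith
    have h3 := in_of_ds hθ h2
    rw [e2] at h3
    have h4 : ∃ᶠ w in 𝓝 x, w ∈ Sq T q ∧ 1 < dist w V := by
      refine h3.mono fun w hw => ⟨hw.1, ?_⟩
      rw [e1]
      have h5 := dist_triangle (x + dir φ) w (x - dir φ)
      have h6 : dist (x + dir φ) (x - dir φ) = 2 := by
        rw [dist_eq_norm]
        have : x + dir φ - (x - dir φ) = 2 * dir φ := by ring
        rw [this, norm_mul, norm_dir]; norm_num
      rw [h6, dist_comm (x + dir φ) w] at h5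
      linarith [hw.2]
    obtain ⟨w, hw, hw2⟩ := (h4.and_eventually h1).exists
    have hT : T w = {q} := hw.1
    have := hw2 (by rw [hT]; rfl)
    linarith [hw.2]
  · refine ⟨true, fun θ hθ => ?_⟩
    rw [cond_true]
    by_contra hcon
    push Not at hcon
    have h2 : 0 < Real.cos ((θ - φ) * (Real.pi / 3)) := by
      have : (θ - (φ + 3)) * (Real.pi / 3) = (θ - φ) * (Real.pi / 3) - Real.pi := by ring
      rw [this, Real.cos_sub_pi] at hcon; linarith
    have h3 := in_of_ds hθ h2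
    rw [← e1] at h3
    obtain ⟨w, hw, hw2⟩ := (h3.and_eventually h1).exists
    have hT : T w = {q} := hw.1
    have := hw2 (by rw [hT]; rfl)
    linarith [hw.2]

/-- half plane at a tick -/
def HfE (S : Set ℂ) (x : ℂ) (K : ℕ) (a : ℕ → ℝ) (s : ℕ) : Prop :=
  (∀ d, d + 1 ≤ 3 * K → ¬ Cl S x a 0 (s + d)) ∧
    ∀ d, 1 ≤ d → d + 1 ≤ 3 * K → ∀ k, k ≠ 0 → ¬ Cl S x a k (s + d)

/-- half plane inside a sector -/
def HfF (S : Set ℂ) (x : ℂ) (K : ℕ) (a : ℕ → ℝ) (s : ℕ) : Prop :=
  (∀ d, 1 ≤ d → d + 1 ≤ 3 * K → ¬ Cl S x a 0 (s + d)) ∧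
    ∀ d, 1 ≤ d → d ≤ 3 * K → ∀ k, k ≠ 0 → ¬ Cl S x a k (s + d)

theorem eh_of {S : Set ℂ} {x : ℂ} {s : ℕ} (key : ∀ θ ∈ Ioo (ra a s) (ra a s + 3), θ ∉ DS S x) : HfE S x K a s := by
  refine ⟨fun d hd hc => ?_, fun d hd1 hd k hk0 hc => ?_⟩
  · obtain ⟨θ, hθ, hd2⟩ := cl_zero.1 hc
    refine key θ ⟨?_, ?_⟩ hd2
    · have := CK.ra_le A (show s ≤ s + d by omega); have := hθ.1; linarith
    · have := CK.ra_le A (show s + d + 1 ≤ s + 3 * K by omega); rw [CK.ra_half A] at this; have := hθ.2; linarith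
  · refine key _ ⟨?_, ?_⟩ (cl_ray hk0 hc)
    · have := CK.ra_lt A (show s < s + d by omega); linarith
    · have := CK.ra_lt A (show s + d < s + 3 * K by omega); rw [CK.ra_half A] at this; linarith

theorem fh_of {S : Set ℂ} {x : ℂ} {s : ℕ} {ψ : ℝ} (h3 : ψ ∈ Ioo (ra a s) (ra a (s + 1)))
    (key : ∀ θ ∈ Ioo ψ (ψ + 3), θ ∉ DS S x) : HfF S x K a s := by
  refine ⟨fun d hd1 hd hc => ?_, fun d hd1 hd k hk0 hc => ?_⟩
  · obtain ⟨θ, hθ, hd2⟩ := cl_zero.1 hc
    refine key θ ⟨?_, ?_⟩ hd2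
    · have := CK.ra_le A (show s + 1 ≤ s + d by omega); have := hθ.1; linarith [h3.2]
    · have := CK.ra_le A (show s + d + 1 ≤ s + 3 * K by omega); rw [CK.ra_half A] at this
      have := hθ.2; linarith [h3.1]
  · refine key _ ⟨?_, ?_⟩ (cl_ray hk0 hc)
    · have := CK.ra_le A (show s + 1 ≤ s + d by omega); linarith [h3.2]
    · have := CK.ra_le A (show s + d ≤ s + 3 * K by omega); rw [CK.ra_half A] at this; linarith [h3.1]

/-- **partner with palette** -/
theorem part (h : Irr U T) {x : ℂ} (hx : x ∈ XX U) (hct : Ctn U T x) {q : Fin 6} (hqT : q ∈ T x) :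
    (∃ s < 6 * K, q ∈ Pal U (x + dir (a s)) ∧
      (HfE (Sq T q) x K a s ∨ HfE (Sq T q) x K a (s + 3 * K))) ∨ ∃ s < 6 * K, HfF (Sq T q) x K a s := by
  obtain ⟨φ, hP, e, hφ⟩ := exists_half' h hx hct hqT
  -- the half plane of the angle `ψ`
  have key : ∀ (e : Bool), (∀ θ ∈ DS (Sq T q) x, 0 ≤ Real.cos ((θ - (φ + bif e then 3 else 0)) * (Real.pi / 3))) →
      ∀ n : ℤ, ∀ θ ∈ Ioo (φ + (bif e then 3 else 0) + 3 / 2 - 6 * n) (φ + (bif e then 3 else 0) + 3 / 2 - 6 * n + 3),
        θ ∉ DS (Sq T q) x := by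
    intro e he n θ hθ hd
    have h3 := (ds_six_int (S := Sq T q) (x := x) (θ := θ) n).2 hd
    have h4 := he _ h3
    have h5 : Real.cos ((θ + 6 * n - (φ + bif e then 3 else 0)) * (Real.pi / 3)) < 0 := by
      refine cos_neg_of ?_ ?_
      · have := hθ.1; linarith
      · have := hθ.2; linarith
    linarith
  -- the tick of the partner
  set n := ⌊(φ + 3 / 2 - ra a 0) / 6⌋ with hn
  have h1 := Int.floor_le ((φ + 3 / 2 - ra a 0) / 6)
  have h2 := Int.lt_floor_add_one ((φ + 3 / 2 - ra a 0) / 6)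
  rw [← hn] at h1 h2
  have hψm : φ + 3 / 2 - 6 * n ∈ Ico (ra a 0) (ra a 0 + 6) := ⟨by linarith, by linarith⟩
  obtain ⟨s, -, hs, h3⟩ := CK.exists_tick A hψm
  rcases h3 with h3 | h3
  · left
    refine ⟨s, by omega, ?_, ?_⟩
    · have e1 : φ = a s + 6 * n := by
        have : ra a s = a s + 3 / 2 := rfl
        linarith
      have e2 : dir (a s) = dir φ := by
        rw [e1]
        have := pt_per 0 (a s) n
        rw [pt_eq, pt_eq] at this
        exact (add_left_cancel this).symm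
      rw [e2]; exact hP
    · have hk := key e hφ n
      cases e
      · left
        refine eh_of A fun θ hθ => hk θ ?_
        rw [cond_false]
        constructor
        · linarith [hθ.1]
        · linarith [hθ.2]
      · right
        refine eh_of A fun θ hθ => hk θ ?_
        rw [CK.ra_half A] at hθ
        rw [cond_true]
        constructor
        · linarith [hθ.1]
        · linarith [hθ.2]
  · right
    cases e
    · refine ⟨s, by omega, fh_of A h3 fun θ hθ => key false hφ n θ ?_⟩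
      rw [cond_false]
      constructor
      · linarith [hθ.1]
      · linarith [hθ.2]
    · -- the opposite sector
      rcases Nat.lt_or_ge s (3 * K) with hlt | hge
      · refine ⟨s + 3 * K, by omega, fh_of A (ψ := φ + 3 / 2 - 6 * n + 3) ?_ fun θ hθ => key true hφ n θ ?_⟩
        · rw [show s + 3 * K + 1 = s + 1 + 3 * K by ring, CK.ra_half A, CK.ra_half A]
          exact ⟨by linarith [h3.1], by linarith [h3.2]⟩
        · rw [cond_true]
          constructor
          · linarith [hθ.1]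
          · linarith [hθ.2]
      · have e4 : ra a (s - 3 * K) = ra a s - 3 := by
          have := CK.ra_half A (s - 3 * K)
          rw [show s - 3 * K + 3 * K = s by omega] at this
          linarith
        have e5 : ra a (s - 3 * K + 1) = ra a (s + 1) - 3 := by
          have := CK.ra_half A (s - 3 * K + 1)
          rw [show s - 3 * K + 1 + 3 * K = s + 1 by omega] at this
          linarith
        refine ⟨s - 3 * K, by omega, fh_of A (ψ := φ + 3 / 2 - 6 * n - 3) ?_ fun θ hθ => key true hφ (n + 1) θ ?_⟩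
        · rw [e4, e5]
          exact ⟨by linarith [h3.1], by linarith [h3.2]⟩
        · rw [cond_true]
          push_cast
          constructor
          · linarith [hθ.1]
          · linarith [hθ.2]

end Vale.Agent.P032.H357.MK
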