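import Vale.Agent.P032X.H61.WordK
import Vale.Agent.P032X.H892.GermC
import Vale.Agent.P032X.H820.K.Md
import Vale.Agent.P032X.H849.NoOv
import Vale.Agent.P032X.H357.MdX

/-!
# P032: the germ model of a map

`mkMd` : for an irredundant cover `T` with connected palettes near every point and at most five colours at every point,
`K` classes of directions `a`, points `Y x` with the table `nb` and the letters `W` of `H61.Wd` give a model
`H820.K.Md K NP NW nb`.  The colours are numbered by the permutation `σ`.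
-/

open Set Filter Topology Metric

noncomputable section

namespace Vale.Agent.P032.H357.MK

open Vale.Agent.P032.Six Vale.Agent.P032.H892 Vale.Agent.P032.H913 Vale.Agent.P032.S5.H767 Vale.Agent.P032.H61
  Vale.Agent.P032.H357
open Vale.Agent.P032.H820.K (df ad hcell ecell fcell wcell gk gt T3 Md)

/-! ### colours -/

/-- the colour number `q` -/
def co (σ : Equiv.Perm (Fin 6)) (q : ℕ) : Fin 6 := σ (Fin.ofNat 6 q)

/-- the number of a colour -/
def no (σ : Equiv.Perm (Fin 6)) (i : Fin 6) : ℕ := (σ.symm i).val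

theorem no_lt (σ : Equiv.Perm (Fin 6)) (i : Fin 6) : no σ i < 6 := (σ.symm i).isLt

theorem co_no (σ : Equiv.Perm (Fin 6)) (i : Fin 6) : co σ (no σ i) = i := by
  unfold co no
  have : Fin.ofNat 6 (σ.symm i).val = σ.symm i := by
    apply Fin.ext
    simp [Fin.ofNat, Nat.mod_eq_of_lt (σ.symm i).isLt]
  rw [this, Equiv.apply_symm_apply]

theorem no_inj (σ : Equiv.Perm (Fin 6)) {i j : Fin 6} (h : no σ i = no σ j) : i = j := by
  rw [← co_no σ i, ← co_no σ j, h]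

theorem co_surj (σ : Equiv.Perm (Fin 6)) (i : Fin 6) : ∃ q < 6, co σ q = i := ⟨no σ i, no_lt σ i, co_no σ i⟩

theorem no_co (σ : Equiv.Perm (Fin 6)) {q : ℕ} (hq : q < 6) : no σ (co σ q) = q := by
  unfold co no
  rw [Equiv.symm_apply_apply]
  simp [Fin.ofNat, Nat.mod_eq_of_lt hq]

theorem co_inj (σ : Equiv.Perm (Fin 6)) {p q : ℕ} (hp : p < 6) (hq : q < 6) (h : co σ p = co σ q) : p = q := by
  rw [← no_co σ hp, ← no_co σ hq, h]

/-! ### differences of ticks -/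

theorem df_cases {K j s : ℕ} (hj : j < 6 * K) (hs : s < 6 * K) :
    (s ≤ j ∧ df K j s = j - s) ∨ (j < s ∧ df K j s = j + 6 * K - s) := by
  have e : df K j s = (j + 6 * K - s) % (6 * K) := rfl
  rcases Nat.lt_or_ge j s with h | h
  · right
    exact ⟨h, by rw [e, Nat.mod_eq_of_lt (by omega)]⟩
  · left
    refine ⟨h, ?_⟩
    rw [e, show j + 6 * K - s = j - s + 6 * K by omega, Nat.add_mod_right, Nat.mod_eq_of_lt (by omega)]

theorem df_lt {K j s : ℕ} (hj : j < 6 * K) (hs : s < 6 * K) : df K j s < 6 * K := by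
  rcases df_cases hj hs with ⟨h1, h2⟩ | ⟨h1, h2⟩ <;> rw [h2] <;> omega

theorem ad_eq (K s t : ℕ) : ad K s t = (s + t) % (6 * K) := rfl

theorem nbeq {a b : ℕ} : Nat.beq a b = true ↔ a = b :=
  ⟨Nat.eq_of_beq_eq_true, fun h => h ▸ Nat.beq_refl a⟩

theorem nbeq_zero {k : ℕ} (h : k ≠ 0) : Nat.beq k 0 = false := by
  rw [← Bool.not_eq_true, nbeq]; exact h

section
variable {K : ℕ} {a : ℕ → ℝ} (A : Tick K a) {S : Set ℂ} {x : ℂ}
include A

/-- the cell as `s + d` -/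
theorem cl_df {k j s : ℕ} (hj : j < 6 * K) (hs : s < 6 * K) : Cl S x a k (s + df K j s) ↔ Cl S x a k j := by
  rcases df_cases hj hs with ⟨h1, h2⟩ | ⟨h1, h2⟩
  · rw [h2, show s + (j - s) = j by omega]
  · rw [h2, show s + (j + 6 * K - s) = j + 6 * K by omega, CK.cl_full A]

omit A in
theorem hcell_iff {k j s : ℕ} : hcell K k j s = true ↔ (k = 0 ∧ 3 * K ≤ df K j s) ∨
    (k ≠ 0 ∧ (3 * K + 1 ≤ df K j s ∨ (k = 1 ∧ df K j s = 0) ∨ (k = 3 ∧ df K j s = 3 * K))) := by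
  unfold hcell
  by_cases h0 : k = 0
  · subst h0
    simp
  · rw [nbeq_zero h0]
    simp only [cond_false, Bool.or_eq_true, Bool.and_eq_true, nbeq, Nat.ble_eq]
    have e3 : Nat.mul 3 K = 3 * K := rfl
    rw [e3]
    constructor
    · rintro ((h1 | h1) | h1)
      · exact Or.inr ⟨h0, Or.inl h1⟩
      · exact Or.inr ⟨h0, Or.inr (Or.inl h1)⟩
      · exact Or.inr ⟨h0, Or.inr (Or.inr h1)⟩
    · rintro (⟨h1, -⟩ | ⟨-, h1 | h1 | h1⟩)
      · exact absurd h1 h0
      · exact Or.inl (Or.inl h1)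
      · exact Or.inl (Or.inr h1)
      · exact Or.inr h1

omit A in
theorem ecell_iff {k j s : ℕ} : ecell K k j s = true ↔ (k = 0 ∧ df K j s + 1 ≤ 3 * K) ∨
    (k ≠ 0 ∧ 1 ≤ df K j s ∧ df K j s + 1 ≤ 3 * K) := by
  unfold ecell
  by_cases h0 : k = 0
  · subst h0
    simp only [Nat.beq_refl, cond_true, Nat.ble_eq]
    exact ⟨fun h => Or.inl ⟨trivial, h⟩, fun h => h.elim (fun h => h.2) (fun h => absurd rfl h.1)⟩
  · rw [nbeq_zero h0]
    simp only [cond_false, Bool.and_eq_true, Nat.ble_eq]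
    exact ⟨fun h => Or.inr ⟨h0, h⟩, fun h => h.elim (fun h => absurd h.1 h0) (fun h => h.2)⟩

omit A in
theorem fcell_iff {k j s : ℕ} : fcell K k j s = true ↔ (k = 0 ∧ 1 ≤ df K j s ∧ df K j s + 1 ≤ 3 * K) ∨
    (k ≠ 0 ∧ 1 ≤ df K j s ∧ df K j s ≤ 3 * K) := by
  unfold fcell
  by_cases h0 : k = 0
  · subst h0
    simp only [Nat.beq_refl, cond_true, Bool.and_eq_true, Nat.ble_eq]
    exact ⟨fun h => Or.inl ⟨trivial, h⟩, fun h => h.elim (fun h => h.2) (fun h => absurd rfl h.1)⟩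
  · rw [nbeq_zero h0]
    simp only [cond_false, Bool.and_eq_true, Nat.ble_eq]
    exact ⟨fun h => Or.inr ⟨h0, h⟩, fun h => h.elim (fun h => absurd h.1 h0) (fun h => h.2)⟩

/-- the cells inside, for any set of points -/
theorem hi_of_cell {k j s : ℕ} (hj : j < 6 * K) (hs : s < 6 * K) (hc : hcell K k j s = true)
    (h1 : Cl S x a k j) : HI S x a s := by
  have h1 := (cl_df A hj hs).2 h1
  have hlt := df_lt hj hs
  have hc := hcell_iff.1 hc
  generalize df K j s = d at h1 hlt hc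
  rcases hc with ⟨rfl, h2⟩ | ⟨h0, h2 | ⟨rfl, rfl⟩ | ⟨rfl, rfl⟩⟩
  · obtain ⟨e, rfl⟩ := Nat.exists_eq_add_of_le h2
    rw [← add_assoc] at h1
    exact CK.hi_sector A (by omega) h1
  · obtain ⟨e, rfl⟩ := Nat.exists_eq_add_of_le h2
    rw [show s + (3 * K + 1 + e) = s + 3 * K + (1 + e) by ring] at h1
    exact CK.hi_ray A (by omega) (by omega) h0 h1
  · exact hi_one h1
  · exact CK.hi_three A h1

/-- opposite tick -/
theorem cl_opp {k s : ℕ} : Cl S x a k (ad K s (3 * K)) ↔ Cl S x a k (s + 3 * K) := by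
  rw [ad_eq, CK.cl_mod A]

theorem hi_opp {s : ℕ} : HI S x a (ad K s (3 * K)) ↔ HI S x a (s + 3 * K) := by
  rw [ad_eq, CK.hi_mod A]

end

/-! ### the links -/

section
variable {U : Fin 6 → Set ℂ} {T : ℂ → Set (Fin 6)} {K : ℕ} {a : ℕ → ℝ} (A : Tick K a) {x y : ℂ} {s : ℕ}
variable (h : Irr U T) (e : y = x + dir (a s)) {q : Fin 6}
include A h e

omit h in
theorem in_back (h1 : HI (U q) y a (s + 3 * K)) : In (U q) y x := by
  rw [e_back e]; exact (CK.hi_half A).1 h1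

omit A in
theorem l1 (hx : Ctn U T x) (h1 : HI (Sq T q) x a s) : ¬ HI (U q) y a s := fun h2 => link1 h e hx h1 h2

omit A in
theorem l3 (hx : Ctn U T x) (h1 : HI (Sq T q) x a s) : ¬ Cl (U q) y a 2 s := fun h2 => link3 h e hx h1 h2

theorem l4 (hx : Ctn U T x) (h1 : HI (Sq T q) x a s) : ¬ Cl (U q) y a 2 (s + 3 * K) := fun h2 => by
  refine link_in h hx (in_fwd e h1) (y := y) ?_
  rw [e_back e]
  exact (CK.ou_two_half A h2).2

theorem l2 (hx : Ctn U T x) (h1 : HI (U q) y a (s + 3 * K)) : ¬ HI (Sq T q) x a (s + 3 * K) := fun h2 => by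
  refine link_out h hx (y := y) ?_ (in_back A e h1)
  rw [e]
  exact ou_of_in (norm_dir _) ((CK.hi_half A).1 h2)

theorem l5 (hx : Ctn U T x) (h1 : HI (U q) y a (s + 3 * K)) : ¬ Cl (Sq T q) x a 2 s := fun h2 =>
  link_out h hx (ou2_x e h2) (in_back A e h1)

theorem l6 (hx : Ctn U T x) (h1 : HI (U q) y a (s + 3 * K)) : ¬ Cl (Sq T q) x a 2 (s + 3 * K) := fun h2 => by
  refine link_out h hx (y := y) ?_ (in_back A e h1)
  rw [e]
  exact (CK.ou_two_half A h2).1

end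

/-! ### the model -/

/-- letters as numbers; the ticks of the class `r` have the letters `W r` -/
def nC (σ : Equiv.Perm (Fin 6)) (K n : ℕ) (W : ℕ → Fin n → ℕ → ℕ → ℕ → Fin 6) (x t sd io : ℕ) : ℕ :=
  if h : x < n then no σ (W (t % K) ⟨x, h⟩ t sd io) else 0

section
variable {σ : Equiv.Perm (Fin 6)} {K n : ℕ} {W : ℕ → Fin n → ℕ → ℕ → ℕ → Fin 6}

theorem nC_eq {x t sd io : ℕ} (hx : x < n) : nC σ K n W x t sd io = no σ (W (t % K) ⟨x, hx⟩ t sd io) := dif_pos hx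

theorem co_nC {x t sd io : ℕ} (hx : x < n) : co σ (nC σ K n W x t sd io) = W (t % K) ⟨x, hx⟩ t sd io := by
  rw [nC_eq hx, co_no]

theorem nC_lt {x t sd io : ℕ} : nC σ K n W x t sd io < 6 := by
  unfold nC
  split_ifs
  · exact no_lt σ _
  · norm_num

end

theorem acc_sector {D : Set ℝ} {b c : ℝ} (h : AccR D b) (hbc : b < c) : ∃ θ ∈ Ioo b c, θ ∈ D := by
  obtain ⟨v, h1, h2⟩ := h.ne hbc
  exact ⟨v, h2, h1⟩

theorem accL_sector {D : Set ℝ} {b c : ℝ} (h : AccL D c) (hbc : b < c) : ∃ θ ∈ Ioo b c, θ ∈ D := by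
  obtain ⟨v, h1, h2⟩ := h.ne hbc
  exact ⟨v, h2, h1⟩

section
variable {U : Fin 6 → Set ℂ} {T : ℂ → Set (Fin 6)} (h : Irr U T) {a : ℕ → ℝ} (A : Tick 2 a) {Y : ℕ → ℂ} {c m : ℕ}
  {q : Fin 6}
include h A

omit h in
theorem a_even (m : ℕ) : a (2 * m) = a 0 + m := by
  have := A.per_mul 0 m
  rwa [zero_add, mul_comm] at this

theorem ar_sector (hacc : AccR (shD T Y c q) (a 0 + m)) : Cl (Sq T q) (Y c) a 0 (2 * m) := by
  rw [← a_even A] at hacc
  obtain ⟨θ, h1, h2⟩ := acc_sector hacc (A.mono (Nat.lt_succ_self (2 * m)))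
  have h2 : θ + 3 / 2 ∈ Dr T (Y c) q := h2
  refine (cl_zero_dr h).2 ⟨θ + 3 / 2, ⟨?_, ?_⟩, h2⟩
  · unfold ra; linarith [h1.1]
  · unfold ra; have := h1.2; simp only [Nat.succ_eq_add_one] at this; linarith

theorem al_sector (hacc : AccL (shD T Y c q) (a 0 + m + 1)) : Cl (Sq T q) (Y c) a 0 (2 * m + 1) := by
  have e : a 0 + m + 1 = a (2 * m + 1 + 1) := by
    have := a_even A (m + 1)
    rw [show 2 * (m + 1) = 2 * m + 1 + 1 by ring] at this
    rw [this]; push_cast; ring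
  rw [e] at hacc
  obtain ⟨θ, h1, h2⟩ := accL_sector hacc (A.mono (Nat.lt_succ_self (2 * m + 1)))
  have h2 : θ + 3 / 2 ∈ Dr T (Y c) q := h2
  refine (cl_zero_dr h).2 ⟨θ + 3 / 2, ⟨?_, ?_⟩, h2⟩
  · unfold ra; linarith [h1.1]
  · unfold ra; linarith [h1.2]

theorem ar_zone (hacc : AccR (shD T Y c q) (a 0 + m)) : ∃ k < 3, Cl (Sq T q) (Y c) a (k + 1) (2 * m) := by
  have h1 : a 0 + m + 3 / 2 ∈ Dr T (Y c) q := hacc.mem (shD_closed T Y c q)
  rw [← a_even A, ← ds_eq_dr h] at h1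
  have h2 : ra a (2 * m) ∈ DS (Sq T q) (Y c) := h1
  obtain ⟨k, h3, h4, h5⟩ := exists_zone h2
  exact ⟨k - 1, by omega, by rwa [show k - 1 + 1 = k by omega]⟩

theorem al_zone (hacc : AccL (shD T Y c q) (a 0 + m + 1)) :
    ∃ k < 3, Cl (Sq T q) (Y c) a (k + 1) (ad 2 (2 * m) 2) := by
  have h1 : a 0 + m + 1 + 3 / 2 ∈ Dr T (Y c) q := hacc.mem (shD_closed T Y c q)
  have e : a 0 + m + 1 = a (2 * m + 2) := by
    have := a_even A (m + 1)
    rw [show 2 * (m + 1) = 2 * m + 2 by ring] at this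
    rw [this]; push_cast; ring
  rw [e, ← ds_eq_dr h] at h1
  have h2 : ra a (2 * m + 2) ∈ DS (Sq T q) (Y c) := h1
  obtain ⟨k, h3, h4, h5⟩ := exists_zone h2
  refine ⟨k - 1, by omega, ?_⟩
  rw [show k - 1 + 1 = k by omega, ad_eq]
  exact (CK.cl_mod A).2 h5

end

/-! ### small palettes -/

theorem le3_of {σ : Equiv.Perm (Fin 6)} {S : Set (Fin 6)} (h : T3 fun q => co σ q ∈ S) : S.ncard ≤ 3 := by
  obtain ⟨a, b, c, ha, hb, hc, hab, hac, hbc, h1, h2, h3⟩ := h
  have h4 : ({co σ a, co σ b, co σ c} : Set (Fin 6)) ⊆ Sᶜ := by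
    rintro m (rfl | rfl | rfl)
    · exact h1
    · exact h2
    · exact h3
  have h5 : ({co σ a, co σ b, co σ c} : Set (Fin 6)).ncard = 3 := by
    rw [Set.ncard_eq_three]
    exact ⟨_, _, _, fun e => hab (co_inj σ ha hb e), fun e => hac (co_inj σ ha hc e),
      fun e => hbc (co_inj σ hb hc e), rfl⟩
  have h6 := Set.ncard_le_ncard h4 (Set.toFinite _)
  have h7 := Set.ncard_add_ncard_compl S
  rw [Nat.card_eq_fintype_card, Fintype.card_fin] at h7
  omega

theorem sub_insert_of {σ : Equiv.Perm (Fin 6)} {S S' : Set (Fin 6)} {q : ℕ}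
    (h : ∀ r < 6, r ≠ q → co σ r ∈ S' → co σ r ∈ S) : S' ⊆ insert (co σ q) S := by
  intro m hm
  obtain ⟨r, hr, rfl⟩ := co_surj σ m
  by_cases e : r = q
  · left; rw [e]
  · right; exact h r hr e hm

theorem sub_pair_of {σ : Equiv.Perm (Fin 6)} {S : Set (Fin 6)} {i j : ℕ}
    (h : ∀ r < 6, co σ r ∈ S → r = i ∨ r = j) : S ⊆ {co σ i, co σ j} := by
  intro m hm
  obtain ⟨r, hr, rfl⟩ := co_surj σ m
  rcases h r hr hm with rfl | rfl
  · left; rfl
  · right; rfl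

theorem eh_cell {K : ℕ} {a : ℕ → ℝ} (A : Tick K a) {S : Set ℂ} {x : ℂ} {s : ℕ} (hs : s < 6 * K) (h : HfE S x K a s)
    {k j : ℕ} (hj : j < 6 * K) (hc : ecell K k j s = true) : ¬ Cl S x a k j := by
  intro hV
  have hV := (cl_df A hj hs).2 hV
  rcases ecell_iff.1 hc with ⟨rfl, h3⟩ | ⟨h0, h3, h4⟩
  · exact h.1 _ h3 hV
  · exact h.2 _ h3 h4 k h0 hV

theorem fh_cell {K : ℕ} {a : ℕ → ℝ} (A : Tick K a) {S : Set ℂ} {x : ℂ} {s : ℕ} (hs : s < 6 * K) (h : HfF S x K a s)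
    {k j : ℕ} (hj : j < 6 * K) (hc : fcell K k j s = true) : ¬ Cl S x a k j := by
  intro hV
  have hV := (cl_df A hj hs).2 hV
  rcases fcell_iff.1 hc with ⟨rfl, h3, h4⟩ | ⟨h0, h3, h4⟩
  · exact h.1 _ h3 h4 hV
  · exact h.2 _ h3 h4 k h0 hV

theorem eh_ad {K : ℕ} {a : ℕ → ℝ} (A : Tick K a) {S : Set ℂ} {x : ℂ} {s : ℕ} (h : HfE S x K a (s + 3 * K)) :
    HfE S x K a (ad K s (3 * K)) := by
  have key : ∀ k d, Cl S x a k (ad K s (3 * K) + d) → Cl S x a k (s + 3 * K + d) := by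
    intro k d hc
    rw [← CK.cl_mod A] at hc ⊢
    have e : (ad K s (3 * K) + d) % (6 * K) = (s + 3 * K + d) % (6 * K) := by
      rw [ad_eq, Nat.mod_add_mod]
    rwa [e] at hc
  exact ⟨fun d hd hc => h.1 d hd (key _ _ hc), fun d hd1 hd k hk hc => h.2 d hd1 hd k hk (key _ _ hc)⟩

/-- **the model**, for every class `r` of ticks its own family of letters `W r` -/
def mkMdC {U : Fin 6 → Set ℂ} {T : ℂ → Set (Fin 6)} (h : Irr U T) (hct : ∀ y, Ctn U T y)
    (h5 : ∀ y, ∃ i, i ∉ T y) (hln : Ln U T) {K : ℕ} {a : ℕ → ℝ} (A : Tick K a) (σ : Equiv.Perm (Fin 6)) {NP NW : ℕ}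
    {nb : ℕ → ℕ → ℕ} (hK : 6 * K ≤ 256) (hNP : NP ≤ 4096) (hNW : NW ≤ NP) (Y : ℕ → ℂ)
    (hY : ∀ x < NP, ∀ t < 6 * K, nb x t < NP → Y (nb x t) = Y x + dir (a t))
    {W : ℕ → Fin NW → ℕ → ℕ → ℕ → Fin 6} (D : ∀ r, Wd U T K a (fun j : Fin NW => Y j.val) (W r)) :
    Md K NP NW nb where
  hK := hK
  hNP := hNP
  hNW := hNW
  V k x j q := Cl (Sq T (co σ q)) (Y x) a k j
  PV k x j q := Cl (U (co σ q)) (Y x) a k j
  H x s q := HI (Sq T (co σ q)) (Y x) a s
  PH x s q := HI (U (co σ q)) (Y x) a s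
  T x q := co σ q ∈ T (Y x)
  P x q := co σ q ∈ Pal U (Y x)
  X x := Y x ∈ XX U
  W := nC σ K NW W
  AR c m q := AccR (shD T Y c (co σ q)) (a 0 + m)
  AL c m q := AccL (shD T Y c (co σ q)) (a 0 + m + 1)
  cell := fun {k x j} hk _ _ => by
    obtain ⟨i, hi⟩ := CK.cell A h (Y x) k j (by omega)
    obtain ⟨q, hq, rfl⟩ := co_surj σ i
    exact ⟨q, hq, hi⟩
  vt := fun _ _ _ _ hc => mem_of_cl h hc
  tv := fun _ _ hq => by
    obtain ⟨k, hk, j, hj, hc⟩ := CK.tv A h hq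
    exact ⟨k, by omega, j, hj, hc⟩
  xx2 := fun {x q} _ _ hx _ => by
    obtain ⟨j, hj, hne⟩ := h.two hx (co σ q)
    obtain ⟨r, hr, rfl⟩ := co_surj σ j
    exact ⟨r, hr, fun e => hne (by rw [e]), hj⟩
  vh := fun _ _ hj hs _ hc h1 => hi_of_cell A hj hs hc h1
  five := fun {x} _ => by
    obtain ⟨i, hi⟩ := h5 (Y x)
    obtain ⟨q, hq, rfl⟩ := co_surj σ i
    exact ⟨q, hq, hi⟩
  hull := fun {x q} _ _ hq hx => by
    obtain ⟨s, hs, h1⟩ := CK.hull A h hx (hct _) hq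
    refine ⟨s, hs, ?_⟩
    rcases h1 with ⟨h1, h2⟩ | ⟨h1, h2⟩
    · left
      intro k _ j hj hc hV
      have hV := (cl_df A hj hs).2 hV
      rcases ecell_iff.1 hc with ⟨rfl, h3⟩ | ⟨h0, h3, h4⟩
      · exact h1 _ h3 hV
      · exact h2 _ h3 h4 k h0 hV
    · right
      intro k _ j hj hc hV
      have hV := (cl_df A hj hs).2 hV
      rcases fcell_iff.1 hc with ⟨rfl, h3, h4⟩ | ⟨h0, h3, h4⟩
      · exact h1 _ h3 h4 hV
      · exact h2 _ h3 h4 k h0 hV
  tp := fun _ _ hq => h.sub _ hq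
  vpv := fun _ _ _ _ hc => v_pv h hc
  pvp := fun _ _ _ _ hc => pal_of_cl hc
  ppv := fun _ _ hq => by
    obtain ⟨k, hk, j, hj, hc⟩ := CK.ppv A h hq
    exact ⟨k, by omega, j, hj, hc⟩
  pvh := fun _ _ hj hs _ hc h1 => hi_of_cell A hj hs hc h1
  hph := fun _ _ _ hc => in_mono (sq_sub h _) hc
  xxp := fun {x t q} hx ht _ hn hq hq' => by
    have e := hY x hx t ht hn
    refine xxp h (y := Y (nb x t)) ?_ hq hq'
    rw [e, dist_eq_norm, sub_add_cancel_left, norm_neg, norm_dir]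
  lk1 := fun {x s q} hx hs _ hn h1 => by
    have e := hY x hx s hs hn
    exact ⟨l1 h e (hct _) h1, l3 h e (hct _) h1, fun h2 => l4 A h e (hct _) h1 ((cl_opp A).1 h2)⟩
  lk2 := fun {x s q} hx hs _ hn h1 => by
    have e := hY x hx s hs hn
    have h1 := (hi_opp A).1 h1
    exact ⟨fun h2 => l2 A h e (hct _) h1 ((hi_opp A).1 h2), l5 A h e (hct _) h1,
      fun h2 => l6 A h e (hct _) h1 ((cl_opp A).1 h2)⟩
  wlt := fun _ _ _ _ => nC_lt
  wa := fun {x t sd} hx _ _ e hp => by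
    have hp : co σ (nC σ K NW W x t sd 0) ∈ Pal U (Y x) := hp
    rw [co_nC hx] at hp
    rw [nC_eq hx, nC_eq hx] at e
    exact (D _).wa h hct (j := ⟨x, hx⟩) hp (no_inj σ e)
  wb := fun {x t sd io k j} hx ht hsd hio hk hj hc hcl => by
    have hcl : Cl (U (co σ (nC σ K NW W x t sd io))) (Y x) a k j := hcl
    rw [co_nC hx] at hcl
    have hcl := (cl_df A hj ht).2 hcl
    have hlt := df_lt hj ht
    unfold wcell at hc
    have e3 : Nat.mul 3 K = 3 * K := rfl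
    rw [e3] at hc
    generalize df K j t = d at hcl hlt hc
    by_cases h0 : k = 0
    · subst h0
      interval_cases io
      · have h1 : d + 1 ≤ 3 * K := by simpa using hc
        exact (D _).in_sector h hct A (j := ⟨x, hx⟩) (by omega) hcl
      · have h1 : 3 * K ≤ d := by simpa using hc
        exact (D _).out_sector h hct A (j := ⟨x, hx⟩) h1 hlt hcl
    · rw [nbeq_zero h0] at hc
      interval_cases io
      · interval_cases sd
        · have h1 : (1 ≤ d ∧ d + 1 ≤ 3 * K) ∨ (d = 0 ∨ (d = 3 * K ∧ k ≤ 2)) := by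
            simpa [nbeq] using hc
          rcases h1 with h1 | h1 | ⟨h1, h2⟩
          · exact (D _).in_ray h hct A (j := ⟨x, hx⟩) h1.1 (by omega) h0 hcl
          · subst h1
            exact (D _).in_end_L h hct (j := ⟨x, hx⟩) h0 hcl
          · subst h1
            have h3 : k = 1 ∨ k = 2 := by omega
            rcases h3 with rfl | rfl
            · exact (D _).in_zone_one_half h hct A (j := ⟨x, hx⟩) hcl
            · exact (D _).in_zone_two_half h hct A (j := ⟨x, hx⟩) hcl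
        · have h1 : (1 ≤ d ∧ d + 1 ≤ 3 * K) ∨ (d = 3 * K ∨ (d = 0 ∧ 2 ≤ k)) := by
            simpa [nbeq] using hc
          rcases h1 with h1 | h1 | ⟨h1, h2⟩
          · exact (D _).in_ray h hct A (j := ⟨x, hx⟩) h1.1 (by omega) h0 hcl
          · subst h1
            exact (D _).in_end_R h hct A (j := ⟨x, hx⟩) h0 hcl
          · subst h1
            have h3 : k = 2 ∨ k = 3 := by omega
            rcases h3 with rfl | rfl
            · exact (D _).in_zone_two h hct (j := ⟨x, hx⟩) hcl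
            · exact (D _).in_zone_three h hct (j := ⟨x, hx⟩) hcl
      · interval_cases sd
        · have h1 : 3 * K + 1 ≤ d ∨ (d = 3 * K ∨ (d = 0 ∧ k = 1)) := by
            simpa [nbeq] using hc
          rcases h1 with h1 | h1 | ⟨h1, rfl⟩
          · exact (D _).out_ray h hct A (j := ⟨x, hx⟩) (by omega) hlt h0 hcl
          · subst h1
            exact (D _).out_end_L h hct A (j := ⟨x, hx⟩) h0 hcl
          · subst h1
            exact (D _).out_zone_one h hct (j := ⟨x, hx⟩) hcl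
        · have h1 : 3 * K + 1 ≤ d ∨ (d = 0 ∨ (d = 3 * K ∧ k = 3)) := by
            simpa [nbeq] using hc
          rcases h1 with h1 | h1 | ⟨h1, rfl⟩
          · exact (D _).out_ray h hct A (j := ⟨x, hx⟩) (by omega) hlt h0 hcl
          · subst h1
            exact (D _).out_end_R h hct (j := ⟨x, hx⟩) h0 hcl
          · subst h1
            exact (D _).out_zone_three_half h hct A (j := ⟨x, hx⟩) hcl
  w60 := fun {x t sd io io'} hx _ _ hio hio' => by
    have hmod : ad K t K % K = t % K := by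
      rw [ad_eq, Nat.mod_mod_of_dvd _ (Dvd.intro_left 6 rfl), Nat.add_mod_right]
    rw [nC_eq hx, nC_eq hx, hmod, ad_eq, (D _).per]
    intro e
    have e := no_inj σ e
    obtain ⟨⟨h6, h7⟩, h8, h9⟩ := (D (t % K)).w60 h A (j := ⟨x, hx⟩) (t := t) (sd := sd)
    interval_cases io <;> interval_cases io'
    · exact h6 e
    · exact h7 e
    · exact h8 e
    · exact h9 e
  glue := fun {x t sd io} hx ht hsd hio hn => by
    have e := hY x (lt_of_lt_of_le hx hNW) t ht hn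
    show Cl (Sq T (co σ (nC σ K NW W x t sd io))) (Y (nb x t)) a (gk sd io) (gt K sd t)
    rw [co_nC hx, e]
    interval_cases sd
    · have h1 : gt K 0 t = ad K t (3 * K) := rfl
      rw [h1]
      interval_cases io
      · exact (cl_opp A).2 ((D _).glue_in_L A (j := ⟨x, hx⟩))
      · exact (cl_opp A).2 ((D _).glue_out_L A (j := ⟨x, hx⟩))
    · have h1 : gt K 1 t = t := rfl
      rw [h1]
      interval_cases io
      · exact (D _).glue_in_R (j := ⟨x, hx⟩)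
      · exact (D _).glue_out_R (j := ⟨x, hx⟩)
  wc := fun {x t sd} hx _ _ hne hp => by
    have hp : co σ (nC σ K NW W x t sd 0) ∈ Pal U (Y x) := hp
    show co σ (nC σ K NW W x t sd 1) ∈ Pal U (Y x)
    rw [co_nC hx] at hp ⊢
    exact (D _).wc h (j := ⟨x, hx⟩) (fun e => hne (by rw [nC_eq hx, nC_eq hx, e])) hp
  wc2 := fun {x t sd} hx ht _ _ hn hn' hq hp => by
    have e := hY x (lt_of_lt_of_le hx hNW) t ht hn
    have e' := hY (nb x t) hn t ht hn'
    have hq : co σ (nC σ K NW W x t sd 1) ∈ Pal U (Y x) := hq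
    have hp : co σ (nC σ K NW W x t sd 0) ∉ Pal U (Y x) := hp
    show co σ (nC σ K NW W x t sd 0) ∈ Pal U (Y (nb (nb x t) t))
    rw [co_nC hx] at hp hq ⊢
    have h1 := (D (t % K)).wc2 h (j := ⟨x, hx⟩) hq hp
    have e2 : Y (nb (nb x t) t) = Y x + 2 * dir (a t) := by rw [e', e]; ring
    rw [e2]; exact h1
  wpair := fun {x s t sd io io'} hx hs _ _ hio hio' hn => by
    have e := hY x (lt_of_lt_of_le hx hNW) s hs (lt_of_lt_of_le hn hNW)
    have hd : dist (Y x) (Y (nb x s)) = 1 := by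
      rw [e, dist_eq_norm, sub_add_cancel_left, norm_neg, norm_dir]
    rw [nC_eq hx, nC_eq hn]
    intro e
    have e := no_inj σ e
    obtain ⟨⟨h6, h7⟩, h8, h9⟩   := (D (t % K)).wpair h (i := ⟨x, hx⟩) (j := ⟨nb x s, hn⟩) (t := t) (sd := sd) hd
    interval_cases io <;> interval_cases io'
    · exact h6 e
    · exact h7 e
    · exact h8 e
    · exact h9 e
  noov := fun {x t sd} hx _ _ hne => by
    show co σ (nC σ K NW W x t sd 1) ∈ Pal U (Y x)
    rw [co_nC hx]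
    exact (D _).noov h hln (j := ⟨x, hx⟩) (fun e => hne (by rw [nC_eq hx, nC_eq hx, e]))
  nsub := fun {x t} hx ht hn h3 => by
    have e := hY x hx t ht hn
    have d1 : dist (Y (nb x t)) (Y x) = 1 := by rw [e, dist_eq_norm, add_sub_cancel_left, norm_dir]
    obtain ⟨i, h1, h2⟩ := h.not_sub' d1 (le3_of h3)
    obtain ⟨q, hq, rfl⟩ := co_surj σ i
    exact ⟨q, hq, h1, h2⟩
  lmx := fun {x t s q} hx ht hs _ hn hn' h1 h2 h3 hsub =>
    lx1 A h hs ht (hY x hx t ht hn) (hY _ hn s hs hn') h1 h2 (le3_of h3) (sub_insert_of hsub)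
  lmxw := fun {x t sd q} hx ht _ hq hn h3 hsub => by
    have e := hY x (lt_of_lt_of_le hx hNW) t ht hn
    have h1 := h.arcX (u := Y x) (p := Y (nb x t)) (le3_of h3) (sub_insert_of hsub)
    rw [e] at h1
    rcases (D (t % K)).arcl h hln hct (j := ⟨x, hx⟩) (t := t) (sd := sd) h1 with h2 | h2
    · left; rw [nC_eq hx, ← h2, no_co σ hq]
    · right; rw [nC_eq hx, ← h2, no_co σ hq]
  lmb := fun {x s t i j} hx hs ht _ _ hn hn' h1 h2 hsub hi =>
    lb1 A h hs ht (hY x hx s hs hn) (hY x hx t ht hn') h1 h2 (sub_pair_of hsub) hi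
  lmbw := fun {x t sd i j} hx ht _ _ hj hn hsub hi => by
    have e := hY x (lt_of_lt_of_le hx hNW) t ht hn
    have h1 := h.arcB (x := Y (nb x t)) (y := Y x) (sub_pair_of hsub) hi
    rw [e] at h1
    rcases (D (t % K)).arcl h hln hct (j := ⟨x, hx⟩) (t := t) (sd := sd) h1 with h2 | h2
    · left; rw [nC_eq hx, ← h2, no_co σ hj]
    · right; rw [nC_eq hx, ← h2, no_co σ hj]
  part := fun {x q} hx _ hqT hX => by
    rcases MK.part A h hX (hct _) hqT with ⟨s, hs, h1, h2⟩ | ⟨s, hs, h1⟩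
    · refine ⟨s, hs, Or.inl ⟨fun hn => ?_, ?_⟩⟩
      · rw [hY x hx s hs hn]; exact h1
      · rcases h2 with h2 | h2
        · exact Or.inl fun k _ j hj hc => eh_cell A hs h2 hj hc
        · exact Or.inr fun k _ j hj hc => eh_cell A (ad_lt' hs) (eh_ad A h2) hj hc
    · exact ⟨s, hs, Or.inr fun k _ j hj hc => fh_cell A hs h1 hj hc⟩
  z1a := fun {x j} _ _ => by
    obtain ⟨i, hi⟩ := exists_accL h (Y x) (ra a (j + 1))
    obtain ⟨q, hq, rfl⟩ := co_surj σ i
    refine ⟨q, hq, accL_cell hi (CK.ra_lt A (Nat.lt_succ_self j)), ?_⟩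
    rw [ad_eq]
    exact (CK.cl_mod A).2 (accL_zone hi)
  z1b := fun {x j} _ _ => by
    obtain ⟨i, hi⟩ := exists_accR h (Y x) (ra a j)
    obtain ⟨q, hq, rfl⟩ := co_surj σ i
    exact ⟨q, hq, accR_zone hi, accR_cell hi (CK.ra_lt A (Nat.lt_succ_self j))⟩
  aro := fun {c m} _ _ _ => by
    obtain ⟨i, hi⟩ := exists_accR h (Y c) (a 0 + m + 3 / 2)
    obtain ⟨q, hq, rfl⟩ := co_surj σ i
    exact ⟨q, hq, accR_sh h hi⟩
  alo := fun {c m} _ _ _ => by
    obtain ⟨i, hi⟩ := exists_accL h (Y c) (a 0 + m + 1 + 3 / 2)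
    obtain ⟨q, hq, rfl⟩ := co_surj σ i
    exact ⟨q, hq, accL_sh h hi⟩
  ar3 := fun {c m q} hK2 _ _ _ hacc => by
    subst hK2
    refine accR_zone (a := a) (j := 2 * m) ?_
    have e : ra a (2 * m) = a 0 + m + 3 / 2 := by unfold ra; rw [a_even A]
    rw [e]; exact accR_of_sh h hacc
  al1 := fun {c m q} hK2 _ _ _ hacc => by
    subst hK2
    rw [ad_eq]
    refine (CK.cl_mod A).2 (accL_zone (a := a) (j := 2 * m + 2) ?_)
    have e : ra a (2 * m + 2) = a 0 + m + 1 + 3 / 2 := by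
      unfold ra
      have := a_even A (m + 1)
      rw [show 2 * (m + 1) = 2 * m + 2 by ring] at this
      rw [this]; push_cast; ring
    rw [e]; exact accL_of_sh h hacc
  ars := fun {c m q} hK2 _ _ _ hacc => by
    subst hK2
    left
    exact ar_sector h A hacc
  arz := fun {c m q} hK2 _ _ _ hacc => by
    subst hK2
    exact ar_zone h A hacc
  als := fun {c m q} hK2 _ _ _ hacc => by
    subst hK2
    right; left
    exact al_sector h A hacc
  alz := fun {c m q} hK2 _ _ _ hacc => by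
    subst hK2
    exact al_zone h A hacc

/-- the model with one family of letters -/
def mkMd {U : Fin 6 → Set ℂ} {T : ℂ → Set (Fin 6)} (h : Irr U T) (hct : ∀ y, Ctn U T y)
    (h5 : ∀ y, ∃ i, i ∉ T y) (hln : Ln U T) {K : ℕ} {a : ℕ → ℝ} (A : Tick K a) (σ : Equiv.Perm (Fin 6)) {NP NW : ℕ}
    {nb : ℕ → ℕ → ℕ} (hK : 6 * K ≤ 256) (hNP : NP ≤ 4096) (hNW : NW ≤ NP) (Y : ℕ → ℂ)
    (hY : ∀ x < NP, ∀ t < 6 * K, nb x t < NP → Y (nb x t) = Y x + dir (a t))
    {W : Fin NW → ℕ → ℕ → ℕ → Fin 6} (D : Wd U T K a (fun j : Fin NW => Y j.val) W) : Md K NP NW nb :=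
  mkMdC h hct h5 hln A σ hK hNP hNW Y hY (W := fun _ => W) (fun _ => D)

end Vale.Agent.P032.H357.MK
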