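import Vale.Agent.P032X.H357.MdB
import Vale.Agent.P032X.H61.GenSt

/-!
# P032: the states of the induction `H61.gen_states` as letters of the germ model

`K = 2`, class 0 = `a 0 + m`, class 1 = `a 1 + m`.  Centres `Z c` (`c : B`), nodes `(c, m)` with shift `m`.

* `wd_of` : letters of all word points from two families,
* `exists_letters` : for `s0` (right state of `a 0`), `s1` (left state of `a 0 + 1`), `L`, `R` (left and right state of
  `a 1`) there are letters `W r` of all word points which are `s0`, `s1`, `L`, `R` at the centres.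
-/

open Set Filter Topology Metric

noncomputable section

namespace Vale.Agent.P032.H357.MK

open Vale.Agent.P032.Six Vale.Agent.P032.H892 Vale.Agent.P032.H913 Vale.Agent.P032.S5.H767 Vale.Agent.P032.H61
  Vale.Agent.P032.H357

variable {U : Fin 6 → Set ℂ} {T : ℂ → Set (Fin 6)}

/-- letters of all ticks from families over one period -/
theorem wd_of {J : Type*} {K : ℕ} {a : ℕ → ℝ} (A : Tick K a) {X : J → ℂ}
    {pR qR pL qL : J × Fin (6 * K) → Fin 6}
    (FR : Fam U T (𝓝[>] 0) (fun i : J × Fin (6 * K) => X i.1) (fun i => a i.2) pR qR)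
    (FL : Fam U T (𝓝[<] 0) (fun i : J × Fin (6 * K) => X i.1) (fun i => a i.2) pL qL) :
    ∃ W, Wd U T K a X W ∧ ∀ j t (ht : t < 6 * K), W j t 1 0 = pR (j, ⟨t, ht⟩) ∧ W j t 1 1 = qR (j, ⟨t, ht⟩) ∧
      W j t 0 0 = pL (j, ⟨t, ht⟩) ∧ W j t 0 1 = qL (j, ⟨t, ht⟩) := by
  have hK : 0 < 6 * K := by have := A.pos; omega
  have hmul : ∀ t m : ℕ, a (t + 6 * K * m) = a t + 6 * (m : ℤ) := by
    intro t m
    have h1 := A.per_mul t (6 * m)
    rw [show t + 6 * K * m = t + 6 * m * K by ring, h1]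
    push_cast; ring
  have key : ∀ {l : Filter ℝ} {p q : J × Fin (6 * K) → Fin 6},
      Fam U T l (fun i : J × Fin (6 * K) => X i.1) (fun i => a i.2) p q →
      ∀ t0, Fam U T l (fun i : J × ℕ => X i.1) (fun i => a (t0 + K * i.2))
        (fun i => p (i.1, ⟨(t0 + K * i.2) % (6 * K), Nat.mod_lt _ hK⟩))
        (fun i => q (i.1, ⟨(t0 + K * i.2) % (6 * K), Nat.mod_lt _ hK⟩)) := by
    intro l p q F t0
    refine F.mono fun τ hτ i => ?_
    obtain ⟨j, t'⟩ := i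
    simp only
    generalize t0 + K * t' = t
    have h1 := (hτ (j, ⟨t % (6 * K), Nat.mod_lt _ hK⟩)).per ((t / (6 * K) : ℕ) : ℤ)
    have e : a (t % (6 * K)) + τ + 6 * (((t / (6 * K) : ℕ) : ℤ) : ℝ) = a t + τ := by
      have h2 := hmul (t % (6 * K)) (t / (6 * K))
      rw [Nat.mod_add_div] at h2
      rw [h2]; ring
    simp only at h1
    rw [e] at h1
    exact h1
  refine ⟨fun j t sd io => if sd = 1 then (if io = 0 then pR (j, ⟨t % (6 * K), Nat.mod_lt _ hK⟩) else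
    qR (j, ⟨t % (6 * K), Nat.mod_lt _ hK⟩)) else (if io = 0 then pL (j, ⟨t % (6 * K), Nat.mod_lt _ hK⟩) else
    qL (j, ⟨t % (6 * K), Nat.mod_lt _ hK⟩)), ⟨fun sd t0 => ?_, fun j t sd io => ?_⟩, fun j t ht => ?_⟩
  · by_cases hsd : sd = 1
    · subst hsd
      rw [sdf_one]
      simpa using key FR t0
    · rw [sdf_ne hsd]
      simpa [hsd] using key FL t0
  · have e : t % (6 * K) % (6 * K) = t % (6 * K) := Nat.mod_mod _ _
    simp only [e]
  · simp [Nat.mod_eq_of_lt ht]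

section
variable {B : Type} {Z : B → ℂ}

/-- shifts of the nodes -/
def of6 (i : B × Fin 6) : ℝ := (i.2.val : ℝ)

/-- centres of the nodes -/
def ct6 (Z : B → ℂ) (i : B × Fin 6) : ℂ := Z i.1

theorem fam_R (h : Irr U T) (hl3 : LF3 U T) {n : ℕ} {Y : Fin n → ℂ} {b : ℕ → ℝ} {u : ℝ}
    {s : B × Fin 6 → Fin 6 × Fin 6} (hs : s ∈ RSt DO (IOs U T (ct6 Z) of6) u)
    {e : Fin n × Fin 12 → Option (B × Fin 6)}
    (he : ∀ i' i, e i' = some i → Y i'.1 = Z i.1 ∧ ∃ k : ℤ, b i'.2 - u = of6 i + 6 * k) :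
    ∃ p q : Fin n × Fin 12 → Fin 6, Fam U T (𝓝[>] 0) (fun i : Fin n × Fin 12 => Y i.1) (fun i => b i.2) p q ∧
      ∀ i' i, e i' = some i → p i' = (s i).1 ∧ q i' = (s i).2 := by
  obtain ⟨s', h1, h2⟩ := ext_R (X' := fun i' : Fin n × Fin 12 => Y i'.1) (off' := fun i' => b i'.2 - u)
    h hl3 he hs
  have h3 := rst_fam h2
  refine ⟨fun i => (s' i).1, fun i => (s' i).2, ?_, fun i' i hi => ⟨by simp only [h1 i' i hi], by simp only [h1 i' i hi]⟩⟩
  have e2 : (fun i : Fin n × Fin 12 => u + (b i.2 - u)) = fun i => b i.2 := by funext i; ring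
  rw [e2] at h3
  exact h3

theorem fam_L (h : Irr U T) (hl3 : LF3 U T) {n : ℕ} {Y : Fin n → ℂ} {b : ℕ → ℝ} {u : ℝ}
    {s : B × Fin 6 → Fin 6 × Fin 6} (hs : s ∈ LSt DO (IOs U T (ct6 Z) of6) u)
    {e : Fin n × Fin 12 → Option (B × Fin 6)}
    (he : ∀ i' i, e i' = some i → Y i'.1 = Z i.1 ∧ ∃ k : ℤ, b i'.2 - u = of6 i + 6 * k) :
    ∃ p q : Fin n × Fin 12 → Fin 6, Fam U T (𝓝[<] 0) (fun i : Fin n × Fin 12 => Y i.1) (fun i => b i.2) p q ∧
      ∀ i' i, e i' = some i → p i' = (s i).1 ∧ q i' = (s i).2 := by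
  obtain ⟨s', h1, h2⟩ := ext_L (X' := fun i' : Fin n × Fin 12 => Y i'.1) (off' := fun i' => b i'.2 - u)
    h hl3 he hs
  have h3 := lst_fam h2
  refine ⟨fun i => (s' i).1, fun i => (s' i).2, ?_, fun i' i hi => ⟨by simp only [h1 i' i hi], by simp only [h1 i' i hi]⟩⟩
  have e2 : (fun i : Fin n × Fin 12 => u + (b i.2 - u)) = fun i => b i.2 := by funext i; ring
  rw [e2] at h3
  exact h3

/-- `m - 1` modulo 6 -/
def pre (m : Fin 6) : Fin 6 := ⟨(m.val + 5) % 6, Nat.mod_lt _ (by norm_num)⟩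

/-- half of a tick -/
def hf (t : Fin 12) : Fin 6 := ⟨t.val / 2, by omega⟩

/-- **letters of all word points** -/
theorem exists_letters (h : Irr U T) (hl3 : LF3 U T) {a : ℕ → ℝ} (A : Tick 2 a)
    {s0 s1 L R : B × Fin 6 → Fin 6 × Fin 6} (h0 : s0 ∈ RSt DO (IOs U T (ct6 Z) of6) (a 0))
    (h1 : s1 ∈ LSt DO (IOs U T (ct6 Z) of6) (a 0 + 1)) (hL : L ∈ LSt DO (IOs U T (ct6 Z) of6) (a 1))
    (hR : R ∈ RSt DO (IOs U T (ct6 Z) of6) (a 1)) {n : ℕ} {Y : Fin n → ℂ} {pc : Fin n → Option B}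
    (hpc : ∀ j c, pc j = some c → Y j = Z c) :
    ∃ W : ℕ → Fin n → ℕ → ℕ → ℕ → Fin 6, (∀ r, Wd U T 2 a Y (W r)) ∧ ∀ j c, pc j = some c → ∀ m : Fin 6,
      ((W 0 j (2 * m.val) 1 0, W 0 j (2 * m.val) 1 1) = s0 (c, m) ∧
        (W 0 j (2 * m.val) 0 0, W 0 j (2 * m.val) 0 1) = s1 (c, pre m)) ∧
      ((W 1 j (2 * m.val + 1) 1 0, W 1 j (2 * m.val + 1) 1 1) = R (c, m) ∧
        (W 1 j (2 * m.val + 1) 0 0, W 1 j (2 * m.val + 1) 0 1) = L (c, m)) := by
  classical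
  let e0 : Fin n × Fin 12 → Option (B × Fin 6) := fun i =>
    if i.2.val % 2 = 0 then (pc i.1).map fun c => (c, hf i.2) else none
  let e0' : Fin n × Fin 12 → Option (B × Fin 6) := fun i =>
    if i.2.val % 2 = 0 then (pc i.1).map fun c => (c, pre (hf i.2)) else none
  let e1 : Fin n × Fin 12 → Option (B × Fin 6) := fun i =>
    if i.2.val % 2 = 1 then (pc i.1).map fun c => (c, hf i.2) else none
  have k0 : ∀ i' i, e0 i' = some i → Y i'.1 = Z i.1 ∧ ∃ k : ℤ, a i'.2 - a 0 = of6 i + 6 * k := by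
    rintro ⟨j, t⟩ ⟨c, m⟩ hi
    simp only [e0] at hi
    split_ifs at hi with h2
    rw [Option.map_eq_some_iff] at hi
    obtain ⟨c', h3, h4⟩ := hi
    obtain ⟨rfl, rfl⟩ := Prod.mk.inj h4
    refine ⟨hpc _ _ h3, 0, ?_⟩
    have h5 : t.val = 2 * (hf t).val := by show t.val = 2 * (t.val / 2); omega
    have h6 := a_ev A (hf t).val
    rw [← h5] at h6
    show a t.val - a 0 = ((hf t).val : ℝ) + 6 * ((0 : ℤ) : ℝ)
    rw [h6]; push_cast; ring
  have k0' : ∀ i' i, e0' i' = some i → Y i'.1 = Z i.1 ∧ ∃ k : ℤ, a i'.2 - (a 0 + 1) = of6 i + 6 * k := by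
    rintro ⟨j, t⟩ ⟨c, m⟩ hi
    simp only [e0'] at hi
    split_ifs at hi with h2
    rw [Option.map_eq_some_iff] at hi
    obtain ⟨c', h3, h4⟩ := hi
    obtain ⟨rfl, rfl⟩ := Prod.mk.inj h4
    refine ⟨hpc _ _ h3, ?_⟩
    have h5 : t.val = 2 * (hf t).val := by show t.val = 2 * (t.val / 2); omega
    have h6 := a_ev A (hf t).val
    rw [← h5] at h6
    have h7 : (pre (hf t)).val = ((hf t).val + 5) % 6 := rfl
    show ∃ k : ℤ, a t.val - (a 0 + 1) = ((pre (hf t)).val : ℝ) + 6 * k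
    rcases Nat.eq_zero_or_pos (hf t).val with h8 | h8
    · refine ⟨-1, ?_⟩
      rw [h7, h6, h8]
      norm_num
    · refine ⟨0, ?_⟩
      have h9 : (pre (hf t)).val + 1 = (hf t).val := by
        rw [h7]
        have := (hf t).isLt
        omega
      have h10 : ((hf t).val : ℝ) = (pre (hf t)).val + 1 := by exact_mod_cast h9.symm
      rw [h6, h10]; push_cast; ring
  have k1 : ∀ i' i, e1 i' = some i → Y i'.1 = Z i.1 ∧ ∃ k : ℤ, a i'.2 - a 1 = of6 i + 6 * k := by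
    rintro ⟨j, t⟩ ⟨c, m⟩ hi
    simp only [e1] at hi
    split_ifs at hi with h2
    rw [Option.map_eq_some_iff] at hi
    obtain ⟨c', h3, h4⟩ := hi
    obtain ⟨rfl, rfl⟩ := Prod.mk.inj h4
    refine ⟨hpc _ _ h3, 0, ?_⟩
    have h5 : t.val = 2 * (hf t).val + 1 := by show t.val = 2 * (t.val / 2) + 1; omega
    have h6 := a_od A (hf t).val
    rw [← h5] at h6
    show a t.val - a 1 = ((hf t).val : ℝ) + 6 * ((0 : ℤ) : ℝ)
    rw [h6]; push_cast; ring
  obtain ⟨p0, q0, F0, g0⟩ := fam_R h hl3 (Y := Y) (b := a) h0 k0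
  obtain ⟨p0', q0', F0', g0'⟩ := fam_L h hl3 (Y := Y) (b := a) h1 k0'
  obtain ⟨p1, q1, F1, g1⟩ := fam_R h hl3 (Y := Y) (b := a) hR k1
  obtain ⟨p1', q1', F1', g1'⟩ := fam_L h hl3 (Y := Y) (b := a) hL k1
  obtain ⟨W0, D0, w0⟩ := wd_of (K := 2) A (X := Y) F0 F0'
  obtain ⟨W1, D1, w1⟩ := wd_of (K := 2) A (X := Y) F1 F1'
  refine ⟨fun r => if r = 0 then W0 else W1, fun r => ?_, fun j c hc m => ⟨⟨?_, ?_⟩, ?_, ?_⟩⟩
  · by_cases hr : r = 0
    · simp only [hr, if_true]; exact D0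
    · simp only [hr, if_false]; exact D1
  · have ht : 2 * m.val < 6 * 2 := by omega
    have h2 : e0 (j, ⟨2 * m.val, ht⟩) = some (c, m) := by
      simp only [e0]
      rw [if_pos (by omega), hc]
      simp only [Option.map_some]
      congr 2
      apply Fin.ext
      show 2 * m.val / 2 = m.val
      omega
    obtain ⟨h3, h4⟩ := g0 _ _ h2
    obtain ⟨h5, h6, -, -⟩ := w0 j (2 * m.val) ht
    simp only [if_true]
    rw [h5, h6, h3, h4]
  · have ht : 2 * m.val < 6 * 2 := by omega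
    have h2 : e0' (j, ⟨2 * m.val, ht⟩) = some (c, pre m) := by
      simp only [e0']
      rw [if_pos (by omega), hc]
      simp only [Option.map_some]
      congr 3
      apply Fin.ext
      show 2 * m.val / 2 = m.val
      omega
    obtain ⟨h3, h4⟩ := g0' _ _ h2
    obtain ⟨-, -, h5, h6⟩ := w0 j (2 * m.val) ht
    simp only [if_true]
    rw [h5, h6, h3, h4]
  · have ht : 2 * m.val + 1 < 6 * 2 := by omega
    have h2 : e1 (j, ⟨2 * m.val + 1, ht⟩) = some (c, m) := by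
      simp only [e1]
      rw [if_pos (by omega), hc]
      simp only [Option.map_some]
      congr 2
      apply Fin.ext
      show (2 * m.val + 1) / 2 = m.val
      omega
    obtain ⟨h3, h4⟩ := g1 _ _ h2
    obtain ⟨h5, h6, -, -⟩ := w1 j (2 * m.val + 1) ht
    simp only [one_ne_zero, if_false]
    rw [h5, h6, h3, h4]
  · have ht : 2 * m.val + 1 < 6 * 2 := by omega
    have h2 : e1 (j, ⟨2 * m.val + 1, ht⟩) = some (c, m) := by
      simp only [e1]
      rw [if_pos (by omega), hc]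
      simp only [Option.map_some]
      congr 2
      apply Fin.ext
      show (2 * m.val + 1) / 2 = m.val
      omega
    obtain ⟨h3, h4⟩ := g1' _ _ h2
    obtain ⟨-, -, h5, h6⟩ := w1 j (2 * m.val + 1) ht
    simp only [one_ne_zero, if_false]
    rw [h5, h6, h3, h4]

end

end Vale.Agent.P032.H357.MK
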