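import Vale.Agent.P032X.H357.MdK
import Vale.Agent.P032W.H913.Pts

/-!
# P032: point tables of the germ model

The point `x` has the coordinates `cf K TC x i - 8`, `i < 2 K` (4 bits each in the number `TC`): class `r` has the basis
`dir (a r)`, `dir (a r + 1)`.  `tchk K NP TB TC = true` : the table `nbf K TB` of neighbours is correct (Boolean, for the
kernel).  `hY_of_tchk` is the hypothesis `hY` of `mkMd`.
-/

open Set Filter Topology Metric

noncomputable section

namespace Vale.Agent.P032.H357.MK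

open Vale.Agent.P032.Six Vale.Agent.P032.H892 Vale.Agent.P032.H913 Vale.Agent.P032.S5.H767
open Vale.Agent.P032.H820.K (nbf)

/-- coordinate + 8 -/
def cf (K TC x i : ℕ) : ℕ :=
  Nat.land (Nat.shiftRight TC (Nat.mul 4 (Nat.add (Nat.mul (Nat.mul 2 K) x) i))) 15

/-- first coordinate of the unit vector `m` plus one -/
def c0 (m : ℕ) : ℕ := Nat.land (Nat.shiftRight 0x210012 (Nat.mul 4 m)) 3

/-- second coordinate of the unit vector `m` plus one -/
def c1 (m : ℕ) : ℕ := Nat.land (Nat.shiftRight 0x001221 (Nat.mul 4 m)) 3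

/-- `f` is true below `n` -/
def al (f : ℕ → Bool) (n : ℕ) : Bool := @Nat.rec (fun _ => Bool) true (fun i ih => and (f i) ih) n

theorem al_spec {f : ℕ → Bool} {n : ℕ} (h : al f n = true) : ∀ i < n, f i = true := by
  induction n with
  | zero => intro i hi; exact absurd hi (Nat.not_lt_zero _)
  | succ n ih =>
    have h1 : and (f n) (al f n) = true := h
    rw [Bool.and_eq_true] at h1
    intro i hi
    rcases Nat.lt_succ_iff_lt_or_eq.1 hi with h2 | h2
    · exact ih h1.2 i h2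
    · rw [h2]; exact h1.1

/-- one step of the table -/
def sc (K TC x y t r : ℕ) : Bool :=
  bif Nat.beq r (Nat.mod t K) then
    Nat.beq (Nat.add (cf K TC y (Nat.mul 2 r)) 1) (Nat.add (cf K TC x (Nat.mul 2 r)) (c0 (Nat.div t K))) &&
      Nat.beq (Nat.add (cf K TC y (Nat.succ (Nat.mul 2 r))) 1)
        (Nat.add (cf K TC x (Nat.succ (Nat.mul 2 r))) (c1 (Nat.div t K)))
  else Nat.beq (cf K TC y (Nat.mul 2 r)) (cf K TC x (Nat.mul 2 r)) &&
      Nat.beq (cf K TC y (Nat.succ (Nat.mul 2 r))) (cf K TC x (Nat.succ (Nat.mul 2 r)))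

/-- the check of the tables -/
def tchk (K NP TB TC : ℕ) : Bool :=
  al (fun x => al (fun t => bif Nat.ble NP (nbf K TB x t) then true else
    al (fun r => sc K TC x (nbf K TB x t) t r) K) (Nat.mul 6 K)) NP

/-- the points -/
def Yt (a : ℕ → ℝ) (K TC : ℕ) (z : ℂ) (x : ℕ) : ℂ :=
  z + ∑ r ∈ Finset.range K, (((cf K TC x (2 * r) : ℂ) - 8) + ((cf K TC x (2 * r + 1) : ℂ) - 8) * dir 1) * dir (a r)

theorem c_hx : ∀ m < 6, (c0 m : ℤ) - 1 = (hx m).1 ∧ (c1 m : ℤ) - 1 = (hx m).2 := by decide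

theorem dir_c {m : ℕ} (hm : m < 6) (x : ℝ) :
    dir (x + m) = (((c0 m : ℂ) - 1) + ((c1 m : ℂ) - 1) * dir 1) * dir x := by
  rw [dir_hx x m hm]
  obtain ⟨h1, h2⟩ := c_hx m hm
  have e0 : ((hx m).1 : ℂ) = (c0 m : ℂ) - 1 := by rw [← h1]; push_cast; ring
  have e1 : ((hx m).2 : ℂ) = (c1 m : ℂ) - 1 := by rw [← h2]; push_cast; ring
  rw [e0, e1]

/-- **the points satisfy `hY`** -/
theorem hY_of_tchk {K NP TB TC : ℕ} {a : ℕ → ℝ} (A : Tick K a) (z : ℂ) (hc : tchk K NP TB TC = true) :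
    ∀ x < NP, ∀ t < 6 * K, nbf K TB x t < NP → Yt a K TC z (nbf K TB x t) = Yt a K TC z x + dir (a t) := by
  intro x hx t ht hn
  have h1 := al_spec (al_spec hc x hx) t ht
  have h2 : Nat.ble NP (nbf K TB x t) = false := by
    rw [← Bool.not_eq_true, Nat.ble_eq]; omega
  rw [h2, cond_false] at h1
  have h3 := al_spec h1
  set y := nbf K TB x t with hy
  have hm : t / K < 6 := Nat.div_lt_of_lt_mul (by rwa [mul_comm] at ht)
  have hr : t % K < K := Nat.mod_lt _ A.pos
  have e : dir (a t) = (((c0 (t / K) : ℂ) - 1) + ((c1 (t / K) : ℂ) - 1) * dir 1) * dir (a (t % K)) := by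
    have h4 := A.per_mul (t % K) (t / K)
    have h5 : t % K + t / K * K = t := by rw [mul_comm]; exact Nat.mod_add_div t K
    rw [h5] at h4
    rw [h4, dir_c hm]
  have key : ∀ r ∈ Finset.range K,
      (((cf K TC y (2 * r) : ℂ) - 8) + ((cf K TC y (2 * r + 1) : ℂ) - 8) * dir 1) * dir (a r) =
      (((cf K TC x (2 * r) : ℂ) - 8) + ((cf K TC x (2 * r + 1) : ℂ) - 8) * dir 1) * dir (a r) +
        (if r = t % K then dir (a t) else 0) := by
    intro r hrK
    have h4 := h3 r (Finset.mem_range.1 hrK)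
    unfold sc at h4
    by_cases hrt : r = t % K
    · have h5 : Nat.beq r (Nat.mod t K) = true := nbeq.2 hrt
      rw [h5, cond_true, Bool.and_eq_true, nbeq, nbeq] at h4
      have h6 : (cf K TC y (2 * r) : ℂ) + 1 = cf K TC x (2 * r) + c0 (t / K) := by exact_mod_cast h4.1
      have h7 : (cf K TC y (2 * r + 1) : ℂ) + 1 = cf K TC x (2 * r + 1) + c1 (t / K) := by exact_mod_cast h4.2
      rw [if_pos hrt, e, ← hrt]
      linear_combination (h6 + h7 * dir 1) * dir (a r)
    · have h5 : Nat.beq r (Nat.mod t K) = false := by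
        rw [← Bool.not_eq_true, nbeq]; exact hrt
      rw [h5, cond_false, Bool.and_eq_true, nbeq, nbeq] at h4
      have h6 : cf K TC y (2 * r) = cf K TC x (2 * r) := h4.1
      have h7 : cf K TC y (2 * r + 1) = cf K TC x (2 * r + 1) := h4.2
      rw [if_neg hrt, h6, h7, add_zero]
  unfold Yt
  rw [Finset.sum_congr rfl key, Finset.sum_add_distrib, Finset.sum_ite_eq' (Finset.range K) (t % K),
    if_pos (Finset.mem_range.2 hr)]
  ring

/-- the point with the coordinates 0 -/
theorem yt_zero {K TC : ℕ} {a : ℕ → ℝ} {z : ℂ} {x : ℕ} (h : al (fun i => Nat.beq (cf K TC x i) 8) (2 * K) = true) :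
    Yt a K TC z x = z := by
  have h1 := al_spec h
  unfold Yt
  rw [Finset.sum_eq_zero fun r hr => ?_, add_zero]
  have hr := Finset.mem_range.1 hr
  rw [nbeq.1 (h1 (2 * r) (by omega)), nbeq.1 (h1 (2 * r + 1) (by omega))]
  push_cast; ring

end Vale.Agent.P032.H357.MK
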