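import Vale.Agent.P032X.H357.Run

/-!
# P032: two times of a run in one model with three classes of directions

* `tK`, `wdK`, `wd_wdK` : ticks and letters for `K` classes from one pair of states per class,
* `t3 u1 s u` : the ticks of the classes `u1 + m`, `s + m`, `u + m` for `u1 < s < u < u1 + 1`,
* `ta r n` : the atoms of the model of three classes which say the same as the atom `n` of the model of two classes at
  the time `s` (`r = 1`) or `u` (`r = 2`),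
* `pair3` : **literals of a legal model at the time `s` and literals of a legal model at the time `u` which together are
  not satisfiable in models of three classes do not occur for the same start and end.**
-/

open Set Filter Topology Metric

noncomputable section

namespace Vale.Agent.P032.H357.MK

open Vale.Agent.P032.Six Vale.Agent.P032.H892 Vale.Agent.P032.H913 Vale.Agent.P032.S5.H767 Vale.Agent.P032.H61
  Vale.Agent.P032.H357
open Vale.Agent.P032.H820.K (nbf Md En a0 a1 a2 a3 a4 av lv ps ng Ho av0 av1 av2 av3 av4 av5 av6 av9 av10 av11 av12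
  av13 av14 av15)

/-! ### letters from states, `K` classes -/

/-- the letters from the states of the classes: `Rr r` after, `Lr r` before the direction `b r` -/
def wdK (K : ℕ) {J : Type*} (Rr Lr : ℕ → J × Fin 6 → Fin 6 × Fin 6) (j : J) (t sd io : ℕ) : Fin 6 :=
  let p := if sd = 1 then Rr (t % K) (j, f6 (t / K)) else Lr (t % K) (j, f6 (t / K))
  if io = 0 then p.1 else p.2

theorem wd_wdK {U : Fin 6 → Set ℂ} {T : ℂ → Set (Fin 6)} {J : Type*} {Y : J → ℂ} {K : ℕ} (hK : 0 < K) {a b : ℕ → ℝ}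
    (hab : ∀ t, a t = b (t % K) + ((t / K : ℕ) : ℝ)) {Rr Lr : ℕ → J × Fin 6 → Fin 6 × Fin 6}
    (hR : ∀ r < K, Rr r ∈ RSt DO (IOs U T (nX Y) nO) (b r)) (hL : ∀ r < K, Lr r ∈ LSt DO (IOs U T (nX Y) nO) (b r)) :
    Wd U T K a Y (wdK K Rr Lr) where
  fam := by
    intro sd t0
    have hr : t0 % K < K := Nat.mod_lt _ hK
    have FR := rst_fam (hR _ hr)
    have FL := lst_fam (hL _ hr)
    have e1 : ∀ n, (t0 + K * n) % K = t0 % K := fun n => Nat.add_mul_mod_self_left t0 K n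
    have e2 : ∀ n, (t0 + K * n) / K = t0 / K + n := fun n => Nat.add_mul_div_left t0 n hK
    by_cases hs : sd = 1
    · subst hs
      rw [sdf_one]
      refine FR.mono fun τ hτ i => ?_
      obtain ⟨j, n⟩ := i
      have h1 := ino_shift (hτ (j, f6 (t0 / K + n)))
      rw [show nX Y (j, f6 (t0 / K + n)) = Y j from rfl] at h1
      simp only
      unfold wdK
      rw [hab, e1, e2]
      simpa using h1
    · rw [sdf_ne hs]
      refine FL.mono fun τ hτ i => ?_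
      obtain ⟨j, n⟩ := i
      have h1 := ino_shift (hτ (j, f6 (t0 / K + n)))
      rw [show nX Y (j, f6 (t0 / K + n)) = Y j from rfl] at h1
      simp only
      unfold wdK
      rw [hab, e1, e2]
      simpa [hs] using h1
  per := by
    intro j t sd io
    have e1 : t % (6 * K) % K = t % K := Nat.mod_mod_of_dvd _ (Dvd.intro_left 6 rfl)
    have e2 : f6 (t % (6 * K) / K) = f6 (t / K) := by
      unfold f6
      congr 1
      rw [mul_comm 6 K, Nat.mod_mul_right_div_self, Nat.mod_mod]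
    unfold wdK
    rw [e1, e2]

/-! ### three classes -/

/-- the first directions of the three classes -/
def b3 (u1 s u : ℝ) (r : ℕ) : ℝ := if r = 0 then u1 else if r = 1 then s else u

/-- the ticks of three classes -/
def t3 (u1 s u : ℝ) (t : ℕ) : ℝ := b3 u1 s u (t % 3) + ((t / 3 : ℕ) : ℝ)

theorem tick_t3 {u1 s u : ℝ} (h1 : u1 < s) (h2 : s < u) (h3 : u < u1 + 1) : Tick 3 (t3 u1 s u) where
  pos := by norm_num
  mono := by
    refine strictMono_nat_of_lt_succ fun t => ?_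
    obtain ⟨m, r, hr, rfl⟩ : ∃ m r, r < 3 ∧ t = 3 * m + r := ⟨t / 3, t % 3, by omega, by omega⟩
    unfold t3
    interval_cases r
    · rw [show (3 * m + 0) % 3 = 0 by omega, show (3 * m + 0) / 3 = m by omega, show (3 * m + 0 + 1) % 3 = 1 by omega,
        show (3 * m + 0 + 1) / 3 = m by omega]
      simp only [b3]; norm_num; linarith
    · rw [show (3 * m + 1) % 3 = 1 by omega, show (3 * m + 1) / 3 = m by omega, show (3 * m + 1 + 1) % 3 = 2 by omega,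
        show (3 * m + 1 + 1) / 3 = m by omega]
      simp only [b3]; norm_num; linarith
    · rw [show (3 * m + 2) % 3 = 2 by omega, show (3 * m + 2) / 3 = m by omega, show (3 * m + 2 + 1) % 3 = 0 by omega,
        show (3 * m + 2 + 1) / 3 = m + 1 by omega]
      simp only [b3]; norm_num; linarith
  per := fun t => by
    unfold t3
    rw [show (t + 3) % 3 = t % 3 by omega, show (t + 3) / 3 = t / 3 + 1 by omega]
    push_cast; ring

/-- the tick of the model of three classes, `r` = the class of the moving directions -/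
def tkr (r j : ℕ) : ℕ := 3 * (j / 2) + (j % 2) * r

theorem t3_tkr {u1 s u : ℝ} {r : ℕ} (hr : r = 1 ∨ r = 2) (j : ℕ) : t3 u1 s u (tkr r j) = t2 u1 (b3 u1 s u r) j := by
  unfold t3 tkr t2
  rcases Nat.mod_two_eq_zero_or_one j with h | h
  · rw [h, zero_mul, add_zero, show 3 * (j / 2) % 3 = 0 by omega, show 3 * (j / 2) / 3 = j / 2 by omega]
    simp [b3]
  · rcases hr with rfl | rfl
    · rw [h, show (3 * (j / 2) + 1 * 1) % 3 = 1 by omega, show (3 * (j / 2) + 1 * 1) / 3 = j / 2 by omega]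
      simp [b3]
    · rw [h, show (3 * (j / 2) + 1 * 2) % 3 = 2 by omega, show (3 * (j / 2) + 1 * 2) / 3 = j / 2 by omega]
      simp [b3]

/-- the check of the point map: the point `x` of two classes is the point `f x` of three classes, moving class `r` -/
def emb (NP NW NP3 TC TC3 : ℕ) (f : ℕ → ℕ) (r : ℕ) : Bool :=
  al (fun x => Nat.ble (Nat.succ (f x)) NP3 &&
    (Nat.beq (cf 3 TC3 (f x) 0) (cf 2 TC x 0) && Nat.beq (cf 3 TC3 (f x) 1) (cf 2 TC x 1)) &&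
    (Nat.beq (cf 3 TC3 (f x) (Nat.mul 2 r)) (cf 2 TC x 2) && Nat.beq (cf 3 TC3 (f x) (Nat.succ (Nat.mul 2 r))) (cf 2 TC x 3)) &&
    (Nat.beq (cf 3 TC3 (f x) (Nat.sub 6 (Nat.mul 2 r))) 8 && Nat.beq (cf 3 TC3 (f x) (Nat.sub 7 (Nat.mul 2 r))) 8)) NP &&
  al (fun x => al (fun y => !(Nat.beq (f x) (f y)) || Nat.beq x y) NW) NW

structure Emb (NP NW NP3 TC TC3 : ℕ) (f : ℕ → ℕ) (r : ℕ) : Prop where
  np : ∀ x < NP, f x < NP3
  inj : ∀ x < NW, ∀ y < NW, f x = f y → x = y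
  e0 : ∀ x < NP, cf 3 TC3 (f x) 0 = cf 2 TC x 0
  e1 : ∀ x < NP, cf 3 TC3 (f x) 1 = cf 2 TC x 1
  e2 : ∀ x < NP, cf 3 TC3 (f x) (2 * r) = cf 2 TC x 2
  e3 : ∀ x < NP, cf 3 TC3 (f x) (2 * r + 1) = cf 2 TC x 3
  e4 : ∀ x < NP, cf 3 TC3 (f x) (6 - 2 * r) = 8
  e5 : ∀ x < NP, cf 3 TC3 (f x) (7 - 2 * r) = 8

theorem emb_spec {NP NW NP3 TC TC3 : ℕ} {f : ℕ → ℕ} {r : ℕ} (h : emb NP NW NP3 TC TC3 f r = true) :
    Emb NP NW NP3 TC TC3 f r := by
  unfold emb at h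
  rw [Bool.and_eq_true] at h
  have h1 := al_spec h.1
  have h2 := al_spec h.2
  simp only [Bool.and_eq_true, Nat.ble_eq, nbeq] at h1
  refine ⟨fun x hx => (h1 x hx).1.1.1, fun x hx y hy e => ?_, fun x hx => (h1 x hx).1.1.2.1,
    fun x hx => (h1 x hx).1.1.2.2, fun x hx => (h1 x hx).1.2.1, fun x hx => (h1 x hx).1.2.2, fun x hx => (h1 x hx).2.1,
    fun x hx => (h1 x hx).2.2⟩
  have h3 := al_spec (h2 x hx) y hy
  rw [Bool.or_eq_true, nbeq, Bool.not_eq_true'] at h3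
  rcases h3 with h3 | h3
  · rw [← Bool.not_eq_true, nbeq] at h3
    exact absurd e h3
  · exact h3

/-- the points agree -/
theorem Emb.pt {NP NW NP3 TC TC3 : ℕ} {f : ℕ → ℕ} {r : ℕ} (E : Emb NP NW NP3 TC TC3 f r)
    (hr : r = 1 ∨ r = 2) {u1 s u : ℝ} {z : ℂ} {x : ℕ} (hx : x < NP) :
    Yt (t3 u1 s u) 3 TC3 z (f x) = Yt (t2 u1 (b3 u1 s u r)) 2 TC z x := by
  have k0 := E.e0 x hx
  have k1 := E.e1 x hx
  have k2 := E.e2 x hx
  have k3 := E.e3 x hx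
  have k4 := E.e4 x hx
  have k5 := E.e5 x hx
  have d0 : t3 u1 s u 0 = u1 := by simp [t3, b3]
  have d1 : t3 u1 s u 1 = s := by simp [t3, b3]
  have d2 : t3 u1 s u 2 = u := by simp [t3, b3]
  unfold Yt
  rw [Finset.sum_range_succ, Finset.sum_range_succ, Finset.sum_range_one, Finset.sum_range_succ,
    Finset.sum_range_one, t2_zero, t2_one, d0, d1, d2]
  rcases hr with rfl | rfl
  · norm_num at k2 k3 k4 k5 ⊢
    rw [k0, k1, k2, k3, k4, k5]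
    simp [b3]
  · norm_num at k2 k3 k4 k5 ⊢
    rw [k0, k1, k2, k3, k4, k5]
    simp [b3]

/-! ### extension of states -/

section
variable {U : Fin 6 → Set ℂ} {T : ℂ → Set (Fin 6)} {n m : ℕ}

/-- the partial inverse of a point map -/
def pin (f : ℕ → ℕ) (n m : ℕ) (j : Fin m) : Option (Fin n) :=
  open Classical in if h : ∃ x : Fin n, f x.val = j.val then some h.choose else none

theorem pin_some {f : ℕ → ℕ} {j : Fin m} {x : Fin n} (h : pin f n m j = some x) : f x.val = j.val := by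
  classical
  unfold pin at h
  split_ifs at h with h1
  rw [← Option.some.inj h]
  exact h1.choose_spec

theorem pin_of {f : ℕ → ℕ} (hinj : ∀ x < n, ∀ y < n, f x = f y → x = y) {x : Fin n} (hx : f x.val < m) :
    pin f n m ⟨f x.val, hx⟩ = some x := by
  classical
  unfold pin
  have h1 : ∃ x' : Fin n, f x'.val = (⟨f x.val, hx⟩ : Fin m).val := ⟨x, rfl⟩
  rw [dif_pos h1]
  congr 1
  exact Fin.ext (hinj _ h1.choose.isLt _ x.isLt h1.choose_spec)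

theorem opt_he {Y : Fin n → ℂ} {Y' : Fin m → ℂ} {e : Fin m → Option (Fin n)}
    (he : ∀ j x, e j = some x → Y' j = Y x) : ∀ (i' : Fin m × Fin 6) (i : Fin n × Fin 6),
      ((e i'.1).map fun c => (c, i'.2)) = some i → nX Y' i' = nX Y i ∧ ∃ k : ℤ, nO i' = nO i + 6 * k := by
  rintro ⟨j, m⟩ ⟨c, m'⟩ hi
  have hi : (e j).map (fun c => (c, m)) = some (c, m') := hi
  rw [Option.map_eq_some_iff] at hi
  obtain ⟨c', h1, h2⟩ := hi
  rw [Prod.mk.injEq] at h2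
  obtain ⟨h3, h4⟩ := h2
  subst h3 h4
  exact ⟨he j _ h1, 0, by unfold nO; simp⟩

theorem extR' (h : Irr U T) (hl3 : LF3 U T) {Y : Fin n → ℂ} {Y' : Fin m → ℂ} {e : Fin m → Option (Fin n)}
    (he : ∀ j x, e j = some x → Y' j = Y x) {v : ℝ} {σ : Fin n × Fin 6 → Fin 6 × Fin 6}
    (hσ : σ ∈ RSt DO (IOs U T (nX Y) nO) v) : ∃ σ' : Fin m × Fin 6 → Fin 6 × Fin 6,
      (∀ j x, e j = some x → ∀ d, σ' (j, d) = σ (x, d)) ∧ σ' ∈ RSt DO (IOs U T (nX Y') nO) v := by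
  obtain ⟨σ', h1, h2⟩ := ext_R h hl3 (opt_he he) hσ
  exact ⟨σ', fun j x hj d => h1 (j, d) (x, d) (by show (e j).map _ = _; rw [hj]; rfl), h2⟩

theorem extL' (h : Irr U T) (hl3 : LF3 U T) {Y : Fin n → ℂ} {Y' : Fin m → ℂ} {e : Fin m → Option (Fin n)}
    (he : ∀ j x, e j = some x → Y' j = Y x) {v : ℝ} {σ : Fin n × Fin 6 → Fin 6 × Fin 6}
    (hσ : σ ∈ LSt DO (IOs U T (nX Y) nO) v) : ∃ σ' : Fin m × Fin 6 → Fin 6 × Fin 6,
      (∀ j x, e j = some x → ∀ d, σ' (j, d) = σ (x, d)) ∧ σ' ∈ LSt DO (IOs U T (nX Y') nO) v := by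
  obtain ⟨σ', h1, h2⟩ := ext_L h hl3 (opt_he he) hσ
  exact ⟨σ', fun j x hj d => h1 (j, d) (x, d) (by show (e j).map _ = _; rw [hj]; rfl), h2⟩

end

/-- the state of the end seen from the start -/
theorem lst_end {U : Fin 6 → Set ℂ} {T : ℂ → Set (Fin 6)} {C : Type*} {Zc : C → ℂ} {u : ℝ}
    {s : C × Fin 6 → Fin 6 × Fin 6} (h : s ∈ LSt DO (IOs U T (nX Zc) nO) (u + 1)) :
    rotS' s ∈ LSt DO (IOs U T (nX Zc) nO) u := by
  have h : ∃ᶠ v in 𝓝[<] (u + 1) ⊓ DO, IOs U T (nX Zc) nO v s := h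
  have h1 := tendsto_L (u + 1) (-1)
  rw [show u + 1 + -1 = u by ring] at h1
  refine h1.frequently (h.mono fun v hv => ?_)
  rintro ⟨c, m⟩
  have h2 := hv (c, m + 5)
  obtain ⟨k, hk⟩ := rot_time v m 5
  have h3 := h2.per (k - 1)
  have e : v + nO (c, m + 5) + 6 * ((k - 1 : ℤ) : ℝ) = v + -1 + nO (c, m) := by
    have hk : v + nO (c, m + 5) + 6 * (k : ℝ) = v + (((5 : Fin 6).val : ℕ) : ℝ) + nO (c, m) := hk
    have h5 : (((5 : Fin 6).val : ℕ) : ℝ) = 5 := by norm_num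
    rw [h5] at hk
    push_cast
    linarith
  rw [e] at h3
  exact h3

theorem f6_add (m : ℕ) : f6 m + 5 = f6 (m + 5) := by
  apply Fin.ext
  show (m % 6 + 5) % 6 = (m + 5) % 6
  omega

/-! ### the model of three classes -/

/-- the checks of the tables of three classes -/
structure Tb3 (NP3 NW3 TB3 TC3 : ℕ) : Prop where
  hNP : NP3 ≤ 4096
  hNW : NW3 ≤ NP3
  ht : tchk 3 NP3 TB3 TC3 = true

section
variable {U : Fin 6 → Set ℂ} {T : ℂ → Set (Fin 6)} {NP NW TB TC NP3 NW3 TB3 TC3 : ℕ} {f1 f2 : ℕ → ℕ}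

/-- the word points of three classes -/
def Yw3 (u1 s u : ℝ) (TC3 : ℕ) (z : ℂ) (NW3 : ℕ) : Fin NW3 → ℂ := fun j => Yt (t3 u1 s u) 3 TC3 z j.val

theorem exists_w3 (F : Hy U T) {z : ℂ} {u1 s u : ℝ} (hNW : NW ≤ NP)
    (E1 : Emb NP NW NP3 TC TC3 f1 1) (E2 : Emb NP NW NP3 TC TC3 f2 2)
    {s0 s1 L R s0' s1' L' R' : Fin NW × Fin 6 → Fin 6 × Fin 6}
    (S : St4 U T (Yw u1 s TC z NW) u1 s s0 s1 L R) (S' : St4 U T (Yw u1 u TC z NW) u1 u s0' s1' L' R') :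
    ∃ Rr Lr : ℕ → Fin NW3 × Fin 6 → Fin 6 × Fin 6, Wd U T 3 (t3 u1 s u) (Yw3 u1 s u TC3 z NW3) (wdK 3 Rr Lr) ∧
      (∀ (x : Fin NW) (hx : f1 x.val < NW3) (d : Fin 6), Rr 0 (⟨f1 x.val, hx⟩, d) = s0 (x, d) ∧
        Lr 0 (⟨f1 x.val, hx⟩, d) = s1 (x, d + 5) ∧ Rr 1 (⟨f1 x.val, hx⟩, d) = R (x, d) ∧
        Lr 1 (⟨f1 x.val, hx⟩, d) = L (x, d)) ∧
      (∀ (x : Fin NW) (hx : f2 x.val < NW3) (d : Fin 6), Rr 2 (⟨f2 x.val, hx⟩, d) = R' (x, d) ∧
        Lr 2 (⟨f2 x.val, hx⟩, d) = L' (x, d)) := by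
  have e1 : ∀ j x, pin f1 NW NW3 j = some x → Yw3 u1 s u TC3 z NW3 j = Yw u1 s TC z NW x := fun j x hj => by
    have h1 := pin_some hj
    show Yt (t3 u1 s u) 3 TC3 z j.val = Yt (t2 u1 s) 2 TC z x.val
    rw [← h1]
    exact E1.pt (Or.inl rfl) (lt_of_lt_of_le x.isLt hNW)
  have e2 : ∀ j x, pin f2 NW NW3 j = some x → Yw3 u1 s u TC3 z NW3 j = Yw u1 u TC z NW x := fun j x hj => by
    have h1 := pin_some hj
    show Yt (t3 u1 s u) 3 TC3 z j.val = Yt (t2 u1 u) 2 TC z x.val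
    rw [← h1]
    exact E2.pt (Or.inr rfl) (lt_of_lt_of_le x.isLt hNW)
  obtain ⟨r0, k0, m0⟩ := extR' F.h F.l3 e1 S.h0
  obtain ⟨l0, k1, m1⟩ := extL' F.h F.l3 e1 (lst_end S.h1)
  obtain ⟨r1, k2, m2⟩ := extR' F.h F.l3 e1 S.hR
  obtain ⟨l1, k3, m3⟩ := extL' F.h F.l3 e1 S.hL
  obtain ⟨r2, k4, m4⟩ := extR' F.h F.l3 e2 S'.hR
  obtain ⟨l2, k5, m5⟩ := extL' F.h F.l3 e2 S'.hL
  refine ⟨fun r => if r = 0 then r0 else if r = 1 then r1 else r2, fun r => if r = 0 then l0 else if r = 1 then l1 else l2,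
    wd_wdK (b := b3 u1 s u) (by norm_num) (fun t => rfl) (fun r hr => ?_) (fun r hr => ?_), fun x hx d => ?_,
    fun x hx d => ?_⟩
  · interval_cases r
    · exact m0
    · exact m2
    · exact m4
  · interval_cases r
    · exact m1
    · exact m3
    · exact m5
  · have h1 := pin_of (m := NW3) E1.inj hx
    exact ⟨k0 _ _ h1 d, k1 _ _ h1 d, k2 _ _ h1 d, k3 _ _ h1 d⟩
  · have h1 := pin_of (m := NW3) E2.inj hx
    exact ⟨k4 _ _ h1 d, k5 _ _ h1 d⟩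

end

/-! ### atoms -/

/-- the zones of a ray -/
def zn3 (kd x j q : ℕ) : List ℕ := [En kd x j 1 q, En kd x j 2 q, En kd x j 3 q]

/-- two sectors and the ray between them -/
def sec2 (kd x p q : ℕ) : List ℕ := En kd x p 0 q :: En kd x (Nat.succ p) 0 q :: zn3 kd x (Nat.succ p) q

/-- the sector `j` of two classes in three classes -/
def sec3 (kd r x j q : ℕ) : List ℕ :=
  bif Nat.beq (Nat.mod j 2) 0 then
    (bif Nat.beq r 1 then [En kd x (Nat.mul 3 (Nat.div j 2)) 0 q] else sec2 kd x (Nat.mul 3 (Nat.div j 2)) q)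
  else (bif Nat.beq r 1 then sec2 kd x (Nat.succ (Nat.mul 3 (Nat.div j 2))) q
    else [En kd x (Nat.add (Nat.mul 3 (Nat.div j 2)) 2) 0 q])

/-- the tick as numeral -/
def tkN (r j : ℕ) : ℕ := Nat.add (Nat.mul 3 (Nat.div j 2)) (Nat.mul (Nat.mod j 2) r)

/-- the atoms of three classes for an atom of two classes -/
def taA (r kd x j k q : ℕ) : List ℕ :=
  bif Nat.ble kd 1 then (bif Nat.beq k 0 then sec3 kd r x j q else [En kd x (tkN r j) k q])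
  else bif Nat.ble kd 3 then [En kd x (tkN r j) 0 q]
  else bif Nat.ble kd 5 then [En kd x 0 0 q]
  else bif Nat.beq kd 6 then [En 6 x 0 0 0]
  else bif Nat.ble kd 10 then [En kd x (tkN r j) k q]
  else bif Nat.beq kd 11 then
    List.append (sec3 0 r x (Nat.mul 2 j) q) (List.append (zn3 0 x (tkN r (Nat.succ (Nat.mul 2 j))) q)
      (sec3 0 r x (Nat.succ (Nat.mul 2 j)) q))
  else bif Nat.beq kd 12 then
    List.append (sec3 0 r x (Nat.mul 2 j) q) (zn3 0 x (tkN r (Nat.succ (Nat.mul 2 j))) q)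
  else List.append (zn3 0 x (tkN r (Nat.succ (Nat.mul 2 j))) q) (sec3 0 r x (Nat.succ (Nat.mul 2 j)) q)

/-- the atoms of three classes for the atom `n` -/
def ta (r : ℕ) (f : ℕ → ℕ) (n : ℕ) : List ℕ :=
  taA r (Nat.mod n 16) (f (Nat.mod (Nat.div n 16) 4096)) (Nat.mod (Nat.div n 65536) 256)
    (Nat.mod (Nat.div n 16777216) 8) (Nat.div n 134217728)

/-- admissible atoms; letters of the class 0 at moving points only for `r = 1` -/
def okr (r NP NW NW3 TC : ℕ) (f : ℕ → ℕ) (n : ℕ) : Bool :=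
  Nat.ble (Nat.succ (Nat.mod (Nat.div n 16) 4096)) NP &&
  (bif Nat.ble (Nat.mod n 16) 1 then
    Nat.ble (Nat.succ (Nat.mod (Nat.div n 65536) 256)) 12 && Nat.ble (Nat.mod (Nat.div n 16777216) 8) 3
  else bif Nat.ble (Nat.mod n 16) 3 then Nat.ble (Nat.succ (Nat.mod (Nat.div n 65536) 256)) 12
  else bif Nat.ble (Nat.mod n 16) 6 then true
  else bif Nat.ble (Nat.mod n 16) 8 then false
  else bif Nat.ble (Nat.mod n 16) 10 then
    Nat.ble (Nat.succ (Nat.mod (Nat.div n 65536) 256)) 12 && Nat.ble (Nat.mod (Nat.div n 16777216) 8) 3 &&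
      (Nat.ble (Nat.succ (Nat.mod (Nat.div n 16) 4096)) NW && Nat.ble (Nat.succ (f (Nat.mod (Nat.div n 16) 4096))) NW3) &&
      (Nat.beq r 1 || Nat.beq (Nat.mod (Nat.mod (Nat.div n 65536) 256) 2) 1 || fx0 TC (Nat.mod (Nat.div n 16) 4096))
  else bif Nat.ble (Nat.mod n 16) 13 then Nat.ble (Nat.succ (Nat.mod (Nat.div n 65536) 256)) 6
  else false)

theorem okr_spec {r NP NW NW3 TC n : ℕ} {f : ℕ → ℕ} (h : okr r NP NW NW3 TC f n = true) : a1 n < NP ∧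
    (((a0 n = 0 ∨ a0 n = 1) ∧ a2 n < 12 ∧ a3 n < 4) ∨ ((a0 n = 2 ∨ a0 n = 3) ∧ a2 n < 12) ∨
      (a0 n = 4 ∨ a0 n = 5 ∨ a0 n = 6) ∨ ((a0 n = 9 ∨ a0 n = 10) ∧ a2 n < 12 ∧ a3 n < 4 ∧ (a1 n < NW ∧ f (a1 n) < NW3) ∧
        (r = 1 ∨ a2 n % 2 = 1 ∨ fx0 TC (a1 n) = true)) ∨
      ((a0 n = 11 ∨ a0 n = 12 ∨ a0 n = 13) ∧ a2 n < 6)) := by
  unfold okr at h
  rw [Bool.and_eq_true, Nat.ble_eq] at h
  obtain ⟨h1, h2⟩ := h
  refine ⟨h1, ?_⟩
  have e0 : Nat.mod n 16 = a0 n := rfl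
  have e1 : Nat.mod (Nat.div n 16) 4096 = a1 n := rfl
  have e2 : Nat.mod (Nat.div n 65536) 256 = a2 n := rfl
  have e3 : Nat.mod (Nat.div n 16777216) 8 = a3 n := rfl
  have e4 : Nat.mod (a2 n) 2 = a2 n % 2 := rfl
  rw [e0, e1, e2, e3, e4] at h2
  have h16 : a0 n < 16 := Nat.mod_lt _ (by norm_num)
  simp only [Bool.cond_eq_ite, Nat.ble_eq, Nat.succ_eq_add_one] at h2
  split_ifs at h2 with k1 k2 k3 k4 k5 k6
  · rw [Bool.and_eq_true, Nat.ble_eq, Nat.ble_eq] at h2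
    left; exact ⟨by omega, by omega, by omega⟩
  · rw [Nat.ble_eq] at h2
    right; left; exact ⟨by omega, by omega⟩
  · right; right; left; omega
  · rw [Bool.and_eq_true, Bool.and_eq_true, Bool.and_eq_true, Bool.and_eq_true, Nat.ble_eq, Nat.ble_eq, Nat.ble_eq,
      Nat.ble_eq, Bool.or_eq_true, Bool.or_eq_true, nbeq, nbeq] at h2
    obtain ⟨⟨⟨h3, h4⟩, h5, h5'⟩, h6⟩ := h2
    right; right; right; left
    refine ⟨by omega, by omega, by omega, ⟨by omega, h5'⟩, ?_⟩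
    rcases h6 with (h6 | h6) | h6
    · exact Or.inl h6
    · exact Or.inr (Or.inl h6)
    · exact Or.inr (Or.inr h6)
  · rw [Nat.ble_eq] at h2
    right; right; right; right; exact ⟨by omega, by omega⟩

/-! ### cells -/

theorem cl_zn {S : Set ℂ} {x : ℂ} {a a' : ℕ → ℝ} {k j j' : ℕ} (hk : k ≠ 0) (h : a j = a' j') :
    Cl S x a k j ↔ Cl S x a' k j' := by
  unfold Cl ra
  rw [if_neg hk, if_neg hk, h]

theorem cl_sec1 {S : Set ℂ} {x : ℂ} {a a' : ℕ → ℝ} {j p : ℕ} (h : a j = a' p) (h' : a (j + 1) = a' (p + 1)) :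
    Cl S x a 0 j ↔ Cl S x a' 0 p := by
  rw [cl_zero, cl_zero]
  unfold ra
  rw [h, h']

theorem cl_sec2 {S : Set ℂ} {x : ℂ} {a a' : ℕ → ℝ} {K j p : ℕ} (A : Tick K a') (h : a j = a' p)
    (h' : a (j + 1) = a' (p + 2)) :
    Cl S x a 0 j ↔ Cl S x a' 0 p ∨ Cl S x a' 0 (p + 1) ∨ Cl S x a' 1 (p + 1) ∨ Cl S x a' 2 (p + 1) ∨
      Cl S x a' 3 (p + 1) := by
  have k1 : ra a j = ra a' p := by unfold ra; rw [h]
  have k2 : ra a (j + 1) = ra a' (p + 2) := by unfold ra; rw [h']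
  have k3 := CK.ra_lt A (Nat.lt_succ_self p)
  have k4 := CK.ra_lt A (Nat.lt_succ_self (p + 1))
  rw [cl_zero, k1, k2]
  constructor
  · rintro ⟨θ, hθ, hd⟩
    rcases lt_trichotomy θ (ra a' (p + 1)) with h1 | h1 | h1
    · exact Or.inl (cl_zero.2 ⟨θ, ⟨hθ.1, h1⟩, hd⟩)
    · rw [h1] at hd
      obtain ⟨k, h2, h3, h4⟩ := exists_zone hd
      right; right
      interval_cases k
      · exact Or.inl h4
      · exact Or.inr (Or.inl h4)
      · exact Or.inr (Or.inr h4)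
    · exact Or.inr (Or.inl (cl_zero.2 ⟨θ, ⟨h1, hθ.2⟩, hd⟩))
  · rintro (h1 | h1 | h1 | h1 | h1)
    · obtain ⟨θ, hθ, hd⟩ := cl_zero.1 h1
      exact ⟨θ, ⟨hθ.1, by linarith [hθ.2]⟩, hd⟩
    · obtain ⟨θ, hθ, hd⟩ := cl_zero.1 h1
      exact ⟨θ, ⟨by linarith [hθ.1], hθ.2⟩, hd⟩
    · exact ⟨_, ⟨k3, k4⟩, cl_ray (by norm_num) h1⟩
    · exact ⟨_, ⟨k3, k4⟩, cl_ray (by norm_num) h1⟩
    · exact ⟨_, ⟨k3, k4⟩, cl_ray (by norm_num) h1⟩

section
variable {NP3 NW3 TB3 : ℕ} {M : Md 3 NP3 NW3 (nbf 3 TB3)} {S : Set ℂ} {y : ℂ} {u1 s u : ℝ} {kd x q r : ℕ}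

theorem ex_zn3 (hav : ∀ k < 4, ∀ j < 18, av M (En kd x j k q) ↔ Cl S y (t3 u1 s u) k j) {j : ℕ} (hj : j < 18) :
    (∃ a ∈ zn3 kd x j q, av M a) ↔ Cl S y (t3 u1 s u) 1 j ∨ Cl S y (t3 u1 s u) 2 j ∨ Cl S y (t3 u1 s u) 3 j := by
  unfold zn3
  simp only [List.mem_cons, List.not_mem_nil, or_false, exists_eq_or_imp, exists_eq_left]
  rw [hav 1 (by norm_num) j hj, hav 2 (by norm_num) j hj, hav 3 (by norm_num) j hj]

theorem ex_sec2 (hav : ∀ k < 4, ∀ j < 18, av M (En kd x j k q) ↔ Cl S y (t3 u1 s u) k j) {p : ℕ} (hp : p + 1 < 18) :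
    (∃ a ∈ sec2 kd x p q, av M a) ↔ Cl S y (t3 u1 s u) 0 p ∨ Cl S y (t3 u1 s u) 0 (p + 1) ∨
      Cl S y (t3 u1 s u) 1 (p + 1) ∨ Cl S y (t3 u1 s u) 2 (p + 1) ∨ Cl S y (t3 u1 s u) 3 (p + 1) := by
  have h1 := ex_zn3 hav hp
  unfold sec2
  simp only [List.mem_cons, exists_eq_or_imp]
  rw [hav 0 (by norm_num) p (by omega), hav 0 (by norm_num) (Nat.succ p) hp]
  exact or_congr Iff.rfl (or_congr Iff.rfl h1)

theorem ex_sec3 (A : Tick 3 (t3 u1 s u)) (hr : r = 1 ∨ r = 2)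
    (hav : ∀ k < 4, ∀ j < 18, av M (En kd x j k q) ↔ Cl S y (t3 u1 s u) k j) {j : ℕ} (hj : j < 12) :
    (∃ a ∈ sec3 kd r x j q, av M a) ↔ Cl S y (t2 u1 (b3 u1 s u r)) 0 j := by
  have ht := t3_tkr (u1 := u1) (s := s) (u := u) hr
  have h1 := ht j
  have h2 := ht (j + 1)
  unfold tkr at h1 h2
  unfold sec3
  have em : Nat.mod j 2 = j % 2 := rfl
  have ed : Nat.div j 2 = j / 2 := rfl
  rcases Nat.mod_two_eq_zero_or_one j with h | h
  · have e1 : Nat.beq (Nat.mod j 2) 0 = true := by rw [em, h]; rfl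
    rw [e1, cond_true]
    have k1 : (j + 1) % 2 = 1 := by omega
    have k2 : (j + 1) / 2 = j / 2 := by omega
    rw [h, zero_mul, add_zero] at h1
    rw [k1, k2, one_mul] at h2
    rcases hr with rfl | rfl
    · have e2 : Nat.beq 1 1 = true := rfl
      rw [e2, cond_true]
      simp only [List.mem_cons, List.not_mem_nil, or_false, exists_eq_left]
      rw [hav 0 (by norm_num) _ (by rw [ed]; show 3 * (j / 2) < 18; omega)]
      exact (cl_sec1 h1.symm h2.symm).symm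
    · have e2 : Nat.beq 2 1 = false := rfl
      rw [e2, cond_false]
      rw [ex_sec2 hav (by rw [ed]; show 3 * (j / 2) + 1 < 18; omega)]
      exact (cl_sec2 A h1.symm h2.symm).symm
  · have e1 : Nat.beq (Nat.mod j 2) 0 = false := by rw [em, h]; rfl
    rw [e1, cond_false]
    have k1 : (j + 1) % 2 = 0 := by omega
    have k2 : (j + 1) / 2 = j / 2 + 1 := by omega
    rw [h, one_mul] at h1
    rw [k1, k2, zero_mul, add_zero] at h2
    rcases hr with rfl | rfl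
    · have e2 : Nat.beq 1 1 = true := rfl
      rw [e2, cond_true]
      rw [ex_sec2 hav (by rw [ed]; show 3 * (j / 2) + 1 + 1 < 18; omega)]
      refine (cl_sec2 A h1.symm ?_).symm
      rw [← h2]
      rfl
    · have e2 : Nat.beq 2 1 = false := rfl
      rw [e2, cond_false]
      simp only [List.mem_cons, List.not_mem_nil, or_false, exists_eq_left]
      rw [hav 0 (by norm_num) _ (by rw [ed]; show 3 * (j / 2) + 2 < 18; omega)]
      refine (cl_sec1 h1.symm ?_).symm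
      rw [← h2]
      rfl

end

/-! ### the transfer -/

section
variable {U : Fin 6 → Set ℂ} {T : ℂ → Set (Fin 6)} {NP NW TB TC NP3 NW3 TB3 TC3 : ℕ} {f : ℕ → ℕ} {r : ℕ}

/-- the neighbours of the table are neighbours at the times `u1`, `s`, `u` -/
def HY3 (NP3 TB3 TC3 : ℕ) (z : ℂ) (u1 s u : ℝ) : Prop := ∀ x < NP3, ∀ t < 6 * 3, nbf 3 TB3 x t < NP3 →
  Yt (t3 u1 s u) 3 TC3 z (nbf 3 TB3 x t) = Yt (t3 u1 s u) 3 TC3 z x + dir (t3 u1 s u t)

/-- the model of three classes, tables which are correct at the given times -/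
def mk3g (F : Hy U T) (hN3 : NP3 ≤ 4096) (hW3 : NW3 ≤ NP3) (z : ℂ) (σ : Equiv.Perm (Fin 6)) {u1 s u : ℝ} (h1 : u1 < s)
    (h2 : s < u) (h3 : u < u1 + 1) (hY : HY3 NP3 TB3 TC3 z u1 s u) {W : Fin NW3 → ℕ → ℕ → ℕ → Fin 6}
    (D : Wd U T 3 (t3 u1 s u) (Yw3 u1 s u TC3 z NW3) W) : Md 3 NP3 NW3 (nbf 3 TB3) :=
  mkMd F.h F.ct F.h5 F.ln (tick_t3 h1 h2 h3) σ (by norm_num) hN3 hW3 (Yt (t3 u1 s u) 3 TC3 z) hY D

/-- the model of three classes -/
abbrev mk3 (F : Hy U T) (B3 : Tb3 NP3 NW3 TB3 TC3) (z : ℂ) (σ : Equiv.Perm (Fin 6)) {u1 s u : ℝ} (h1 : u1 < s)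
    (h2 : s < u) (h3 : u < u1 + 1) {W : Fin NW3 → ℕ → ℕ → ℕ → Fin 6}
    (D : Wd U T 3 (t3 u1 s u) (Yw3 u1 s u TC3 z NW3) W) : Md 3 NP3 NW3 (nbf 3 TB3) :=
  mk3g F B3.hNP B3.hNW z σ h1 h2 h3 (hY_of_tchk (tick_t3 h1 h2 h3) z B3.ht) D

theorem if_or {p : Prop} {_ : Decidable p} {w b w' b' : ℕ} (h : w = w') (hb : b = b') :
    (if p then w else 6) = b ↔ (if p then w' else 6) = b' := by rw [h, hb]

theorem ex_one {P : ℕ → Prop} {b : ℕ} : (∃ a ∈ [b], P a) ↔ P b := by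
  simp only [List.mem_cons, List.not_mem_nil, or_false, exists_eq_left]

theorem ex_app {P : ℕ → Prop} {l l' : List ℕ} : (∃ a ∈ l ++ l', P a) ↔ (∃ a ∈ l, P a) ∨ ∃ a ∈ l', P a := by
  simp only [List.mem_append, or_and_right, exists_or]

/-- **the transfer of atoms** -/
theorem av_ta {F : Hy U T} {B : Tb NP NW TB TC} {hN3 : NP3 ≤ 4096} {hW3 : NW3 ≤ NP3} {z : ℂ} {σ : Equiv.Perm (Fin 6)}
    {u1 s u : ℝ} {h1 : u1 < s} {h2 : s < u} {h3 : u < u1 + 1} {hY : HY3 NP3 TB3 TC3 z u1 s u}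
    {W : Fin NW3 → ℕ → ℕ → ℕ → Fin 6}
    {D : Wd U T 3 (t3 u1 s u) (Yw3 u1 s u TC3 z NW3) W} (hr : r = 1 ∨ r = 2)
    (E : Emb NP NW NP3 TC TC3 f r) {hw : b3 u1 s u r ∈ Ioo u1 (u1 + 1)}
    {s0 s1 L R : Fin NW × Fin 6 → Fin 6 × Fin 6}
    {S : St4 U T (Yw u1 (b3 u1 s u r) TC z NW) u1 (b3 u1 s u r) s0 s1 L R} {ρ n : ℕ}
    (hW : ∀ x < NW, f x < NW3 → ∀ t < 12, (ρ = 1 ∨ t % 2 = 1 ∨ fx0 TC x = true) → ∀ sd < 2, ∀ io < 2,
      (mk3g F hN3 hW3 z σ h1 h2 h3 hY D).W (f x) (tkr r t) sd io = (mS F B z σ hw S).W x t sd io)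
    (h : okr ρ NP NW NW3 TC f n = true) :
    av (mS F B z σ hw S) n ↔ ∃ a ∈ ta r f n, av (mk3g F hN3 hW3 z σ h1 h2 h3 hY D) a := by
  obtain ⟨hx, h⟩ := okr_spec h
  have A := tick_t3 h1 h2 h3
  have hfx : f (a1 n) < 4096 := lt_of_lt_of_le (E.np _ hx) hN3
  have eY : Yt (t3 u1 s u) 3 TC3 z (f (a1 n)) = Yt (t2 u1 (b3 u1 s u r)) 2 TC z (a1 n) := E.pt hr hx
  have htk := t3_tkr (u1 := u1) (s := s) (u := u) hr
  have hlt : ∀ j < 12, tkr r j < 18 := fun j hj => by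
    unfold tkr
    rcases Nat.mod_two_eq_zero_or_one j with e | e
    · rw [e]; omega
    · rw [e]; rcases hr with rfl | rfl <;> omega
  have hav0 : ∀ k < 4, ∀ j < 18, av (mk3g F hN3 hW3 z σ h1 h2 h3 hY D) (En 0 (f (a1 n)) j k (a4 n)) ↔
      Cl (Sq T (co σ (a4 n))) (Yt (t2 u1 (b3 u1 s u r)) 2 TC z (a1 n)) (t3 u1 s u) k j := fun k hk j hj => by
    rw [av0 hfx (by omega) (by omega), ← eY]; exact Iff.rfl
  have hav1 : ∀ k < 4, ∀ j < 18, av (mk3g F hN3 hW3 z σ h1 h2 h3 hY D) (En 1 (f (a1 n)) j k (a4 n)) ↔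
      Cl (U (co σ (a4 n))) (Yt (t2 u1 (b3 u1 s u r)) 2 TC z (a1 n)) (t3 u1 s u) k j := fun k hk j hj => by
    rw [av1 hfx (by omega) (by omega), ← eY]; exact Iff.rfl
  have hT : ∀ q, (mk3g F hN3 hW3 z σ h1 h2 h3 hY D).T (f (a1 n)) q ↔ (mS F B z σ hw S).T (a1 n) q := fun q => by
    show co σ q ∈ T (Yt (t3 u1 s u) 3 TC3 z (f (a1 n))) ↔ co σ q ∈ T (Yt (t2 u1 (b3 u1 s u r)) 2 TC z (a1 n))
    rw [eY]
  -- sectors and zones
  have hs0 : ∀ j < 12, (∃ a ∈ sec3 0 r (f (a1 n)) j (a4 n), av (mk3g F hN3 hW3 z σ h1 h2 h3 hY D) a) ↔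
      Cl (Sq T (co σ (a4 n))) (Yt (t2 u1 (b3 u1 s u r)) 2 TC z (a1 n)) (t2 u1 (b3 u1 s u r)) 0 j :=
    fun j hj => ex_sec3 A hr hav0 hj
  have hz0 : ∀ j < 12, (∃ a ∈ zn3 0 (f (a1 n)) (tkN r j) (a4 n), av (mk3g F hN3 hW3 z σ h1 h2 h3 hY D) a) ↔
      ∃ k < 3, Cl (Sq T (co σ (a4 n))) (Yt (t2 u1 (b3 u1 s u r)) 2 TC z (a1 n)) (t2 u1 (b3 u1 s u r)) (k + 1) j := by
    intro j hj
    have e : tkN r j = tkr r j := rfl
    rw [e, ex_zn3 hav0 (hlt j hj), ← cl_zn (k := 1) (by norm_num) (htk j).symm,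
      ← cl_zn (k := 2) (by norm_num) (htk j).symm, ← cl_zn (k := 3) (by norm_num) (htk j).symm]
    constructor
    · rintro (k1 | k1 | k1)
      · exact ⟨0, by norm_num, k1⟩
      · exact ⟨1, by norm_num, k1⟩
      · exact ⟨2, by norm_num, k1⟩
    · rintro ⟨k, hk, k1⟩
      interval_cases k
      · exact Or.inl k1
      · exact Or.inr (Or.inl k1)
      · exact Or.inr (Or.inr k1)
  have hta : ta r f n = taA r (a0 n) (f (a1 n)) (a2 n) (a3 n) (a4 n) := rfl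
  rw [hta]
  obtain ⟨P3, hP⟩ : ∃ P3 : ℕ → Prop, ∀ a, P3 a ↔ av (mk3g F hN3 hW3 z σ h1 h2 h3 hY D) a := ⟨_, fun _ => Iff.rfl⟩
  have hex : ∀ l : List ℕ, (∃ a ∈ l, av (mk3g F hN3 hW3 z σ h1 h2 h3 hY D) a) ↔ ∃ a ∈ l, P3 a := fun l => by simp only [hP]
  rw [hex]
  unfold taA av
  rcases h with ⟨g1 | g1, g2, g3⟩ | ⟨g1 | g1, g2⟩ | (g1 | g1 | g1) | ⟨g1 | g1, g2, g3, g4, g5⟩ | ⟨g1 | g1 | g1, g2⟩
  · rw [g1]
    simp only [if_true]
    show Cl (Sq T (co σ (a4 n))) _ _ (a3 n) (a2 n) ↔ _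
    by_cases hk : a3 n = 0
    · rw [hk]
      exact (hs0 _ g2).symm.trans (hex _)
    · have e : Nat.beq (a3 n) 0 = false := by rw [← Bool.not_eq_true, nbeq]; exact hk
      rw [e]
      show _ ↔ ∃ a ∈ [En 0 (f (a1 n)) (tkr r (a2 n)) (a3 n) (a4 n)], P3 a
      rw [ex_one, hP]
      exact (cl_zn hk (htk _).symm).trans (hav0 _ g3 _ (hlt _ g2)).symm
  · rw [g1]
    simp only [if_true, one_ne_zero, if_false]
    show Cl (U (co σ (a4 n))) _ _ (a3 n) (a2 n) ↔ _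
    by_cases hk : a3 n = 0
    · rw [hk]
      exact (ex_sec3 A hr hav1 g2).symm.trans (hex _)
    · have e : Nat.beq (a3 n) 0 = false := by rw [← Bool.not_eq_true, nbeq]; exact hk
      rw [e]
      show _ ↔ ∃ a ∈ [En 1 (f (a1 n)) (tkr r (a2 n)) (a3 n) (a4 n)], P3 a
      rw [ex_one, hP]
      exact (cl_zn hk (htk _).symm).trans (hav1 _ g3 _ (hlt _ g2)).symm
  · rw [g1]
    show HI (Sq T (co σ (a4 n))) (Yt (t2 u1 (b3 u1 s u r)) 2 TC z (a1 n)) (t2 u1 (b3 u1 s u r)) (a2 n) ↔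
      ∃ a ∈ [En 2 (f (a1 n)) (tkr r (a2 n)) 0 (a4 n)], P3 a
    have g3 := hlt _ g2
    rw [ex_one, hP, av2 hfx (show tkr r (a2 n) < 256 by omega)]
    show _ ↔ HI (Sq T (co σ (a4 n))) (Yt (t3 u1 s u) 3 TC3 z (f (a1 n))) (t3 u1 s u) (tkr r (a2 n))
    unfold HI
    rw [eY, htk]
  · rw [g1]
    show HI (U (co σ (a4 n))) (Yt (t2 u1 (b3 u1 s u r)) 2 TC z (a1 n)) (t2 u1 (b3 u1 s u r)) (a2 n) ↔
      ∃ a ∈ [En 3 (f (a1 n)) (tkr r (a2 n)) 0 (a4 n)], P3 a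
    have g3 := hlt _ g2
    rw [ex_one, hP, av3 hfx (show tkr r (a2 n) < 256 by omega)]
    show _ ↔ HI (U (co σ (a4 n))) (Yt (t3 u1 s u) 3 TC3 z (f (a1 n))) (t3 u1 s u) (tkr r (a2 n))
    unfold HI
    rw [eY, htk]
  · rw [g1]
    show (mS F B z σ hw S).T (a1 n) (a4 n) ↔ ∃ a ∈ [En 4 (f (a1 n)) 0 0 (a4 n)], P3 a
    rw [ex_one, hP, av4 hfx]
    exact (hT _).symm
  · rw [g1]
    show co σ (a4 n) ∈ Pal U (Yt (t2 u1 (b3 u1 s u r)) 2 TC z (a1 n)) ↔ ∃ a ∈ [En 5 (f (a1 n)) 0 0 (a4 n)], P3 a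
    rw [ex_one, hP, av5 hfx, ← eY]
    exact Iff.rfl
  · rw [g1]
    show Yt (t2 u1 (b3 u1 s u r)) 2 TC z (a1 n) ∈ XX U ↔ ∃ a ∈ [En 6 (f (a1 n)) 0 0 0], P3 a
    rw [ex_one, hP, av6 hfx, ← eY]
    exact Iff.rfl
  · rw [g1]
    show (mS F B z σ hw S).W (a1 n) (a2 n) (a3 n / 2) (a3 n % 2) = a4 n ↔
      ∃ a ∈ [En 9 (f (a1 n)) (tkr r (a2 n)) (a3 n) (a4 n)], P3 a
    have g6 := hlt _ g2
    rw [ex_one, hP, av9 hfx (show tkr r (a2 n) < 256 by omega) (by omega)]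
    show _ ↔ (mk3g F hN3 hW3 z σ h1 h2 h3 hY D).W (f (a1 n)) (tkr r (a2 n)) (a3 n / 2) (a3 n % 2) = a4 n
    rw [hW _ g4.1 g4.2 _ g2 g5 _ (by omega) _ (by omega)]
  · rw [g1]
    show (mS F B z σ hw S).L (a1 n) (a2 n) (a3 n / 2) (a3 n % 2) = a4 n ↔
      ∃ a ∈ [En 10 (f (a1 n)) (tkr r (a2 n)) (a3 n) (a4 n)], P3 a
    have g6 := hlt _ g2
    rw [ex_one, hP, av10 hfx (show tkr r (a2 n) < 256 by omega) (by omega)]
    show _ ↔ (mk3g F hN3 hW3 z σ h1 h2 h3 hY D).L (f (a1 n)) (tkr r (a2 n)) (a3 n / 2) (a3 n % 2) = a4 n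
    unfold Md.L
    rw [hW _ g4.1 g4.2 _ g2 g5 _ (by omega) 0 (by omega), hW _ g4.1 g4.2 _ g2 g5 _ (by omega) 1 (by omega),
      hW _ g4.1 g4.2 _ g2 g5 _ (by omega) _ (by omega)]
    exact if_tr (and_congr (hT _).symm (hT _).symm)
  · rw [g1]
    show (Cl (Sq T (co σ (a4 n))) _ _ 0 (2 * a2 n) ∨ Cl (Sq T (co σ (a4 n))) _ _ 0 (2 * a2 n + 1) ∨
      ∃ k < 3, Cl (Sq T (co σ (a4 n))) _ _ (k + 1) (2 * a2 n + 1)) ↔
      ∃ a ∈ sec3 0 r (f (a1 n)) (2 * a2 n) (a4 n) ++ (zn3 0 (f (a1 n)) (tkN r (2 * a2 n + 1)) (a4 n) ++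
        sec3 0 r (f (a1 n)) (2 * a2 n + 1) (a4 n)), P3 a
    rw [← hex, ex_app, ex_app, hs0 _ (by omega), hs0 _ (by omega), hz0 _ (by omega)]
    constructor
    · rintro (k1 | k1 | k1)
      · exact Or.inl k1
      · exact Or.inr (Or.inr k1)
      · exact Or.inr (Or.inl k1)
    · rintro (k1 | k1 | k1)
      · exact Or.inl k1
      · exact Or.inr (Or.inr k1)
      · exact Or.inr (Or.inl k1)
  · rw [g1]
    show (Cl (Sq T (co σ (a4 n))) _ _ 0 (2 * a2 n) ∨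
      ∃ k < 3, Cl (Sq T (co σ (a4 n))) _ _ (k + 1) (2 * a2 n + 1)) ↔
      ∃ a ∈ sec3 0 r (f (a1 n)) (2 * a2 n) (a4 n) ++ zn3 0 (f (a1 n)) (tkN r (2 * a2 n + 1)) (a4 n), P3 a
    rw [← hex, ex_app, hs0 _ (by omega), hz0 _ (by omega)]
  · rw [g1]
    show (Cl (Sq T (co σ (a4 n))) _ _ 0 (2 * a2 n + 1) ∨
      ∃ k < 3, Cl (Sq T (co σ (a4 n))) _ _ (k + 1) (2 * a2 n + 1)) ↔
      ∃ a ∈ zn3 0 (f (a1 n)) (tkN r (2 * a2 n + 1)) (a4 n) ++ sec3 0 r (f (a1 n)) (2 * a2 n + 1) (a4 n), P3 a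
    rw [← hex, ex_app, hs0 _ (by omega), hz0 _ (by omega)]
    exact or_comm

end

/-! ### two times in one model -/

/-- the clauses of three classes for the literal `l` -/
def tl (r : ℕ) (f : ℕ → ℕ) (l : ℕ) : List (List ℕ) :=
  bif Nat.beq (Nat.mod l 2) 0 then [(ta r f (Nat.div l 2)).map H820.K.ps] else (ta r f (Nat.div l 2)).map fun a => [H820.K.ng a]

/-- the clauses of three classes for the literals `P` at the first time and `P'` at the second time -/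
def e3 (f1 f2 : ℕ → ℕ) (P P' : List ℕ) : List (List ℕ) := P.flatMap (tl 1 f1) ++ P'.flatMap (tl 2 f2)

/-- the two maps agree at the fixed centres -/
def same12 (NW TC : ℕ) (f1 f2 : ℕ → ℕ) : Bool := al (fun x => !(fx0 TC x) || Nat.beq (f1 x) (f2 x)) NW

section
variable {U : Fin 6 → Set ℂ} {T : ℂ → Set (Fin 6)} {NP NW TB TC NP3 NW3 TB3 TC3 : ℕ} {f f1 f2 : ℕ → ℕ} {r : ℕ}

theorem ho_tl {M : Md 3 NP3 NW3 (nbf 3 TB3)} {M2 : Md 2 NP NW (nbf 2 TB)} {l : ℕ}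
    (h : av M2 (l / 2) ↔ ∃ a ∈ ta r f (l / 2), av M a) (hl : lv M2 l) : ∀ c ∈ tl r f l, Ho M c := by
  intro c hc
  unfold tl at hc
  have e1 : Nat.mod l 2 = l % 2 := rfl
  have e2 : Nat.div l 2 = l / 2 := rfl
  unfold lv at hl
  rcases Nat.mod_two_eq_zero_or_one l with h0 | h0
  · rw [if_pos h0] at hl
    rw [e1, h0, e2] at hc
    have hc : c ∈ [(ta r f (l / 2)).map H820.K.ps] := hc
    rw [List.mem_singleton] at hc
    subst hc
    obtain ⟨a, ha, hv⟩ := h.1 hl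
    exact ⟨H820.K.ps a, List.mem_map_of_mem ha, H820.K.lv_ps.2 hv⟩
  · rw [if_neg (by omega)] at hl
    rw [e1, h0, e2] at hc
    have hc : c ∈ (ta r f (l / 2)).map fun a => [H820.K.ng a] := hc
    rw [List.mem_map] at hc
    obtain ⟨a, ha, rfl⟩ := hc
    exact ⟨H820.K.ng a, List.mem_cons_self, H820.K.lv_ng.2 fun hv => hl (h.2 ⟨a, ha, hv⟩)⟩

theorem tkr_mod_even {t : ℕ} (h : t % 2 = 0) : tkr r t % 3 = 0 ∧ tkr r t / 3 = t / 2 := by
  unfold tkr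
  rw [h]
  omega

theorem tkr_mod_odd {t : ℕ} (hr : r = 1 ∨ r = 2) (h : t % 2 = 1) : tkr r t % 3 = r ∧ tkr r t / 3 = t / 2 := by
  unfold tkr
  rw [h]
  rcases hr with rfl | rfl <;> omega

theorem wdK_eq {J : Type*} {Rr Lr : ℕ → J × Fin 6 → Fin 6 × Fin 6} {j : J} {t sd io c m : ℕ} (h1 : t % 3 = c)
    (h2 : t / 3 = m) : wdK 3 Rr Lr j t sd io =
      if io = 0 then (if sd = 1 then Rr c (j, f6 m) else Lr c (j, f6 m)).1
      else (if sd = 1 then Rr c (j, f6 m) else Lr c (j, f6 m)).2 := by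
  subst h1 h2
  rfl

/-- **Literals at two times in one model of three classes.** -/
theorem pair3 (F : Hy U T) (B : Tb NP NW TB TC) (B3 : Tb3 NP3 NW3 TB3 TC3) {z : ℂ} {σ : Equiv.Perm (Fin 6)}
    {u1 s u : ℝ} (hs : s ∈ Ioo u1 (u1 + 1)) (hu : u ∈ Ioo u1 (u1 + 1)) (hsu : s < u)
    (hE1 : emb NP NW NP3 TC TC3 f1 1 = true) (hE2 : emb NP NW NP3 TC TC3 f2 2 = true)
    (hE : same12 NW TC f1 f2 = true)
    {s0 s1 L R s0' s1' L' R' : Fin NW × Fin 6 → Fin 6 × Fin 6}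
    (S : St4 U T (Yw u1 s TC z NW) u1 s s0 s1 L R) (S' : St4 U T (Yw u1 u TC z NW) u1 u s0' s1' L' R')
    (e0 : rs TC s0 = rs TC s0') (e1 : rs TC s1 = rs TC s1') {P P' : List ℕ}
    (okP : ∀ l ∈ P, okr 1 NP NW NW3 TC f1 (Nat.div l 2) = true)
    (okP' : ∀ l ∈ P', okr 2 NP NW NW3 TC f2 (Nat.div l 2) = true)
    (hP : ∀ l ∈ P, lv (mS F B z σ hs S) l) (hP' : ∀ l ∈ P', lv (mS F B z σ hu S') l) :
    ∃ M : Md 3 NP3 NW3 (nbf 3 TB3), ∀ c ∈ e3 f1 f2 P P', Ho M c := by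
  have E1 := emb_spec hE1
  have E2 := emb_spec hE2
  obtain ⟨Rr, Lr, D, k1, k2⟩ := exists_w3 F B.hNW E1 E2 S S'
  have r1 : (1 : ℕ) = 1 ∨ (1 : ℕ) = 2 := Or.inl rfl
  have r2 : (2 : ℕ) = 1 ∨ (2 : ℕ) = 2 := Or.inr rfl
  -- letters
  have hW1 : ∀ x < NW, f1 x < NW3 → ∀ t < 12, (1 = 1 ∨ t % 2 = 1 ∨ fx0 TC x = true) → ∀ sd < 2, ∀ io < 2,
      (mk3 F B3 z σ hs.1 hsu hu.2 D).W (f1 x) (tkr 1 t) sd io = (mS F B z σ hs S).W x t sd io := by
    intro x hx hx3 t _ _ sd _ io _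
    show nC σ 3 NW3 (fun _ => wdK 3 Rr Lr) (f1 x) (tkr 1 t) sd io = nC σ 2 NW (fun _ => wds s0 s1 L R) x t sd io
    rw [nC_eq hx3, nC_eq hx]
    congr 1
    have k := k1 ⟨x, hx⟩ hx3
    rcases Nat.mod_two_eq_zero_or_one t with h | h
    · obtain ⟨m1, m2⟩ := tkr_mod_even (r := 1) h
      rw [wdK_eq m1 m2]
      unfold wds
      rw [(k _).1, (k _).2.1, f6_add]
      simp only [if_pos h]
    · obtain ⟨m1, m2⟩ := tkr_mod_odd r1 h
      rw [wdK_eq m1 m2]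
      unfold wds
      rw [(k _).2.2.1, (k _).2.2.2]
      simp only [if_neg (show ¬ t % 2 = 0 by omega)]
  have hW2 : ∀ x < NW, f2 x < NW3 → ∀ t < 12, (2 = 1 ∨ t % 2 = 1 ∨ fx0 TC x = true) → ∀ sd < 2, ∀ io < 2,
      (mk3 F B3 z σ hs.1 hsu hu.2 D).W (f2 x) (tkr 2 t) sd io = (mS F B z σ hu S').W x t sd io := by
    intro x hx hx3 t _ hor sd _ io _
    show nC σ 3 NW3 (fun _ => wdK 3 Rr Lr) (f2 x) (tkr 2 t) sd io = nC σ 2 NW (fun _ => wds s0' s1' L' R') x t sd io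
    rw [nC_eq hx3, nC_eq hx]
    congr 1
    rcases Nat.mod_two_eq_zero_or_one t with h | h
    · have hfx : fx0 TC x = true := by
        rcases hor with h1 | h1 | h1
        · omega
        · omega
        · exact h1
      have hf := al_spec hE x hx
      rw [hfx, Bool.not_true, Bool.false_or, nbeq] at hf
      obtain ⟨m1, m2⟩ := tkr_mod_even (r := 2) h
      have hx1 : f1 x < NW3 := by rw [hf]; exact hx3
      have k := k1 ⟨x, hx⟩ hx1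
      have ef : (⟨f2 x, hx3⟩ : Fin NW3) = ⟨f1 x, hx1⟩ := Fin.ext hf.symm
      have es0 : ∀ d, s0 (⟨x, hx⟩, d) = s0' (⟨x, hx⟩, d) := fun d => congrFun e0 (⟨x, hx, hfx⟩, d)
      have es1 : ∀ d, s1 (⟨x, hx⟩, d) = s1' (⟨x, hx⟩, d) := fun d => congrFun e1 (⟨x, hx, hfx⟩, d)
      rw [wdK_eq m1 m2, ef]
      unfold wds
      rw [(k _).1, (k _).2.1, f6_add, es0, es1]
      simp only [if_pos h]
    · obtain ⟨m1, m2⟩ := tkr_mod_odd r2 h
      have k := k2 ⟨x, hx⟩ hx3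
      rw [wdK_eq m1 m2]
      unfold wds
      rw [(k _).1, (k _).2]
      simp only [if_neg (show ¬ t % 2 = 0 by omega)]
  refine ⟨mk3 F B3 z σ hs.1 hsu hu.2 D, fun c hc => ?_⟩
  unfold e3 at hc
  rw [List.mem_append, List.mem_flatMap, List.mem_flatMap] at hc
  rcases hc with ⟨l, hl, hc⟩ | ⟨l, hl, hc⟩
  · exact ho_tl (av_ta (r := 1) (hw := hs) (S := S) r1 E1 hW1 (okP l hl)) (hP l hl) c hc
  · exact ho_tl (av_ta (r := 2) (hw := hu) (S := S') r2 E2 hW2 (okP' l hl)) (hP' l hl) c hc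

end

end Vale.Agent.P032.H357.MK
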